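import Vale.Agent.P283B.MK.St
import Vale.Agent.P283B.LS.Eta
import Vale.Agent.P283B.LM.Hart
import Vale.Agent.P283B.LM.Split
import Vale.Agent.P283B.VOL.Mw

/-!
# P283B, block MK: the number of sections (row CNT)
-/

set_option linter.unusedSectionVars false

open Set Polynomial Filter Topology
open Vale.Agent.P297Z

noncomputable section

namespace Vale.Agent.P283B.Mk

open P287D P287D.Cb Wp Ls Ls.Ea Ls.Sl Mb Lm

namespace Cn

variable {L ι : Type} [Field L] [Algebra ℂ L] [Fintype ι] {y : ι → L} {θ : L} {P : Pl L}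
  {A B : (ι → ℂ) → Prop}

/-- a property of general points -/
def Gp (A : (ι → ℂ) → Prop) : Prop :=
  ∃ g : MvPolynomial ι ℂ, g ≠ 0 ∧ ∀ c, MvPolynomial.eval c g ≠ 0 → A c

theorem Gp.mono (h : Gp A) (k : ∀ c, A c → B c) : Gp B :=
  let ⟨g, a, b⟩ := h; ⟨g, a, fun c x => k c (b c x)⟩

theorem Gp.and (h : Gp A) (k : Gp B) : Gp fun c => A c ∧ B c :=
  let ⟨g, a, b⟩ := h
  let ⟨g', a', b'⟩ := k
  ⟨g * g', mul_ne_zero a a', fun c x => by
    rw [map_mul, mul_ne_zero_iff] at x
    exact ⟨b c x.1, b' c x.2⟩⟩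

theorem Gp.ex (h : Gp A) : ∃ c, A c := by
  obtain ⟨g, a, b⟩ := h
  by_contra! x
  exact a (MvPolynomial.funext fun c => by_contra fun z => x c (b c z))

/-- the coordinates at the point `c` -/
abbrev sh (y : ι → L) (c : ι → ℂ) : ι → L := fun i => y i - algebraMap ℂ L (c i)

theorem fi_sh {c : ι → ℂ} (h : Ce (sh y c) P) : Ls.Fi y P := fun i => by
  simpa using add_mem (ce_fi h i) (P.con (c i))

theorem ey_sh (c : ι → ℂ) (a : (MvPolynomial ι ℂ)[X]) : ey (sh y c) θ (a.map (MvPolynomial.aeval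
    (fun i => MvPolynomial.X i + MvPolynomial.C (c i)) : _ →ₐ[ℂ] _)) = ey y θ a := by
  rw [ey, ey, eval₂_map]
  congr 1
  refine MvPolynomial.ringHom_ext (fun c => ?_) fun i => ?_ <;> simp

variable (hL : FF L (Fintype.card ι)) (hy : AlgebraicIndependent ℂ y)

include hL hy

theorem reg (f : L) : Gp fun c => ∀ P, Ce (sh y c) P → f ∈ P.ring := by
  obtain ⟨g, g0, k⟩ := Ha.den hL hy f
  refine ⟨g, g0, fun c x P h => ?_⟩
  have u : ¬ Mx P (MvPolynomial.aeval y g) := fun m => x (by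
    rw [← rd_eq_zero m.mem, rd_aeval (fi_sh h), show (fun i => P.rd (y i)) =
      algebraMap ℂ P.κ ∘ c from funext fun i => by
        rw [Function.comp, ← rd_const, ← sub_eq_zero, ← rd_sub (fi_sh h i) (P.con _), rd_eq_zero (ce_fi h i)]
        exact mx_iff.2 (.inr (h i)), MvPolynomial.aeval_algebraMap_apply, map_eq_zero] at m
    exact m)
  simpa [show MvPolynomial.aeval y g ≠ 0 from fun z => u (z ▸ mx_zero)] using
    mul_mem (inv_mem_of u) (Ha.icl_mem (fi_sh h) k)

/-- Cartier b-divisors vanish over general points -/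
theorem kill {β : BD L} (h : β ∈ Car L) : Gp fun c => ∀ P, Ce (sh y c) P → β P = 0 := by
  classical
  refine Car.ind (p := fun β => Gp fun c => ∀ P, Ce (sh y c) P → β P = 0) h (fun s hs => ?_)
    (fun a b _ _ u v => (u.and v).mono fun c x P h => by rw [Pi.add_apply, x.1 P h, x.2 P h,
      add_zero]) fun r a _ u => u.mono fun c x P h => by rw [Pi.smul_apply, x P h, smul_zero]
  have : ∀ s : Finset L, Gp fun c => ∀ P, Ce (sh y c) P → ∀ f ∈ s, P.ord f = 0 := fun s => by
    induction s using Finset.induction_on with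
    | empty => exact ⟨1, one_ne_zero, by simp⟩
    | insert f s _ ih =>
      exact (ih.and ((reg hL hy f).and (reg hL hy f⁻¹))).mono fun c x P h =>
        Finset.forall_mem_insert _ _ _ |>.2 ⟨Pl.ord_unit _ (x.2.1 P h) (x.2.2 P h), x.1 P h⟩
  refine (this s).mono fun c x P h => ?_
  obtain ⟨f, hf, -, e⟩ := P.exists_mz hs
  rw [mx_apply, e, x P h f hf, neg_zero, Int.cast_zero]

/-- a primitive element -/
theorem prim : ∃ (θ : L) (F : (MvPolynomial ι ℂ)[X]), F.Monic ∧ ey y θ F = 0 ∧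
    ey y θ F.derivative ≠ 0 ∧ IntermediateField.adjoin ℂ (insert θ (range y)) = ⊤ := by
  have e := (Fintype.equivFin ι).symm
  have fd := hL.fin (hy.comp _ e.injective)
  rw [e.surjective.range_comp] at fd
  obtain ⟨α, hα⟩ := Field.exists_primitive_element (IntermediateField.adjoin ℂ (range y)) L
  obtain ⟨b, b0, i⟩ := Ha.den hL hy α
  replace b0 : MvPolynomial.aeval y b ≠ 0 := mt (algebraicIndependent_iff.1 hy b) b0
  obtain ⟨F, ⟨m, r⟩, mn⟩ := (measure natDegree).wf.has_min _ (Lm.Sp.icl_iff.1 i)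
  have n0 : F.natDegree ≠ 0 := fun k => by
    rw [m.natDegree_eq_zero.1 k] at r
    simp [ey] at r
  refine ⟨_, F, m, r, fun k => ?_, ?_⟩
  · have c0 : (F.natDegree : ℂ) ≠ 0 := Nat.cast_ne_zero.2 n0
    refine mn (C (MvPolynomial.C (F.natDegree : ℂ)⁻¹) * F.derivative) ⟨?_, ?_⟩ ?_
    · refine monic_C_mul_of_mul_leadingCoeff_eq_one ?_
      rw [leadingCoeff_derivative, m.leadingCoeff, one_mul, ← map_natCast MvPolynomial.C,
        ← map_mul, inv_mul_cancel₀ c0, map_one]
    · rw [ey] at k ⊢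
      rw [eval₂_mul, k, mul_zero]
    · exact (natDegree_C_mul_le _ _).trans_lt (natDegree_derivative_lt n0)
  · have le := IntermediateField.adjoin.mono ℂ _ _
      (subset_insert (MvPolynomial.aeval y b * α) (range y))
    refine eq_top_iff.2 fun f _ => (IntermediateField.adjoin_simple_le_iff (K :=
      IntermediateField.extendScalars le) |>.2 ?_) (hα.ge trivial)
    rw [IntermediateField.mem_extendScalars, ← mul_div_cancel_left₀ α b0]
    nth_rw 1 [mul_div_cancel_left₀ α b0]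
    exact div_mem (IntermediateField.subset_adjoin _ _ (mem_insert _ _))
      (le (IntermediateField.algebra_adjoin_le_adjoin _ _
        ((Algebra.adjoin_range_eq_range_aeval ℂ y).ge ⟨b, rfl⟩)))

/-- monomial places -/
theorem mon (c : ι → ℂ) {w : ι → ℕ} (hw : w ≠ 0) : ∃ (P : Pl L) (e : ℝ), 0 < e ∧
    (∀ i, (P.ord (sh y c i) : ℝ) = e * w i) ∧ kq y P + 1 = ∑ i, (P.ord (sh y c i) : ℝ) := by
  obtain ⟨o, -⟩ := Function.ne_iff.1 hw
  obtain ⟨n, hn⟩ := Nat.exists_eq_succ_of_ne_zero (Fintype.card_pos_iff.2 ⟨o⟩).ne'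
  let a := (Fintype.equivFinOfCardEq hn).symm
  rw [hn] at hL
  obtain ⟨T, e, -, h1, h2⟩ := Vo.mw n L hL (sh y c ∘ a) (w ∘ a) ((ind_sub hy c).comp _ a.injective)
    fun z => hw (a.surjective.injective_comp_right z)
  obtain ⟨P, hP⟩ : T.Nonempty := by
    by_contra x
    have := h2 1 (fun i => MvPolynomial.C ((X - 1 : ℂ[X]).coeff i)) (∑ j, ((w ∘ a) j : ℝ) + 1)
      (fun i => by
        simp only [minpoly.one, coeff_sub, coeff_X, coeff_one]
        split_ifs <;> simp) (fun P p => absurd ⟨P, p⟩ x) 0 0 (by simp)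
    have d : Vo.dg (sh y c ∘ a) 1 = 1 := by
      rw [Vo.dg, minpoly.one, ← C_1, natDegree_X_sub_C]
    simp [d] at this
    linarith
  obtain ⟨p1, p2, -, p3⟩ := h1 P hP
  refine ⟨P, e P, p2, fun i => by simpa using p3 (a.symm i), ?_⟩
  rw [kq_eq hL a, ← kap_sub (y ∘ a) (c ∘ a), ← a.sum_comp]
  exact sub_eq_zero.1 p1

omit hL hy

theorem den (h : IntermediateField.adjoin ℂ (insert θ (range y)) = ⊤) {V : Submodule ℂ L}
    (hV : V.FG) : ∃ B, B ≠ 0 ∧ ∀ f ∈ V, ∃ a, B * f = ey y θ a := by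
  have : ∃ B ∈ Algebra.adjoin ℂ (insert θ (range y)), B ≠ 0 ∧
      ∀ f ∈ V, B * f ∈ Algebra.adjoin ℂ (insert θ (range y)) := by
    induction V, hV using Submodule.fg_induction with
    | singleton x =>
      obtain ⟨a, ha, b, hb, rfl⟩ := IntermediateField.mem_adjoin_iff_div.1 (h.ge (x := x) trivial)
      by_cases b0 : b = 0
      · exact ⟨1, one_mem _, one_ne_zero, by simp [b0]⟩
      refine ⟨b, hb, b0, fun f hf => ?_⟩
      obtain ⟨r, rfl⟩ := Submodule.mem_span_singleton.1 hf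
      rw [mul_smul_comm, mul_div_cancel₀ _ b0]
      exact Subalgebra.smul_mem _ ha r
    | sup U W _ _ u v =>
      obtain ⟨a, a1, a0, a2⟩ := u
      obtain ⟨b, b1, b0, b2⟩ := v
      refine ⟨a * b, mul_mem a1 b1, mul_ne_zero a0 b0, fun f hf => ?_⟩
      obtain ⟨r, hr, s, hs, rfl⟩ := Submodule.mem_sup.1 hf
      rw [mul_add, mul_right_comm, mul_assoc a b]
      exact add_mem (mul_mem (a2 r hr) b1) (mul_mem a1 (b2 s hs))
  obtain ⟨B, -, B0, k⟩ := this
  refine ⟨B, B0, fun f hf => ?_⟩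
  have := k f hf
  rw [show insert θ (range y) = _ from (Option.range_eq fun o : Option ι => o.elim θ y).symm,
    Algebra.adjoin_range_eq_range_aeval] at this
  obtain ⟨p, e⟩ := this
  exact ⟨_, e.symm.trans (ey_opt y θ p).symm⟩

/-- the Taylor expansion at an etale point -/
theorem core (h : Ce y P) {F : (MvPolynomial ι ℂ)[X]} (m : F.Monic) (r : ey y θ F = 0)
    (u : ¬ Mx P (ey y θ F.derivative)) {V : Submodule ℂ L} [Module.Finite ℂ V] {B : L}
    (B0 : B ≠ 0) (B1 : P.ord B = 0) (hB : ∀ f ∈ V, ∃ a, B * f = ey y θ a) {R : ℝ}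
    (hR : ∀ f ∈ V, f ≠ 0 → P.ord f ≤ R) :
    Module.finrank ℂ V ≤ ∏ i, (⌊R / P.ord (y i)⌋₊ + 1) := by
  classical
  have t := int_mem' (ce_fi h) m r
  obtain ⟨c, hc⟩ := exists_res (a := P.rd θ) (m.map MvPolynomial.constantCoeff).ne_zero (by
    rw [← rd_eH h t, ← ey_eq, r, rd_eq_zero (zero_mem _)]; exact mx_zero)
  have k : Mx P (θ - algebraMap ℂ L c) := by
    rw [← rd_eq_zero (sub_mem t (P.con c)), rd_sub t (P.con c), rd_const, hc, sub_self]
  let b := Module.finBasis ℂ V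
  choose a ha using fun j => hB _ (b j).2
  choose p hp using fun j => approx r ((mx_eH h k F).1 (ey_eq (θ := θ) F ▸ r ▸ mx_zero))
    (mt (mx_eH h k _).2 u) (a j) (⌊R⌋₊ + 1)
  let Ψ := b.constr ℂ p
  have ap : ∀ f : V, B * f - MvPolynomial.aeval y (Ψ f) ∈ P.sub (-(⌊R⌋₊ + 1 : ℕ)) := fun f =>
    (Submodule.span_le (p := (P.sub (-(⌊R⌋₊ + 1 : ℕ))).comap ((LinearMap.mulLeft ℂ B).comp
      V.subtype - (MvPolynomial.aeval y).toLinearMap.comp Ψ))).2 (by
        rintro _ ⟨j, rfl⟩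
        change B * b j - MvPolynomial.aeval y (Ψ (b j)) ∈ P.sub _
        rw [ha, b.constr_basis]
        exact (hp j P h k).imp_right fun x => sub_nonneg.2 (by exact_mod_cast x)) (b.mem_span f)
  have := LinearMap.finrank_le_finrank_of_injective (f := (LinearMap.pi
    fun d : (i : ι) → Fin (⌊R / P.ord (y i)⌋₊ + 1) =>
      MvPolynomial.lcoeff ℂ (Finsupp.equivFunOnFinite.symm fun i => d i)).comp Ψ)
    ((injective_iff_map_eq_zero _).2 fun f hf => by_contra fun f0 => ?_)
  · simpa using this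
  have y0 : ∀ i, y i ≠ 0 := fun i z => by simpa [z] using h i
  have q : MvPolynomial.aeval y (Ψ f) ∈ P.sub (-(⌊R⌋₊ + 1 : ℕ)) := by
    rw [MvPolynomial.aeval_def, MvPolynomial.eval₂_eq']
    refine sum_mem fun d hd => ?_
    rw [← Algebra.smul_def]
    refine Submodule.smul_mem _ _ (.inr (sub_nonneg.2 ?_))
    obtain ⟨i, hi⟩ : ∃ i, ⌊R / P.ord (y i)⌋₊ + 1 ≤ d i := by
      by_contra! x
      exact MvPolynomial.mem_support_iff.1 hd (by simpa using congrFun hf fun i => ⟨d i, x i⟩)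
    have o : (0 : ℝ) < P.ord (y i) := Int.cast_pos.2 (h i)
    have : R < ((d i * P.ord (y i) : ℤ) : ℝ) := by
      rw [Int.cast_mul, ← div_lt_iff₀ o]
      exact (Nat.lt_floor_add_one _).trans_le (by exact_mod_cast hi)
    have z : (⌊R⌋₊ : ℤ) < d i * P.ord (y i) := by
      rcases le_total 0 R with x | x
      · exact_mod_cast (Nat.floor_le x).trans_lt this
      · rw [Nat.floor_of_nonpos x]
        exact mul_pos (by omega) (h i)
    rw [P.ord_prod _ fun i _ => pow_ne_zero _ (y0 i)]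
    simp only [Pl.ord_pow]
    exact_mod_cast (Int.add_one_le_of_lt z).trans (Finset.single_le_sum
      (f := fun i => (d i : ℤ) * P.ord (y i)) (fun i _ => mul_nonneg (by omega) (h i).le)
      (Finset.mem_univ i))
  have f1 : (f : L) ≠ 0 := fun z => f0 (Subtype.ext z)
  have z := add_mem (ap f) q
  rw [sub_add_cancel] at z
  have z := z.resolve_left (mul_ne_zero B0 f1)
  rw [Pl.ord_mul _ B0 f1, B1, zero_add, Nat.cast_succ] at z
  linarith [hR f f.2 f1, Nat.lt_floor_add_one R]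

end Cn

open Cn

/-- **CNT** -/
theorem cnt : CNT := fun L ι _ _ _ C l p μ y hL hp C0 l0 M => by
  have one : (1 : ℝ) ≤ ∏ i, (1 + C * l / μ i) := Finset.one_le_prod fun i _ =>
    le_add_of_nonneg_right (div_nonneg (mul_nonneg C0 l0) (M.pos i).le)
  by_cases fin : Module.Finite ℂ (H0 (l • p))
  swap
  · rw [h0, Module.finrank_of_not_finite fin, Nat.cast_zero]
    linarith
  by_cases z : l = 0 ∨ IsEmpty ι
  · refine le_trans (Nat.cast_le_one.2 ((Submodule.finrank_mono (t := Submodule.span ℂ {1})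
      fun f hf => ?_).trans (finrank_span_singleton one_ne_zero).le)) one
    obtain ⟨c, rfl⟩ : ∃ c, algebraMap ℂ L c = f := by
      rcases z with rfl | z
      · exact const_of_sec hL (by simpa using mem_H0.1 hf)
      · exact const_of_ring hL fun P => let ⟨m, hm⟩ := Ba.ff_succ hL P; by simp at hm
    exact Submodule.mem_span_singleton.2 ⟨c, (Algebra.algebraMap_eq_smul_one c).symm⟩
  rw [not_or, not_isEmpty_iff] at z
  have l1 := l0.lt_of_ne' z.1
  obtain ⟨o⟩ := z.2
  obtain ⟨θ, F, m, r, D0, g⟩ := prim hL M.ind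
  obtain ⟨B, B0, hB⟩ := den g (Submodule.FG.of_finite (N := H0 (l • p)))
  obtain ⟨c, c1, c2, c3, c4⟩ := (Gp.and M.ex ((kill hL M.ind hp).and ((kill hL M.ind
    (dv_mem_Car B)).and (kill hL M.ind (dv_mem_Car (ey y θ F.derivative)))))).ex
  have lim := fun i => tendsto_nat_floor_mul_div_atTop (M.pos i).le
  refine ge_of_tendsto (tendsto_finsetProd _ fun i _ => tendsto_const_nhds.add
    (tendsto_const_nhds.div (lim i) (M.pos i).ne')) ?_
  filter_upwards [eventually_all.2 fun i => (lim i).eventually_const_lt (M.pos i),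
    eventually_gt_atTop 0] with N h1 N0
  have w0 : ∀ i, (0 : ℝ) < ⌊μ i * N⌋₊ := fun i => (div_pos_iff_of_pos_right N0).1 (h1 i)
  obtain ⟨P, e, e0, p1, p2⟩ := mon hL M.ind c (w := fun i => ⌊μ i * N⌋₊) fun x =>
    (w0 o).ne' (by exact_mod_cast congrFun x o)
  have ce : Ce (sh y c) P := fun i => (Int.cast_pos (R := ℝ)).1 (p1 i ▸ mul_pos e0 (w0 i))
  have := core ce (θ := θ) (m.map _) ((ey_sh c F).trans r) (by
    rw [derivative_map, ey_sh, mx_iff, not_or]
    exact ⟨D0, ((Int.cast_eq_zero (α := ℝ)).1 (c4 P ce)).not_gt⟩) B0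
    ((Int.cast_eq_zero (α := ℝ)).1 (c3 P ce)) (fun f hf => let ⟨a, x⟩ := hB f hf
      ⟨_, x.trans (ey_sh c a).symm⟩) (R := C * l * (e * N)) fun f hf f0 => by
      have k := c1 P ce p2 (l⁻¹ • (dv f + l • p)) (e * N) ⟨smul_nonneg (inv_pos.2 l1).le
        ((mem_H0.1 hf).resolve_left f0), by
          rw [smul_add, inv_smul_smul₀ l1.ne', add_sub_cancel_right]
          exact Submodule.smul_mem _ _ (dv_mem_Prn f)⟩ fun i => by
        rw [p1, mul_assoc, mul_comm N]
        exact mul_le_mul_of_nonneg_left (Nat.floor_le (mul_pos (M.pos i) N0).le) e0.le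
      simp only [Pi.smul_apply, Pi.add_apply, c2 P ce, smul_eq_mul, mul_zero, add_zero,
        inv_mul_le_iff₀ l1, dv] at k
      linarith
  refine (Nat.cast_le.2 this).trans ?_
  rw [Nat.cast_prod]
  refine Finset.prod_le_prod (fun i _ => Nat.cast_nonneg _) fun i _ => ?_
  rw [Nat.cast_succ, add_comm, p1, Pi.div_apply, show C * l * (e * N) / (e * ⌊μ i * N⌋₊) =
    C * l / (⌊μ i * N⌋₊ / N) by field_simp]
  exact add_le_add_right (Nat.floor_le (by have := h1 i; positivity)) _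

end Vale.Agent.P283B.Mk
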