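import Vale.Agent.P283B.MK.St
import Vale.Agent.P283B.EB.WpB
import Vale.Agent.P283B.LC.Loc
import Vale.Agent.P283B.LC.Gb
import Vale.Agent.P283B.Tool.Mmp

/-!
# P283B, block MK: thresholds and the extraction of one place of the subfield
-/

set_option linter.unusedVariables false
set_option linter.unusedSectionVars false

open Set

noncomputable section

namespace Vale.Agent.P283B.Mk.En

open P287D Wp Lg

/-- a near minimiser for the threshold of level `ε` -/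
theorem near {ι : Type*} {S : ι → Prop} {f g : ι → ℝ} {c τ₀ ε : ℝ} {i₀ : ι} (e0 : 0 < ε)
    (g0 : ∀ i, S i → 0 ≤ g i) (h0 : ∀ i, S i → ε ≤ f i - τ₀ * g i) (hc : ∀ i, S i → c * g i ≤ f i)
    (s0 : S i₀) (hi : f i₀ ≤ c * g i₀) : ∃ τ, τ₀ ≤ τ ∧ τ < c ∧ (∀ i, S i → ε ≤ f i - τ * g i) ∧
      ∃ i, S i ∧ f i - τ * g i ≤ 2 * ε := by
  have p : 0 < g i₀ := (g0 i₀ s0).lt_of_ne fun z => by
    have := h0 i₀ s0
    rw [← z] at this hi
    linarith
  have bd : ∀ τ ∈ {τ | ∀ i, S i → ε ≤ f i - τ * g i}, τ ≤ c - ε / g i₀ := fun τ h => by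
    have := h i₀ s0
    rw [le_sub_comm, div_le_iff₀ p]
    linarith
  have bd' : BddAbove {τ | ∀ i, S i → ε ≤ f i - τ * g i} := ⟨_, bd⟩
  obtain ⟨τ, hτ⟩ : ∃ τ, τ = sSup {τ | ∀ i, S i → ε ≤ f i - τ * g i} := ⟨_, rfl⟩
  have ne : {τ | ∀ i, S i → ε ≤ f i - τ * g i}.Nonempty := ⟨τ₀, h0⟩
  have lt : τ < c := (hτ ▸ csSup_le ne bd).trans_lt (sub_lt_self _ (div_pos e0 p))
  refine ⟨τ, hτ ▸ le_csSup bd' h0, lt, fun i s => ?_, ?_⟩
  · rcases (g0 i s).eq_or_lt with z | z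
    · have := h0 i s
      rw [← z] at this ⊢
      linarith
    · have : τ ≤ (f i - ε) / g i := hτ ▸ csSup_le ne fun t h => by
        rw [le_div_iff₀ z]
        linarith [h i s]
      rw [le_div_iff₀ z] at this
      linarith
  · by_contra! k
    have : (τ + c) / 2 ≤ τ := by
      refine le_of_le_of_eq (le_csSup bd' fun i s => ?_) hτ.symm
      linarith [k i s, hc i s]
    linarith

section one

variable {K : Type} [Field K] [Algebra ℂ K] {n : ℕ} {Γ G Λ : BD K}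

theorem ld_add (Γ G : BD K) (P : Pl K) : ld n (Γ + G) P = ld n Γ P - G P := by
  simp only [ld, dsc, Pi.sub_apply, Pi.add_apply]; ring

theorem ld_sub (Γ G : BD K) (P : Pl K) : ld n (Γ - G) P = ld n Γ P + G P := by
  simp only [ld, dsc, Pi.sub_apply]; ring

/-- the threshold of an lc pair is attained -/
theorem lct0 (hK : FF K (n + 1)) (hΓ : Γ ∈ Car K) (hG : G ∈ Car K) (hΛ : Λ ∈ Car K)
    {S : Pl K → Prop} (up : ∀ Q, S Q → ∀ P, CLe Λ Q P → S P) (k : ∀ Q, S Q → 0 ≤ ld (n + 1) Γ Q)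
    {R : Pl K} (hR : S R) (g : 0 < G R) : ∃ c : ℝ, 0 ≤ c ∧
      (∀ Q, S Q → c * G Q ≤ ld (n + 1) Γ Q) ∧ ∃ P, S P ∧ 0 < G P ∧ ld (n + 1) Γ P = c * G P := by
  obtain ⟨s, κ, T, h, l, t, c, d⟩ := exists_ls hK (finite_singleton R) (toFinite {Γ, G, Λ})
    (forall_mem_insert.2 ⟨hΓ, forall_mem_insert.2 ⟨hG, forall_eq.2 hΛ⟩⟩)
  obtain ⟨P, ⟨p1, p2, p3⟩, p4⟩ := exists_min_image {P | P ∈ T ∧ S P ∧ 0 < G P}
    (fun P => ld (n + 1) Γ P / G P) (T.finite_toSet.subset fun _ h => h.1) ⟨R, t R rfl, hR, g⟩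
  have c0 := div_nonneg (k P p2) p3.le
  refine ⟨_, c0, fun Q hQ => ?_, P, p2, p3, (div_mul_cancel₀ _ p3.ne').symm⟩
  have := l.ge (Q := Q) (c.sub ((d Γ (.inl rfl)).add ((d G (.inr (.inl rfl))).smul
    (ld (n + 1) Γ P / G P)))) le_rfl zero_le_one fun U u v => by
      have m := up Q hQ U (l.cle (l.on U u) v (d Λ (.inr (.inr rfl))).1)
      have y : ld (n + 1) Γ U = dsc (n + 1) Γ U + 1 := rfl
      rw [Pr.dsc_add_smul]
      rcases le_or_gt (G U) 0 with z | z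
      · linarith [mul_nonpos_of_nonneg_of_nonpos c0 z, k U m]
      · linarith [(le_div_iff₀ z).1 (p4 U ⟨u, m, z⟩)]
  rw [Pr.dsc_add_smul] at this
  linarith [show ld (n + 1) Γ Q = dsc (n + 1) Γ Q + 1 from rfl]

end one

section two

variable {K L : Type} [Field K] [Algebra ℂ K] [Field L] [Algebra ℂ L] [Algebra L K]
  {n d k j : ℕ} {w P Q T : Pl K} {u T₁ : Pl L} {q : Set (Pl L)} {Λ κ β γ : BD K} {B : BD L}
  {c : ℝ}

/-- the places over the generic point of the base or over a place in `q` -/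
def U (q : Set (Pl L)) (w : Pl K) : Prop := Hz L w ∨ ∃ u ∈ q, Ly w u

theorem one_le (l : Ly w u) : 1 ≤ em w u := Int.cast_one_le_of_pos l.e_pos

theorem em_pos (l : Ly w u) : 0 < em w u := one_pos.trans_le (one_le l)

theorem up_ly (l : Ly w u) (β : BD L) : up K β w = em w u * β u := l.pb β

theorem up_hz (l : Hz L w) (β : BD L) : up K β w = 0 := l.pb β

theorem U.zero (h : U q w) {β : BD L} (z : ∀ u ∈ q, β u = 0) : up K β w = 0 := by
  obtain t | ⟨u, a, l⟩ := h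
  exacts [up_hz t β, by rw [up_ly l, z u a, mul_zero]]

variable [IsScalarTower ℂ L K]

theorem exists_ly (hK : FF K n) (u : Pl L) : ∃ w : Pl K, Ly w u := Pb.up (lin L K) hK u

theorem up_t (l : Ly w u) : up K (dv u.t) w = em w u := by
  rw [up_ly l, dv_apply, Pl.ord_t, Int.cast_one, mul_one]

/-- the set `U q` is closed under generalisation -/
theorem U.gen (hK : FF K n) (hL : FF L j) (sB : Smp B) (bB : Big B)
    (o : ∀ u ∈ q, On (j - 1) B u) (h : U q Q) (c : CLe (up K B) Q P) : U q P := by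
  have ok := okL (L := L) hK
  obtain t | ⟨u', l⟩ := ok P
  · exact .inl t
  have key : ∀ G, Rep B G → 0 < G u' → 0 < up K G Q := fun G r g =>
    c _ (ok.rep r) ((mul_pos (em_pos l) g).trans_eq (up_ly l G).symm)
  obtain t | ⟨u, hu, l'⟩ := h
  · obtain ⟨G, r, g⟩ := Lg.rep_pos bB u'
    exact absurd (up_hz t G) (key G r g).ne'
  cases j with
  | zero => exact (Bm.no_pl hL u).elim
  | succ j =>
    have : u' = u := sepB j L hL B u u' sB bB (o u hu) fun G r g => by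
      have := key G r g
      rw [up_ly l'] at this
      exact (pos_iff_pos_of_mul_pos this).1 (em_pos l')
    exact .inr ⟨u, hu, this ▸ l⟩

/-- the theorem of Hartogs over a prime of the base -/
theorem le_U (hK : FF K (n + 1)) (hL : FF L (j + 1)) (sB : Smp B) (bB : Big B) (o : On j B u)
    (bΛ : Big Λ) (d : Dsc Λ (up K B)) (h : Dsc Λ β) (h' : Dsc Λ γ)
    (e : ∀ P, On n Λ P → U {u} P → β P ≤ γ P) (l : U {u} P) : β P ≤ γ P := by
  have ok := okL (L := L) hK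
  let C : AddSubmonoid (BD K) :=
    { carrier := {G | ∃ G₀, 0 ≤ G₀ ∧ Dsc B G₀ ∧ G₀ u = 0 ∧ G = up K G₀}
      add_mem' := by
        rintro _ _ ⟨a, a1, a2, a3, rfl⟩ ⟨b, b1, b2, b3, rfl⟩
        exact ⟨a + b, add_nonneg a1 b1, a2.add b2, by rw [Pi.add_apply, a3, b3, add_zero],
          (pb_add _ _ _).symm⟩
      zero_mem' := ⟨0, le_rfl, .zero sB, rfl, (pb_zero _).symm⟩ }
  refine Lcb.Zr.le (C := C) ?_ (Lcb.hart_U hK bΛ ?_ h h' fun Q a z => e Q a ?_)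
  · rintro _ ⟨G, -, -, g, rfl⟩
    exact l.zero (forall_eq.2 g)
  · rintro _ ⟨G, a, b, -, rfl⟩
    exact ⟨pb_nonneg _ a, d.trans (ok.dsc b)⟩
  · obtain t | ⟨u', l'⟩ := ok Q
    · exact .inl t
    refine .inr ⟨u, rfl, (?_ : u' = u) ▸ l'⟩
    refine sepB j L hL B u u' sB bB o fun G r g => (r.1 u).lt_of_ne fun y => ?_
    have := z _ ⟨G, r.1, (Dsc.refl sB).congr r.2, y.symm, rfl⟩
    rw [up_ly l'] at this
    exact (mul_pos (em_pos l') g).ne' this

/-- the rank condition of weak positivity -/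
theorem rk (dn : DN) (hK : FF K (d + 1)) (hL : FF L k) (cl : Cl L K) (bd : Bdy d Λ κ)
    (det : Det L {w | On d Λ w}) (f : K) (a : ∀ P, Hz L P → Aj (d + 1) κ P f) :
    f ∈ range (algebraMap L K) := by
  by_cases f0 : f = 0
  · exact ⟨0, by rw [f0, map_zero]⟩
  refine (dn K L d k hK hL cl).2.1 f fun w t => ?_
  have := det (dv f⁻¹) (smp_dv _) (fun P o y => by
    have z : (-1 : ℝ) < P.ord f := by linarith [(a P y).resolve_left f0, bd P o]
    have z' : (0 : ℤ) ≤ P.ord f := by have : (-1 : ℤ) < P.ord f := (by exact_mod_cast z); omega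
    rw [dv_inv, Pi.neg_apply, neg_nonpos]
    exact Int.cast_nonneg z') w t
  rw [dv_inv, Pi.neg_apply, neg_nonpos, dv_apply] at this
  exact_mod_cast this

/-- the pair `Θ` on the model `V Y` of `L`; the boundary is `(1 - e) T₁` or zero -/
structure Dn (d k : ℕ) (e : ℝ) (κ : BD K) (T₁ : Pl L) (s : Finset L) (Y Θ : BD L) : Prop where
  rel : Rel k Y s Θ
  qf : QF k Y
  cf : ∀ v, On k Y v → (v = T₁ ∧ ld (k + 1) Θ v = e) ∨ (v ≠ T₁ ∧ ld (k + 1) Θ v = 1)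
  adm : ∀ v, On k Y v → Adm (d + 1) κ v (ld (k + 1) Θ v)
  low : ∀ v t, Low (d + 1) κ v t → t ≤ ld (k + 1) Θ v
  le : ld (k + 1) Θ T₁ ≤ e
  smp : ∃ c' : ℝ, ∀ x, c' ≤ x → Smp (x • mx s - Θ) ∧ Dsc (x • mx s - Θ) (mx s)

theorem down (dn : DN) (bm : BM) (hK : FF K (d + 1)) (hL : FF L (k + 1)) (cl : Cl L K)
    {s : Finset L} (sΛ : Smp Λ) (bΛ : Big Λ) (qf : QF d Λ) (des : Dsc Λ (up K (mx s)))
    (klt : Klt (d + 1) κ) (bd : Bdy d Λ κ) (nef : Nef (c • up K (mx s) - κ))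
    (bg : Big (c • up K (mx s) - κ)) (det : Det L {w | On d Λ w}) (l : Ly T T₁) (oT : On d Λ T)
    {e : ℚ} (e1 : (e : ℝ) ≤ 1) (hT : ld (d + 1) κ T ≤ e * em T T₁) :
    ∃ Y Θ, Dn d k e κ T₁ s Y Θ := by
  obtain ⟨Γ₀, c', k0, sN, bN, dN, le1, dom⟩ :=
    bm K L d k s Λ κ c hK hL cl sΛ bΛ qf des klt bd nef bg det
  have bd0 : ∀ u, (∃ w, Ly w u ∧ On d Λ w) → dsc (k + 1) Γ₀ u ≤ 0 := fun u ⟨w, a, b⟩ => by
    have := le1 u w a b
    rw [ld] at this
    linarith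
  obtain ⟨c₀, -, h₀⟩ := (dN.smul (-c')).exists_add
  obtain ⟨Y, sY, bY, qY, dY, oY⟩ := extr k L hL _ Γ₀ c₀ {T₁} sN bN (by
    convert ((h₀ c₀ le_rfl).add sN).nef using 1
    module) (fun u o => bd0 u (dom u o)) k0 (finite_singleton _) (forall_eq.2 (le1 T₁ T l oT))
  have dm : ∀ u, On k Y u → ∃ w, Ly w u ∧ On d Λ w := fun u o =>
    ((oY u).1 o).elim (dom u) fun y => y ▸ ⟨T, l, oT⟩
  have ft : FTo k Y s := ⟨sY, bY, dY.trans dN, Γ₀, c', k0, fun u o => bd0 u (dm u o), sN.nef, bN⟩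
  have i := Api.mod.isb k L hL
  obtain ⟨κ', hκ⟩ := Pr.exists_hull res' hL sY bY qY i.2.1
  obtain ⟨β, qβ, hβ⟩ := qY T₁ ((oY _).2 (.inr rfl))
  have qκ : CarQ κ' := Gs.carQ_of neg' hL sY bY hκ.1 fun P o =>
    let ⟨z, y⟩ := i.2.2 P; ⟨z, by rw [hκ.2 P o, y, Rat.cast_intCast]⟩
  have hP := hκ.add (hβ.smul ((1 - e : ℚ) : ℝ))
  have qP := qκ.add (qβ.qsmul (1 - e))
  generalize κ' + ((1 - e : ℚ) : ℝ) • β = Θ₀ at hP qP
  have cf : ∀ (Θ : BD L) v, On k Y v → Θ v = Θ₀ v →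
      (v = T₁ ∧ ld (k + 1) Θ v = e) ∨ (v ≠ T₁ ∧ ld (k + 1) Θ v = 1) := fun Θ v o y => by
    have := hP.2 v o
    simp only [Pi.add_apply, Pi.smul_apply, smul_eq_mul, Rat.cast_sub, Rat.cast_one] at this
    simp only [ld, dsc, Pi.sub_apply, y, this]
    by_cases z : v = T₁
    · exact .inl ⟨z, by rw [z, Pl.δ_self]; ring⟩
    · exact .inr ⟨z, by rw [Pl.δ_ne z]; ring⟩
  have adm : ∀ (Θ : BD L) v, On k Y v → Θ v = Θ₀ v → Adm (d + 1) κ v (ld (k + 1) Θ v) :=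
    fun Θ v o y => by
      obtain ⟨rfl, z⟩ | ⟨-, z⟩ := cf Θ v o y
      · exact ⟨T, l, z ▸ hT⟩
      · obtain ⟨w, a, b⟩ := dm v o
        exact ⟨w, a, by linarith [bd w b, one_le a, z ▸ one_mul (em w v)]⟩
  have wp := fun (Y' Θ : BD L) a b (x : Dsc Y' (mx s)) => ngx (Λ := Y') (D := c • mx s) (β := Θ)
    hL hK (by rwa [pb_smul]) (by rwa [pb_smul]) (fun P _ => klt P) (rk dn hK hL cl bd det) a b
    (x.smul c)
  obtain ⟨Y', D, c'', ft', q', hl, qD, o', zd⟩ := ftm0 k L hL Y (-Θ₀) s c ft qY hP.1.neg qP.neg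
    (by simpa only [neg_add_eq_sub] using (wp Y Θ₀ sY bY ft.des hP.1 fun v o => adm _ v o rfl).1)
  have v' : ∀ v, On k Y' v → On k Y v ∧ (-D) v = Θ₀ v := fun v o =>
    ⟨((o' v).1 o).1, by rw [Pi.neg_apply, hl.2 v o, Pi.neg_apply, neg_neg]⟩
  have sm : ∀ x, c'' ≤ x → Smp (x • mx s - -D) ∧ Dsc (x • mx s - -D) (mx s) := fun x hx => by
    rw [sub_neg_eq_add, add_comm]
    refine ⟨?_, (zd x hx).2⟩
    convert (zd x hx).1.smp using 1
    module
  have ad' := fun v o => adm (-D) v (v' v o).1 (v' v o).2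
  refine ⟨Y', -D, ⟨⟨ft'.smp, ft'.big, hl.1.neg, qD.neg, fun v o => ?_⟩, ft', c'',
    (sm c'' le_rfl).1.nef⟩, q', fun v o => cf _ v (v' v o).1 (v' v o).2, ad',
    (wp Y' _ ft'.smp ft'.big ft'.des hl.1.neg ad').2, ?_, c'', sm⟩
  · obtain ⟨-, z⟩ | ⟨-, z⟩ := cf _ v (v' v o).1 (v' v o).2 <;> rw [ld] at z <;> linarith
  · have a := (zd c'' le_rfl).1.nn T₁
    obtain ⟨-, z⟩ | ⟨z, -⟩ := cf Θ₀ T₁ ((oY _).2 (.inr rfl)) rfl
    · simp only [ld, dsc, Pi.sub_apply, Pi.neg_apply, Pi.zero_apply] at a z ⊢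
      linarith
    · exact absurd rfl z

end two

section three

variable {K L M : Type} [Field K] [Algebra ℂ K] [Field L] [Algebra ℂ L] [Field M] [Algebra ℂ M]
  [Algebra L K] [Algebra M L] [Algebra M K] [IsScalarTower M L K] {n d k j m : ℕ} {w T : Pl K}
  {v : Pl L} {u : Pl M} {q : Set (Pl M)} {Γ H : BD K} {a p X S Z : BD L} {A b : BD M} {η ρ : ℝ}

theorem tw3 (K L M : Type) [Field K] [Field L] [Field M] [Algebra L K] [Algebra M L] [Algebra M K]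
    [IsScalarTower M L K] : algebraMap M K = (algebraMap L K).comp (algebraMap M L) :=
  IsScalarTower.algebraMap_eq M L K

theorem ly3 (l : Ly w v) : Ly w u ↔ Ly v u := by
  rw [Ly, tw3 K L M]
  exact ⟨l.of_comp, l.comp⟩

theorem hz3 (l : Ly w v) : Hz M w ↔ Hz M v := by
  rw [Hz, tw3 K L M]
  exact ⟨fun h f => (l _).2 (h f), l.comp_trv⟩

theorem hz_up (h : Hz L w) : Hz M w := by
  rw [Hz, tw3 K L M]
  exact h.comp _

theorem U3 (l : Ly w v) : U q w ↔ U q v := by simp only [U, hz3 l, ly3 l]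

theorem em3 (l : Ly w v) (u : Pl M) : em w u = em w v * em v u := by
  rw [em, tw3 K L M, RingHom.comp_apply, l.ord, Int.cast_mul]

variable [IsScalarTower ℂ L K] [IsScalarTower ℂ M L] [IsScalarTower ℂ M K]

theorem up3 (hK : FF K n) (β : BD M) : up K (up L β) = up K β := by
  rw [up, up, up, tw3 K L M, (okL hK).pb_comp]

theorem mx_im (hL : FF L k) (s : Finset M) : mx (im (algebraMap M L) s) = up L (mx s) :=
  ((okL hL).pb_mx s).symm

theorem cl3 (h : Cl L K) (h' : Cl M L) : Cl M K := fun e he => by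
  obtain ⟨y, rfl⟩ := h e (he.tower_top L)
  obtain ⟨z, rfl⟩ := h' y ((isAlgebraic_algebraMap_iff (algebraMap L K).injective).1 he)
  exact ⟨z, IsScalarTower.algebraMap_apply M L K z⟩

theorem fi_nn (fi : Fi d k η H a X S A) : 0 ≤ X := (pb_nonneg _ fi.nn).trans fi.le

theorem in_lc (h : In d n Γ H) (w : Pl K) : 0 ≤ ld (d + 1) Γ w := by
  obtain ⟨z, e⟩ := h.int w
  exact nonneg_of_mul_nonneg_right (e ▸ z.cast_nonneg) (Nat.cast_pos.2 h.n0)

/-- the threshold of `G` for the pair `a + X` on `L` is attained -/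
theorem thr (st : St d n k m Γ H a p) (hM : FF M j) (cX : X ∈ Car L) (h0 : 0 ≤ X) {G : BD L}
    (cG : G ∈ Car L) (sA : Smp A) (bA : Big A) (o : ∀ u ∈ q, On (j - 1) A u) (hv : U q v)
    (g : 0 < G v) : ∃ c : ℝ, 0 ≤ c ∧ (∀ v, U q v → c * G v ≤ a v + X v) ∧
      ∃ v, U q v ∧ a v + X v ≤ c * G v := by
  have hK := st.inp.ff
  have ok := okL (L := L) hK
  obtain ⟨w, l⟩ := exists_ly hK v
  obtain ⟨c, c0, h1, P, p1, p2, p3⟩ := lct0 hK (sub_mem (Prn_le_Car st.inp.prn) (ok.car cX))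
    (ok.car cG) ((okL (L := M) hK).car sA.car) (S := U q)
    (fun Q a P b => a.gen hK hM sA bA o b) (fun Q _ => by
      rw [ld_sub]
      exact add_nonneg (in_lc st.inp Q) (pb_nonneg _ h0 Q)) ((U3 l).2 hv)
    ((mul_pos (em_pos l) g).trans_eq (up_ly l G).symm)
  refine ⟨c, c0, fun v y => ?_, ?_⟩
  · obtain ⟨T, t1, -, t3, -⟩ := st.bs.lift v
    have := h1 T ((U3 t1).2 y)
    rw [ld_sub, t1.pb, t1.pb, t3] at this
    exact le_of_mul_le_mul_left (by linarith) (em_pos t1)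
  · obtain z | ⟨v, z⟩ := ok P
    · exact absurd (z.pb G) p2.ne'
    · rw [ld_sub, z.pb, z.pb] at p3
      exact ⟨v, (U3 z).1 p1, le_of_mul_le_mul_left (by linarith [st.bs.low P v z]) (em_pos z)⟩

/-- the places which are kept -/
theorem keep (dn : DN) (st : St d n k m Γ H a p) (hM : FF M j) (fi : Fi d k η H a X S A)
    (cX : X ∈ Car L) (h0 : 0 ≤ η) : ∃ F : Set (Pl K), F.Finite ∧
      (∀ w ∈ F, Hz M w ∧ ld (d + 1) Γ w = 0 ∧ up K X w ≤ m * η) ∧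
      Det L (F ∪ {w | Hz M w ∧ On d H w ∧ H w = 0 ∧ up K X w = 0}) ∧
      Det M (F ∪ {w | Hz M w ∧ On d H w ∧ H w = 0 ∧ up K X w = 0}) := by
  have hK := st.inp.ff
  obtain ⟨T, fT, zT, dT⟩ := st.det
  obtain ⟨d1, -, -, -, d5⟩ := dn K L d (k + 1) hK st.ff st.cl
  choose t t1 t2 t3 _ using st.bs.lift
  have fB := (d5 H H S st.inp.smp st.inp.big st.inp.smp.car fi.smp fi.big).1.union
    (fin_on st.ff fi.smp fi.big cX)
  have dL : ∀ F : Set (Pl K), T ∩ {w | Hz L w} ⊆ F →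
      Det L (F ∪ {w | Hz M w ∧ On d H w ∧ H w = 0 ∧ up K X w = 0}) := fun F hF Y sY h =>
    dT Y sY fun w o z => h w (o.imp (fun x => hF ⟨x, z⟩) fun x =>
      ⟨hz_up z, x.1, x.2, up_hz z X⟩) z
  refine ⟨T ∩ {w | Hz L w} ∪ t '' {v | On k S v ∧ Hz M v ∧ ¬ (X v = 0 ∧ Dm d H v)},
    (fT.subset inter_subset_left).union ((fB.subset fun v y => ?_).image t), ?_,
    dL _ subset_union_left, fun Y sY h => ?_⟩
  · by_cases z : X v = 0
    · exact .inl ⟨y.1, fun x => y.2.2 ⟨z, x⟩⟩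
    · exact .inr ⟨y.1, z⟩
  · rintro w (⟨x, z⟩ | ⟨v, ⟨o, z, y⟩, rfl⟩)
    · exact ⟨hz_up z, zT w x, by rw [up_hz z]; positivity⟩
    · obtain ⟨x1, x2⟩ := (fi.on v o).resolve_right y
      rw [up_hz z, sub_zero] at x2
      exact ⟨(hz3 (t1 v)).2 z, by rw [t3, x1, zero_mul], by
        rw [up_ly (t1 v)]
        exact mul_le_mul (t2 v) x2 (fi_nn fi v) m.cast_nonneg⟩
  · have y := dL _ subset_union_left Y sY fun w o z => h w o (hz_up z)
    obtain ⟨Y₀, s₀, rfl⟩ := d1 Y sY y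
    have g : ∀ w v, Ly w v → up K Y₀ w ≤ 0 → Y₀ v ≤ 0 := fun w v l x => by
      rw [up_ly l] at x
      exact nonpos_of_mul_nonpos_right x (em_pos l)
    have z := (dn L M k j st.ff hM fi.cl).2.2.1 S Y₀ A fi.smp fi.big fi.sA fi.bA fi.des s₀.nef
      fun v o z => by
        by_cases x : X v = 0 ∧ Dm d H v
        · obtain ⟨x1, w, l, x2, x3⟩ := x
          have z' := (hz3 l).2 z
          exact g w v l (h w (.inr ⟨z', x2, x3, by rw [up_ly l, x1, mul_zero]⟩) z')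
        · exact g _ v (t1 v) (h _ (.inl (.inr ⟨v, ⟨o, z, x⟩, rfl⟩)) ((hz3 (t1 v)).2 z))
    intro w x
    obtain e | ⟨v, l⟩ := okL (L := L) hK w
    · exact y w e
    · rw [up_ly l]
      exact mul_nonpos_of_nonneg_of_nonpos (em_pos l).le (z v ((hz3 l).1 x))

/-- the model `V Λ` of `K` over `V (mx s)` with the klt pair `κ` -/
structure Up (d j : ℕ) (r : ℝ) (Γ H : BD K) (X Z : BD L) (b : BD M) (q : Set (Pl M)) (T : Pl K)
    (x c : ℝ) (s : Finset M) (Λ κ : BD K) (γ : BD M) : Prop where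
  x0 : 0 < x
  bs : Big (mx s)
  on : ∀ u ∈ q, On (j - 1) (mx s) u
  smp : Smp Λ
  big : Big Λ
  qf : QF d Λ
  des : Dsc Λ (up K (mx s))
  klt : Klt (d + 1) κ
  bdy : Bdy d Λ κ
  nef : Nef (c • up K (mx s) - κ)
  bg : Big (c • up K (mx s) - κ)
  eq : κ = Γ + up K Z - x • H + up K γ
  car : γ ∈ Car M
  zero : ∀ u ∈ q, γ u = 0
  nb : Nef (c • mx s - (b + γ))
  oT : On d Λ T
  dL : Det L {w | On d Λ w}
  dM : Det M {w | On d Λ w}
  cls : ∀ w, On d Λ w → U q w → w = T ∨ (Hz M w ∧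
    ((ld (d + 1) Γ w = 0 ∧ up K X w + x * H w ≤ r) ∨ (H w = 0 ∧ up K X w = 0)))

theorem det_mono {S S' : Set (Pl K)} (h : Det L S) (e : S ⊆ S') : Det L S' :=
  fun Y sY k => h Y sY fun w o => k w (e o)

theorem exists_up (dn : DN) (lo : LOC) (st : St d n k m Γ H a p) (hM : FF M j)
    (fi : Fi d k η H a X S A) (cX : X ∈ Car L) (hb : b ∈ Car M) (nef : Nef (up L b - Z))
    (h0 : 0 ≤ η) (ρ0 : 0 < ρ) (r1 : m * η + ρ ≤ 1) (hZ : ∀ v, Hz M v → -X v ≤ Z v)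
    (low : ∀ v, U q v → 0 < a v - Z v) (hq : ∀ u ∈ q, Ly T u) (hU : U q T)
    (hT : ld (d + 1) Γ T - up K Z T + ρ ≤ 1) : ∃ x c s Λ κ γ,
      Up d j (m * η + ρ) Γ H X Z b q T x c s Λ κ γ ∧ x * H T ≤ ρ := by
  have i := st.inp
  have hK := i.ff
  have ok := okL (L := L) hK
  obtain ⟨F, fF, zF, dL, dM⟩ := keep dn st hM fi cX h0
  obtain ⟨y, y0, hy⟩ := exists_mul (fF.insert T) H (G := fun _ => ρ) fun _ _ => ρ0
  obtain ⟨x, x0, hx⟩ : ∃ x : ℝ, 0 < x ∧ ∀ w ∈ insert T F, x * H w ≤ ρ :=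
    ⟨(y + 1)⁻¹, by positivity, fun w o => by
      rw [inv_mul_le_iff₀ (by positivity)]
      linarith [hy w o]⟩
  obtain ⟨s₀, κ₀, T₀, h, l, t, -, su⟩ := exists_ls hK (fF.insert T) (finite_singleton H)
    (forall_eq.2 i.smp.car)
  have e : up K b - (Γ + up K Z - x • H) - (x • H + up K (up L b - Z)) ∈ Prn K := by
    rw [show up K (up L b - Z) = up K b - up K Z from up3 (L := L) hK b ▸ pb_sub _ _ _]
    convert neg_mem i.prn using 1
    module
  have v : ∀ w, ld (d + 1) (Γ + up K Z - x • H) w = ld (d + 1) Γ w - up K Z w + x * H w :=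
    fun w => by rw [ld_sub, ld_add]; rfl
  have xz : ∀ w, Hz M w → -up K Z w ≤ up K X w := fun w z => by
    obtain g | ⟨u, g⟩ := ok w
    · rw [up_hz g, up_hz g, neg_zero]
    · rw [up_ly g, up_ly g]
      nlinarith [hZ u ((hz3 g).1 z), em_pos g]
  obtain ⟨s, Λ, κ, c, b1, b2, b3, b4, b5, b6, b7, b8, b9, b10, ⟨γ, c1, c2, c3, c4⟩, d1, d2, d3⟩ :=
    lo K M d j (Γ + up K Z - x • H) (mx s₀) b q
      (insert T (F ∪ {w | Hz M w ∧ On d H w ∧ H w = 0 ∧ up K X w = 0})) {H, up K X} hK hM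
      (cl3 st.cl fi.cl) hb (((i.smp.nef.smul x0.le).add (ok.nef nef)).congr e)
      (((i.big.smul x0).add_nef (ok.nef nef)).congr e)
      (Subsingleton.finite fun u a u' b => (hq u a).uniq (hq u' b)) (toFinite _)
      (forall_mem_insert.2 ⟨i.smp.car, forall_eq.2 (ok.car cX)⟩) l.smp l.big (fun w o => by
        have g0 := mul_nonneg x0.le (i.nn w)
        rw [v]
        obtain g | ⟨u, g⟩ := ok w
        · rw [up_hz g]
          rcases (in_lc i w).eq_or_lt with z | z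
          · linarith [mul_pos x0 (i.pos w z.symm)]
          · linarith
        · rw [up_ly g]
          nlinarith [st.bs.low w u g, low u ((U3 g).1 o), em_pos g]) (by
        rintro w (rfl | o | ⟨o1, o2, o3, o4⟩)
        · exact ⟨hU, l.on _ (t _ (.inl rfl)), by rw [v]; linarith [hx _ (.inl rfl)]⟩
        · obtain ⟨z1, z2, z3⟩ := zF w o
          exact ⟨.inl z1, l.on _ (t _ (.inr o)), by rw [v]; linarith [hx _ (.inr o), xz w z1]⟩
        · refine ⟨.inl o1, Pr.on_mono res' hK i.smp l.smp (su H rfl).1 o2, ?_⟩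
          have := i.bdy w o2
          rw [v, o3, ld]
          linarith [xz w o1]) (det_mono dM (subset_insert _ _))
      fun u o => ⟨T, .inl rfl, hq u o⟩
  have sub := (subset_insert T _).trans (show _ ⊆ {w | On d Λ w} from d1)
  refine ⟨x, c, s, Λ, κ, γ, ⟨x0, b1, b2, b3, b4, b5, b6, b7, b8, b9, b10, c2, c1, c3, c4,
    d1 T (.inl rfl), det_mono dL sub, det_mono dM sub, fun w o z => ?_⟩, hx T (.inl rfl)⟩
  have g : w ∈ insert T (F ∪ {w | Hz M w ∧ On d H w ∧ H w = 0 ∧ up K X w = 0}) → w = T ∨ (Hz M w ∧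
      ((ld (d + 1) Γ w = 0 ∧ up K X w + x * H w ≤ m * η + ρ) ∨ (H w = 0 ∧ up K X w = 0))) := by
    rintro (y | y | y)
    · exact .inl y
    · exact .inr ⟨(zF w y).1, .inl ⟨(zF w y).2.1, add_le_add (zF w y).2.2 (hx w (.inr y))⟩⟩
    · exact .inr ⟨y.1, .inr y.2.2⟩
  obtain z | ⟨u, z1, z2⟩ := z
  · exact (d3 w o z).elim g fun y => .inr ⟨z, .inr ⟨y.2 _ (.inl rfl), y.2 _ (.inr rfl)⟩⟩
  · exact g (d2 w o u z1 z2)

namespace Up

variable {r x c : ℝ} {s : Finset M} {Λ κ : BD K} {γ : BD M}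
  (h : Up d j r Γ H X Z b q T x c s Λ κ γ)
include h

theorem ld_eq (o : U q w) : ld (d + 1) κ w = ld (d + 1) Γ w - up K Z w + x * H w := by
  rw [h.eq, ld_add, ld_sub, ld_add, o.zero h.zero, sub_zero]
  rfl

theorem low (st : St d n k m Γ H a p) (o : U q v) : Low (d + 1) κ v (a v - Z v) := fun w l => by
  have e := h.ld_eq ((U3 l).2 o)
  rw [up_ly l, ld] at e
  linarith [st.bs.low w v l, mul_nonneg h.x0.le (st.inp.nn w)]

/-- **the engine**: the pair on `L` with the boundary `(1 - e) T₁` -/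
theorem down (dn : DN) (bm : BM) (st : St d n k m Γ H a p) {T₁ : Pl L} (l : Ly T T₁) {e : ℚ}
    (e1 : (e : ℝ) ≤ 1) (hT : ld (d + 1) κ T ≤ e * em T T₁) :
    ∃ Y Θ, Dn d k e κ T₁ (im (algebraMap M L) s) Y Θ ∧
      ∀ v, U q v → a v - Z v ≤ ld (k + 1) Θ v := by
  have y : up K (mx (im (algebraMap M L) s)) = up K (mx s) := by
    rw [mx_im st.ff, up3 st.inp.ff]
  obtain ⟨Y, Θ, z⟩ := En.down dn bm st.inp.ff st.ff st.cl h.smp h.big h.qf (y ▸ h.des) h.klt h.bdy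
    (y ▸ h.nef) (y ▸ h.bg) h.dL l h.oT e1 hT
  exact ⟨Y, Θ, z, fun v o => z.low v _ (h.low st o)⟩

end Up

end three

end Vale.Agent.P283B.Mk.En
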