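import Vale.Agent.P283B.MK.AfA
import Vale.Agent.P283B.MK.Eng

/-!
# P283B, block MK: the alpha invariant of the generic fibre
-/

set_option linter.unusedVariables false

open Set

noncomputable section

namespace Vale.Agent.P283B.Mk

open P287D Wp Lg En

/-- **SAF** -/
theorem saf : SAF := fun dn bm lo al d m k ε₀ e0 => by
  obtain ⟨q, hq⟩ := exists_nat_gt (max (m + 1 : ℝ) (4 / ε₀))
  obtain ⟨q1, q2⟩ := max_lt_iff.1 hq
  have m0 : (0 : ℝ) ≤ m := m.cast_nonneg
  have q0 : (0 : ℝ) < q := by linarith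
  obtain ⟨ε, hε⟩ : ∃ ε : ℝ, ε = 1 / (3 * q) := ⟨_, rfl⟩
  have ε0 : 0 < ε := by rw [hε]; positivity
  have ε1 : ε * (3 * q) = 1 := by rw [hε]; field_simp
  have ε2 : 4 * ε ≤ ε₀ := by
    have := (div_lt_iff₀ e0).1 q2
    nlinarith [mul_pos ε0 e0, mul_lt_mul_of_pos_left this ε0]
  have ε3 : (((q : ℚ)⁻¹ : ℚ) : ℝ) = 3 * ε := by rw [hε]; push_cast; field_simp
  obtain ⟨t, t0, ht⟩ := Af.fib al k ε0 (Nat.cast_pos.1 q0)
  refine ⟨min (1 / 2) (t / 6), lt_min (by norm_num) (by positivity),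
    (min_le_left _ _).trans (by norm_num), fun K L M _ _ _ _ _ _ _ _ _ _ _ _ _ n j η Γ H a p X S G A
      st hM jk hη fi nX bX h0 r w hw => ?_⟩
  have hK := st.inp.ff
  have ok := okL (L := L) hK
  have cG := r.car nX.car
  obtain ⟨s, s0, s1, s2, s3⟩ := Af.near (U := fun w : Pl L => Hz M w) (f := fun w => a w + X w)
    (g := G) (ε := ε) r.1 (fun w x => by linarith [h0 w x]) fun s s0 x => by
      obtain ⟨δ, δ0, y⟩ := Af.opn (Z := s • G - X) st fi.sA fi.bA
        (sub_mem (Submodule.smul_mem _ s cG) nX.car) cG r.1 fun w z => by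
          simp only [Pi.sub_apply, Pi.smul_apply, smul_eq_mul]
          linarith [x w z]
      exact ⟨δ, δ0, fun w z => by
        have := y w z
        simp only [Pi.sub_apply, Pi.smul_apply, smul_eq_mul] at this
        linarith⟩
  suffices min (1 / 2) (t / 6) ≤ s by
    linarith [s2 w hw, mul_le_mul_of_nonneg_right this (r.1 w)]
  obtain rfl | ⟨T₁, z1, z2⟩ := s3
  · exact min_le_left _ _
  refine (min_le_right _ _).trans ?_
  obtain ⟨T, l, l1, l2, -⟩ := st.bs.lift T₁
  have v : ∀ u, a u - (s • G - X) u = a u + X u - s * G u := fun u => by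
    simp only [Pi.sub_apply, Pi.smul_apply, smul_eq_mul]; ring
  have U0 : ∀ u : Pl L, U (∅ : Set (Pl M)) u ↔ Hz M u := fun u => by simp [U]
  have hT : U (∅ : Set (Pl M)) T := .inl ((hz3 l).2 z1)
  have fi' : Fi d k (max η 0) H a X S A := ⟨fi.cl, fi.smp, fi.big, fi.sA, fi.bA, fi.nn, fi.des,
    fi.le, fun u o => (fi.on u o).imp_left fun x => ⟨x.1, x.2.trans (le_max_left _ _)⟩⟩
  have η1 : m * max η 0 < 1 := by
    rw [mul_max_of_nonneg _ _ m0, mul_zero]
    exact max_lt hη one_pos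
  have p1 : (1 - s) • X - (X - s • G) ∈ Prn L := by
    convert Submodule.smul_mem _ s r.2 using 1
    module
  have lT : ld (d + 1) Γ T - up K (s • G - X) T ≤ 2 * ε * em T T₁ := by
    rw [l2, up_ly l]
    nlinarith [v T₁, em_pos l]
  obtain ⟨x, c, s', Λ, κ, γ, h, hx⟩ := exists_up (q := ∅) (b := 0) (Z := s • G - X) (T := T)
    (ρ := min ε (1 - m * max η 0)) dn lo st hM fi' nX.car (zero_mem _)
    ((nX.smul (c := 1 - s) (by linarith)).congr (by
      rw [up, pb_zero, zero_sub, neg_sub]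
      simpa using neg_mem p1)) (le_max_right _ _) (lt_min ε0 (sub_pos.2 η1))
    (by linarith [min_le_right ε (1 - m * max η 0)]) (fun u _ => by
      simpa using mul_nonneg s0 (r.1 u)) (fun u o => by linarith [v u, s2 u ((U0 u).1 o)])
    (by simp) hT (by nlinarith [min_le_left ε (1 - m * max η 0)])
  obtain ⟨Y, Θ, D, low⟩ := h.down dn bm st l (e := (q : ℚ)⁻¹) (by rw [ε3]; nlinarith) (by
    rw [h.ld_eq hT, ε3]
    nlinarith [min_le_left ε (1 - m * max η 0), one_le l])
  have hz : ∀ u : Pl L, Hor (fld (mx (im (algebraMap M L) s'))) u ↔ Hz M u := fun u => by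
    rw [mx_im st.ff]
    exact (Af.hz_iff st.ff (smp_mx s') h.bs).symm
  have e : up K (c • mx (im (algebraMap M L) s') - (1 / 2 : ℝ) • X) - κ -
      (x • H + (up K (c • mx s' - (0 + γ)) + (1 / 2 - s) • up K X)) ∈ Prn K := by
    have := sub_mem (neg_mem st.inp.prn) (Submodule.smul_mem _ s (ok.prn r.2))
    simp only [h.eq, mx_im st.ff, zero_add, up, pb_sub, pb_smul] at this ⊢
    rw [show pb (algebraMap L K) (pb (algebraMap M L) (mx s')) = pb (algebraMap M K) (mx s') from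
      up3 hK _]
    convert this using 1
    module
  have nn := ((okL (L := M) hK).nef h.nb).add ((ok.nef nX).smul (sub_nonneg.2 s1))
  obtain ⟨b, E, rE, le⟩ := Af.dom (G := (1 / 2 : ℝ) • G) hK st.ff
    (((st.inp.smp.nef.smul h.x0.le).add nn).congr e)
    (((st.inp.big.smul h.x0).add_nef nn).congr e) (fun P _ => h.klt P)
    (rk dn hK st.ff st.cl h.bdy h.dL) D.rel.pr.smp D.rel.pr.big D.rel.pr.des (D.rel.ft.des.smul c)
    (nX.smul (by norm_num)) (bX.smul (by norm_num)) (r.smul (by norm_num)) D.adm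
  have f := ht L st.ff Y Θ E _ c D.rel (fun u o => by
    linarith [low u (.inl ((hz u).1 o)), v u, s2 u ((hz u).1 o)]) (fun u o _ => by
      obtain ⟨-, y⟩ | ⟨-, y⟩ := D.cf u o
      · exact ⟨q - 1, by rw [y]; push_cast; field_simp⟩
      · exact ⟨0, by rw [y]; simp⟩) b rE T₁ ((hz _).2 z1)
  have f1 := le T₁
  have f2 := D.le
  simp only [Pi.smul_apply, smul_eq_mul] at f1
  rw [ε3] at f2
  have f3 : t * G T₁ ≤ 12 * ε := by nlinarith [mul_le_mul_of_nonneg_left f1 t0.le]
  have f4 : 2 * ε ≤ s * G T₁ := by linarith [h0 T₁ z1]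
  by_contra! y
  have g0 : 0 < G T₁ := by
    by_contra! u
    nlinarith [mul_nonneg s0 (neg_nonneg.2 u)]
  nlinarith [mul_lt_mul_of_pos_right y g0]

end Vale.Agent.P283B.Mk
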