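import Vale.Agent.P283B.MK.St
import Vale.Agent.P287D.Va.Des
import Vale.Agent.P287D.Gs.Ful
import Vale.Agent.P287D.Fs.Mod
import Vale.Agent.P287D.Pr.Lr

/-!
# P283B, block MK: the induction
-/

set_option linter.unusedVariables false
set_option linter.unusedSectionVars false

open Set

noncomputable section

namespace Vale.Agent.P283B.Mk

open P287D Wp Lg

namespace As

section one

variable {L : Type} [Field L] [Algebra ℂ L] {k : ℕ} {ι ι' : Type} [Fintype ι] [Fintype ι']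
  {C C' θ : ℝ} {a p P : BD L} {μ : ι → ℝ} {y : ι → L}

theorem mt_smul (h : Mt C (θ • p) μ y) (h0 : 0 < θ) : Mt C p (fun i => μ i * θ) y := by
  obtain ⟨g, g0, e⟩ := h.ex
  refine ⟨h.ind, fun i => mul_pos (h.pos i) h0, fun i => mul_smul (μ i) θ p ▸ h.sec i, g, g0,
    fun c hc v v1 v2 G t r b => le_of_mul_le_mul_left ?_ h0⟩
  have := e c hc v v1 v2 _ (t * θ) (r.smul h0.le) fun i => (b i).trans_eq (by ring)
  exact this.trans_eq (by ring)

theorem mt_mono [Nonempty ι] (h : Mt C p μ y) (e : C ≤ C') : Mt C' p μ y := by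
  obtain ⟨g, g0, k⟩ := h.ex
  refine ⟨h.ind, h.pos, h.sec, g, g0, fun c hc v v1 v2 G t r b => (k c hc v v1 v2 G t r b).trans
    (mul_le_mul_of_nonneg_right e ?_)⟩
  obtain ⟨i⟩ := ‹Nonempty ι›
  exact ((mul_pos_iff_of_pos_right (h.pos i)).1 ((Int.cast_pos.2 (v1 i)).trans_le (b i))).le

theorem mt_equiv (hL : FF L k) (hc : Fintype.card ι' = k) (e : ι' ≃ ι) (h : Mt C p μ y) :
    Mt C p (μ ∘ e) (y ∘ e) := by
  obtain ⟨g, g0, k⟩ := h.ex
  refine ⟨h.ind.comp _ e.injective, fun i => h.pos _, fun i => h.sec _, g.rename e.symm,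
    fun z => g0 (MvPolynomial.rename_injective _ e.symm.injective (z.trans (map_zero _).symm)),
    fun c hc' v v1 v2 G t r b => k (c ∘ e.symm) (by rwa [MvPolynomial.eval_rename] at hc') v
      (fun i => by simpa using v1 (e.symm i)) ?_ G t r fun i => by simpa using b (e.symm i)⟩
  rw [kq_congr hL hc e (y := y ∘ e) (y' := y) fun _ => rfl, v2, ← e.sum_comp]
  simp

theorem mt_zero (hL : FF L 0) : Mt 0 p (fun _ : Fin 0 => (1 : ℝ)) fun _ => 0 :=
  ⟨algebraicIndependent_empty_type, fun i => i.elim0, fun i => i.elim0, 1, one_ne_zero,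
    fun c _ v _ v2 => absurd v2 (by
      have := kq_nonneg hL (y := fun _ : Fin 0 => (0 : L)) (P := v) (by simp) fun i => i.elim0
      simp only [Finset.univ_eq_empty, Finset.sum_empty]
      linarith)⟩

theorem cen_smul (h : Cen C a p) (h0 : 0 < θ) : Cen C a (θ • p) := fun u z => by
  refine ⟨mul_pos h0 (h u z).1, fun G r => ?_⟩
  have := (h u z).2 _ (inv_smul_smul₀ h0.ne' p ▸ r.smul (inv_pos.2 h0).le)
  simp only [Pi.smul_apply, smul_eq_mul] at this ⊢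
  rw [inv_mul_le_iff₀ h0] at this
  linarith

/-- descent of an effective semiample divisor to its field -/
theorem desc (hL : FF L k) {M : IntermediateField ℂ L} (s : Smp P) (q : CarQ P) (h0 : 0 ≤ P)
    (e : fld P = M) : ∃ A : BD M, Smp A ∧ Big A ∧ CarQ A ∧ up L A = P := by
  subst e
  obtain ⟨A, a1, a2, a3⟩ := fld_down hL s
  obtain ⟨γ, g1, g2⟩ := prn_down hL (cld_fld P) a3 fun Q hQ => by
    rw [Pi.sub_apply, hQ.trv.pb, sub_zero]
    exact h0 Q
  have e : up L (A + γ) = P := by rw [up, pb_add, ← g2, add_sub_cancel]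
  refine ⟨A + γ, a1.add_prn g1, a2.add_prn g1, Fs.carQ_of_rat (a1.add_prn g1).car fun u => ?_, e⟩
  obtain ⟨w, l⟩ := Pb.up (φ := inc (fld P)) (fun _ => rfl) hL u
  obtain ⟨z, hz⟩ := q.rat w
  refine ⟨z / w.ord (inc _ u.t), ?_⟩
  rw [Rat.cast_div, Rat.cast_intCast, eq_div_iff (Int.cast_pos.2 l.e_pos).ne', ← hz, mul_comm,
    ← l.pb]
  exact congrFun e w

theorem up_le (hL : FF L k) {M : IntermediateField ℂ L} {A B : BD M} (h : up L A ≤ up L B) :
    A ≤ B := fun u => by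
  obtain ⟨w, l⟩ := Pb.up (φ := inc M) (fun _ => rfl) hL u
  exact le_of_mul_le_mul_left ((l.pb A).ge.trans ((h w).trans_eq (l.pb B))) (Int.cast_pos.2 l.e_pos)

/-- a transcendence basis among generators -/
theorem basis {M : Type} [Field M] [Algebra ℂ M] [Algebra M L] [IsScalarTower ℂ M L] {j : ℕ}
    (hL : FF L k) (hM : FF M j) (e : j ≤ k) {s : Set L} (h : IntermediateField.adjoin ℂ s = ⊤) :
    ∃ y : Fin (k - j) → L, AlgebraicIndependent M y ∧ ∀ i, y i ∈ s := by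
  have t : IntermediateField.adjoin M s = ⊤ := eq_top_iff.2 fun x _ =>
    (IntermediateField.adjoin_le_iff.2 (IntermediateField.subset_adjoin M s) :
      _ ≤ (IntermediateField.adjoin M s).restrictScalars ℂ) (h ▸ trivial)
  have : Algebra.IsAlgebraic (Algebra.adjoin M s) L := ⟨fun x =>
    IntermediateField.isAlgebraic_adjoin_iff.1
      (isAlgebraic_algebraMap (⟨x, t ▸ trivial⟩ : IntermediateField.adjoin M s))⟩
  obtain ⟨b, b1, b2⟩ := exists_isTranscendenceBasis_subset (R := M) s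
  have c := b2.cardinalMk_eq_trdeg
  rw [trdegL hM (r := k - j) (by rwa [Nat.sub_add_cancel e]), ← Cardinal.mk_fin] at c
  obtain ⟨f⟩ := Cardinal.eq.1 c
  exact ⟨fun i => f.symm i, b2.1.comp _ f.symm.injective, fun i => b1 (f.symm i).2⟩

end one

section two

variable {K L : Type} [Field K] [Algebra ℂ K] [Field L] [Algebra ℂ L] [Algebra L K]
  [IsScalarTower ℂ L K] {d n k m : ℕ} {Γ H : BD K} {a p : BD L} {u : Pl L} {θ η η' e : ℝ}

theorem gap (s : St d n k m Γ H a p) (u : Pl L) : a u = 0 ∨ ((n : ℝ) * m)⁻¹ ≤ a u := by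
  obtain ⟨T, l, b, c, -⟩ := s.bs.lift u
  obtain ⟨z, hz⟩ := s.inp.int T
  have e0 : (0 : ℝ) < em T u := Int.cast_pos.2 l.e_pos
  have n0 : (0 : ℝ) < n := Nat.cast_pos.2 s.inp.n0
  rw [c] at hz
  rcases z.eq_zero_or_pos with rfl | z0
  · exact .inl (by simpa [n0.ne', e0.ne'] using hz)
  have z1 : (1 : ℝ) ≤ z := Nat.one_le_cast.2 z0
  have a0 : 0 < a u := (mul_pos_iff_of_pos_right e0).1
    ((mul_pos_iff_of_pos_left n0).1 (hz ▸ one_pos.trans_le z1))
  refine .inr ((inv_le_iff_one_le_mul₀' (mul_pos n0 (e0.trans_le b))).2 ?_)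
  nlinarith [mul_le_mul_of_nonneg_left b (mul_pos n0 a0).le]

theorem exists_lc (s : St d n k m Γ H a p) : ∃ u, a u = 0 := by
  by_contra! c
  have z : p = 0 := le_antisymm (neg_nonneg.1 (Gs.det neg' s.ff s.smp s.big (Dsc.refl s.smp).neg
    fun u o => by simp [((s.dom u o).resolve_left (c u)).1])) s.nn
  have := (big_iff_dim s.ff s.big.eff).1 s.big
  rw [(prn_iff_dim s.ff s.smp).1 (z ▸ zero_mem _)] at this
  omega

theorem m_pos (s : St d n k m Γ H a p) : (0 : ℝ) < n * m :=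
  let ⟨u, _⟩ := exists_lc s
  let ⟨T, l, b, _⟩ := s.bs.lift u
  mul_pos (Nat.cast_pos.2 s.inp.n0) ((Int.cast_pos.2 l.e_pos).trans_le b)

theorem le_one (s : St d n k m Γ H a p) (h : On k p u ∨ a u = 0) : a u ≤ 1 := by
  obtain z | ⟨-, v, l, o, -⟩ := h.elim (s.dom u) .inl
  · exact z ▸ zero_le_one
  have x := s.bs.low v u l
  have y := s.inp.bdy v o
  have e1 : (1 : ℝ) ≤ em v u := Int.cast_one_le_of_pos l.e_pos
  simp only [ld] at x
  nlinarith

theorem st_smul (s : St d n k m Γ H a p) {q : ℚ} (h : (0 : ℝ) < q) :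
    St d n k m Γ H a ((q : ℝ) • p) :=
  ⟨s.inp, s.ff, s.cl, s.bs, s.smp.smul h.le, s.big.smul h, s.rat.qsmul q, smul_nonneg h.le s.nn,
    fun u o => (s.dom u ((Pr.on_iff res' s.ff s.smp ((AmpOn.refl s.smp).smul h)).2 o)).imp_right fun z => ⟨by simp [z.1], z.2⟩, s.det⟩

/-- the truncations of the polarisation -/
structure Fam (d k m : ℕ) (η : ℝ) (H : BD K) (a p : BD L) (θ : ℝ) (P S : BD L) : Prop where
  smp : Smp S
  big : Big S
  des : Dsc S P
  sP : Smp P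
  rat : CarQ P
  nn : 0 ≤ P
  le : P ≤ θ • p
  on : ∀ u, On k S u → (a u = 0 ∧ θ * p u - P u ≤ η) ∨ (θ * p u = 0 ∧ Dm d H u)
  gen : ∀ u, a u = 0 → m * (θ * p u) < η → P u = 0

theorem zd_max {D N X : BD L} (z : ZD D N) (h : Smp X) (e : X ≤ D) : X ≤ D - N := fun w => by
  obtain ⟨G, r, g⟩ := h.exists_rep (finite_singleton w)
  have := z.fix _ ((r.add (.refl (sub_nonneg.2 e))).congr (by simp)) w
  simp only [Pi.add_apply, Pi.sub_apply, g w rfl] at this ⊢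
  linarith

theorem fam (f0 : FTM0) (ym : YM) (ge : GEN) (s : St d n k m Γ H a p) {η : ℚ} (h : (0 : ℝ) < η) :
    ∃ P S : ℚ → BD L, (∀ θ : ℚ, 0 ≤ θ → Fam d k m η H a p θ (P θ) (S θ)) ∧
      ∀ θ θ', 0 ≤ θ → θ ≤ θ' → P θ ≤ P θ' := by
  obtain ⟨q, q1, q2, q3⟩ := ge K L d n k m Γ H a p s
  obtain ⟨Y, f, qf, dp, on⟩ := ym K L d n k m Γ H a p q s q1 q2
  have key : ∀ θ : ℚ, ∃ V P S : BD L, 0 ≤ θ → Hull k Y (fun u => max (θ * p u - η) 0) V ∧
      ZD V (V - P) ∧ Fam d k m η H a p θ P S := fun θ => by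
    by_cases t0 : 0 ≤ θ
    swap
    · exact ⟨0, 0, 0, fun x => absurd x t0⟩
    have t1 : (0 : ℝ) ≤ θ := Rat.cast_nonneg.2 t0
    obtain ⟨V, v⟩ := Gs.exists_hull neg' s.ff f.smp qf (Z := fun u => max (θ * p u - η) 0)
      ((Gs.isb_fin s.ff neg' f.smp f.big ((Ba.mod.isb k L s.ff).1 p s.smp.car)).subset
        fun u x => ⟨x.1, fun z => x.2 (by simp [z, h.le])⟩)
    have v0 : 0 ≤ V := Gs.det neg' s.ff f.smp f.big v.1 fun u o => v.2 u o ▸ le_max_right _ _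
    have v1 : V ≤ (θ : ℝ) • p := sub_nonneg.1 (Gs.det neg' s.ff f.smp f.big ((dp.smul _).sub v.1)
      fun u o => sub_nonneg.2 (v.2 u o ▸ max_le (sub_le_self _ h.le) (mul_nonneg t1 (s.nn u))))
    obtain ⟨S, P, c, f', -, hu, r, on', z⟩ := f0 k L s.ff Y V ∅ 0 f qf v.1
      (Gs.carQ_of neg' s.ff f.smp f.big v.1 fun u o => by
        obtain ⟨x, hx⟩ := s.rat.rat u
        exact ⟨max (θ * x - η) 0, by simp [v.2 u o, hx]⟩)
      (by simpa using (Eff.of_nonneg v0).psef)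
    have z := (z c le_rfl).1
    rw [mx_empty, smul_zero, add_zero] at z
    have sP : Smp P := by simpa using z.smp
    have p0 : 0 ≤ P := by simpa using zd_max z .zero v0
    have p1 : P ≤ V := sub_nonneg.1 z.nn
    refine ⟨V, P, S, fun _ => ⟨v, z, f'.smp, f'.big, hu.1, sP, r, p0, p1.trans v1,
      fun u o => ?_, q3 θ η P t1 sP.nef p0 (p1.trans v1) fun u x =>
        (p1 u).trans_eq (v.2 u ((on u).2 (.inr x)))⟩⟩
    obtain ⟨o1, o2⟩ := (on' u).1 o
    refine (((on u).1 o1).elim (s.dom u) fun x => .inl (q2 u x)).imp (fun x => ⟨x, ?_⟩)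
      fun x => ⟨by rw [x.1, mul_zero], x.2⟩
    rw [o2, v.2 u o1]
    linarith [le_max_left (θ * p u - η : ℝ) 0]
  choose V P S key using key
  refine ⟨P, S, fun θ t => (key θ t).2.2, fun θ θ' t t' => ?_⟩
  obtain ⟨a1, a2, a3⟩ := key θ t
  obtain ⟨b1, b2, -⟩ := key θ' (t.trans t')
  simpa using zd_max b2 a3.sP ((sub_nonneg.1 a2.nn).trans (sub_nonneg.1
    (Gs.det neg' s.ff f.smp f.big (b1.1.sub a1.1) fun u o => by
      rw [Pi.sub_apply, a1.2 u o, b1.2 u o]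
      exact sub_nonneg.2 (max_le_max (sub_le_sub_right
        (mul_le_mul_of_nonneg_right (Rat.cast_le.2 t') (s.nn u)) _) le_rfl))))

theorem Fam.fi {P S : BD L} (f : Fam d k m η H a p θ P S) (s : St d n k m Γ H a p) (e : η ≤ η') :
    ∃ A : BD (fld P), CarQ A ∧ up L A = P ∧ Fi d k η' H a (θ • p) S A := by
  obtain ⟨A, a1, a2, a3, a4⟩ := desc s.ff f.sP f.rat f.nn rfl
  exact ⟨A, a3, a4, fun x hx => ⟨⟨x, cld_fld P x hx⟩, rfl⟩, f.smp, f.big, a1, a2,
    up_le s.ff (by rw [a4, up, pb_zero]; exact f.nn), a4.symm ▸ f.des, a4.symm ▸ f.le,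
    fun u o => (f.on u o).imp_left fun x => ⟨x.1, a4.symm ▸ x.2.trans e⟩⟩

theorem low (s : St d n k m Γ H a p) (h : ∀ u, a u = 0 → e ≤ p u) (t : 0 ≤ θ) (w : Pl L) :
    min ((n : ℝ) * m)⁻¹ (θ * e) ≤ a w + (θ • p) w := by
  have x := mul_nonneg t (s.nn w)
  obtain z | z := gap s w
  · exact (min_le_right _ _).trans (by simpa [z] using mul_le_mul_of_nonneg_left (h w z) t)
  · exact (min_le_left _ _).trans (z.trans (le_add_of_nonneg_right x))

end two

/-- normalised states -/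
structure Nm {K L : Type} [Field K] [Algebra ℂ K] [Field L] [Algebra ℂ L] [Algebra L K]
    (d n k m : ℕ) (C e c : ℝ) (η : ℚ) (Γ H : BD K) (a p : BD L) (P S : ℚ → BD L) : Prop where
  st : St d n k m Γ H a p
  cen : Cen C a p
  low : ∀ u, a u = 0 → e ≤ p u
  gen : IntermediateField.adjoin ℂ {f | Sec (c • p) f} = ⊤
  fam : ∀ θ : ℚ, 0 ≤ θ → Fam d k m η H a p θ (P θ) (S θ)
  mono : ∀ θ θ', 0 ≤ θ → θ ≤ θ' → P θ ≤ P θ'

/-- the claim for the level `θ` -/
def Cm (d n k m : ℕ) (C e c : ℝ) (η θ : ℚ) (r : ℕ) : Prop := ∃ C' : ℝ, 0 ≤ C' ∧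
  For2 fun K L _ _ _ _ _ => ∀ (Γ H : BD K) (a p : BD L) (P S : ℚ → BD L),
    Nm d n k m C e c η Γ H a p P S → dim (P θ) ≤ r →
    ∃ (μ : Fin (k + 1) → ℝ) (y : Fin (k + 1) → L), Mt C' p μ y

variable {d n k m : ℕ} {C e c : ℝ} {η θ : ℚ}

/-- the last step -/
theorem last (af : AF) (ts : TSTEP) (e0 : 0 < e) (c0 : 0 < c) (h1 : (η : ℝ) < 1)
    (h2 : (m : ℝ) * η < 1) (t0 : 0 < θ) {C₁ : ℝ} (h3 : 0 ≤ C₁) : ∃ C' : ℝ, 0 ≤ C' ∧
    For2 fun K L _ _ _ _ _ => ∀ (Γ H : BD K) (a p : BD L) (P S : ℚ → BD L) (j : ℕ)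
      (A : BD (fld (P θ))) (μ : Fin j → ℝ) (z : Fin j → fld (P θ)),
      Nm d n k m C e c η Γ H a p P S → FF (fld (P θ)) j → j ≤ k →
      Fi d k η H a ((θ : ℝ) • p) (S θ) A → (j ≠ 0 → ∃ Y κ : BD (fld (P θ)), Smp Y ∧ Big Y ∧
        Dsc Y A ∧ (∀ u, On (j - 1) Y u ↔ On (j - 1) A u) ∧ Hull (j - 1) Y (cn _ j) κ ∧
        Psef (κ + A)) → Mt C₁ A μ z →
      ∃ (μ : Fin (k + 1) → ℝ) (y : Fin (k + 1) → L), Mt C' p μ y := by
  have t1 : (0 : ℝ) < θ := Rat.cast_pos.2 t0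
  by_cases hm : (0 : ℝ) < n * m
  swap
  · exact ⟨0, le_rfl, fun K L _ _ _ _ _ _ Γ H a p P S j A μ z h => absurd (m_pos h.st) hm⟩
  obtain ⟨t, a1, a2, af⟩ := af d m k (min ((n : ℝ) * m)⁻¹ (θ * e)) (by positivity)
  refine ⟨((k + 1) * (c / θ) + 2 * C₁) / t, by positivity,
    fun K L _ _ _ _ _ _ Γ H a p P S j A μ z h hM hj fi hY mt => ?_⟩
  have s := h.st
  have nX := (s.smp.smul t1.le).nef
  obtain ⟨y, y1, y2⟩ := basis s.ff hM (hj.trans k.le_succ) h.gen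
  have := ts K L _ (Fin (k + 1 - j)) (Fin j) d n k m j η t C₁ (c / θ) Γ H a p _ _ A μ z y s
    s.inp.n0 hM (by simp) (by simp; omega) h1 fi nX a1 a2 h3 (by positivity)
    (fun G r => af K L _ n j η Γ H a p _ _ G A s hM hj h2 fi nX (s.big.smul t1)
      (fun w _ => low s h.low t1.le w) r) hY mt y1
    fun i => by rw [smul_smul, div_mul_cancel₀ _ t1.ne']; exact y2 i
  exact ⟨_, _, mt_equiv s.ff (by simp) (Fintype.equivFinOfCardEq (by simp; omega)).symm
    (mt_smul this t1)⟩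

theorem cm (li : LIFT) (dw : DOWN) (po : POS) (af : AF) (ts : TSTEP) (n0 : 0 < n)
    (ih : ∀ j < k, MKS d n j) (C0 : 0 < C) (e0 : 0 < e) (c0 : 0 < c) : ∃ η : ℚ, (0 : ℝ) < η ∧
    ∀ r ≤ k, ∀ θ : ℚ, 0 < θ → Cm d n k m C e c η θ r := by
  obtain ⟨η₀, b0, li⟩ := li d n m n0
  obtain ⟨η, b1, b2⟩ := exists_rat_btwn (lt_min b0 (by positivity : 0 < ((m : ℝ) + 1)⁻¹))
  obtain ⟨b2, b3⟩ := lt_min_iff.1 b2
  rw [← one_div, lt_div_iff₀ (by positivity)] at b3
  have m0 : (0 : ℝ) ≤ m * η := by positivity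
  have h1 : (η : ℝ) < 1 := by linarith
  have h2 : (m : ℝ) * η < 1 := by linarith
  refine ⟨η, b1, fun r => ?_⟩
  induction r with
  | zero =>
    intro _ θ t0
    obtain ⟨C', a1, a2⟩ := last (d := d) (n := n) (k := k) (C := C) af ts e0 c0 h1 h2 t0 le_rfl
    refine ⟨C', a1, fun K L _ _ _ _ _ _ Γ H a p P S h hd => ?_⟩
    obtain ⟨A, -, -, fi⟩ := (h.fam θ t0.le).fi h.st le_rfl
    have hM := Nat.le_zero.1 hd ▸ ff_fld h.st.ff (P θ)
    exact a2 K L Γ H a p P S 0 A _ _ h hM k.zero_le fi (fun z => absurd rfl z) (mt_zero hM)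
  | succ r ihr =>
    intro hr θ t0
    have t1 : (0 : ℝ) < θ := Rat.cast_pos.2 t0
    by_cases hm : (0 : ℝ) < n * m
    swap
    · exact ⟨0, le_rfl, fun K L _ _ _ _ _ _ Γ H a p P S h => absurd (m_pos h.st) hm⟩
    have x0 : 0 < min ((n : ℝ) * m)⁻¹ (θ * e) := by positivity
    obtain ⟨m', li⟩ := li k _ x0
    obtain ⟨R, po⟩ := po n m m' r C n0 C0
    obtain ⟨C₁, c1, ih⟩ := ih r hr (m * m') (4 * C) (by positivity)
    obtain ⟨C₂, c2, la⟩ := last (d := d) (n := n) (k := k) (C := C) af ts e0 c0 h1 h2 t0 c1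
    obtain ⟨σ, s1, s2⟩ := exists_rat_btwn
      (lt_min one_pos (by positivity : (0 : ℝ) < η / (m * |R| + 1)))
    obtain ⟨s2, s3⟩ := lt_min_iff.1 s2
    rw [lt_div_iff₀ (by positivity)] at s3
    have s0 : 0 < σ := Rat.cast_pos.1 s1
    obtain ⟨C₃, c3, ihr⟩ := ihr (by omega) (σ * θ) (mul_pos s0 t0)
    refine ⟨max C₂ C₃, le_max_of_le_left c2, fun K L _ _ _ _ _ _ Γ H a p P S h hd => ?_⟩
    by_cases z : dim (P (σ * θ)) ≤ r
    · obtain ⟨μ, y, k⟩ := ihr K L Γ H a p P S h z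
      exact ⟨μ, y, mt_mono k (le_max_right _ _)⟩
    have s := h.st
    have le := h.mono (σ * θ) θ (mul_pos s0 t0).le
      (mul_le_of_le_one_left t0.le (by exact_mod_cast s2.le))
    have f' := h.fam _ (mul_pos s0 t0).le
    obtain ⟨N, n1, n2, -, n3⟩ := desc s.ff f'.sP f'.rat f'.nn
      (fld_eq_of_dim s.ff (fld_mono le) (by omega))
    have hM := (show dim (P θ) = r + 1 by have := dim_mono s.ff (fld_mono le); omega) ▸
      ff_fld s.ff (P θ)
    obtain ⟨A, q, up1, fi⟩ := (h.fam θ t0.le).fi s le_rfl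
    have fi' : Fi d k η₀ H a ((θ : ℝ) • p) (S θ) A := { fi with
      on := fun u o => (fi.on u o).imp_left fun x => ⟨x.1, x.2.trans b2.le⟩ }
    have nX := (s.smp.smul t1.le).nef
    have ce := cen_smul h.cen t1
    obtain ⟨a', bs⟩ := li K L _ r Γ H a p _ _ A s hM fi' nX fun w _ => low s h.low t1.le w
    have s' := dw K L _ d n k m r m' η 1 Γ H a p _ _ A a' s hM fi nX.car (fun w x => (ce w x).1)
      bs q
    obtain ⟨ce', hY⟩ := po K L _ d k η Γ H a p _ _ A a' N s s' h1 fi nX ce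
      (fun w _ => x0.trans_le (low s h.low t1.le w)) bs n1.nef n2
      (up_le s.ff (by rwa [n3, up1])) fun w x b => by
        rw [n3, f'.gen w x]
        have := mul_le_mul_of_nonneg_left (b.trans (le_abs_self R)) (by positivity : (0 : ℝ) ≤ σ * m)
        simp only [Pi.smul_apply, smul_eq_mul] at this
        push_cast
        nlinarith
    obtain ⟨μ, y, mt⟩ := ih K _ Γ H a' A s' ce'
    obtain ⟨μ, y, k⟩ := la K L Γ H a p P S _ A μ y h hM hr fi (fun _ => hY) mt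
    exact ⟨μ, y, mt_mono k (le_max_left _ _)⟩

theorem dyadic {q : ℚ → Prop} {l : ℚ} (l0 : 0 < l) (h : ¬ q l) (h' : ∃ i : ℕ, q (2 ^ i * l)) :
    ∃ l, 0 < l ∧ ¬ q l ∧ q (2 * l) := by
  obtain ⟨i, hi⟩ := h'
  induction i with
  | zero => exact absurd (by simpa using hi) h
  | succ i ih =>
    by_cases z : q (2 ^ i * l)
    · exact ih z
    · exact ⟨_, by positivity, z, by rwa [← mul_assoc, ← pow_succ']⟩

theorem asm (f0 : FTM0) : SASM := fun _ sh eb ng ym th ge li dw po af ts d n k n0 => by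
  induction k using Nat.strong_induction_on with
  | _ k ih =>
  intro m C C0
  obtain ⟨ε, b1, b2⟩ := exists_rat_btwn (by positivity : 0 < ((n : ℝ) * m + 1)⁻¹)
  rw [← one_div, lt_div_iff₀ (by positivity)] at b2
  obtain ⟨C₀, c0, sh⟩ := sh k ε b1
  obtain ⟨C₁, c1, eb⟩ := eb k ε b1
  obtain ⟨η, e0, cm⟩ := cm (m := m) (e := ε / (2 * C)) (c := C₁ * 2) li dw po af ts n0 ih C0
    (by positivity) (by positivity)
  obtain ⟨θ, t1, t2⟩ := exists_rat_btwn (by positivity : (0 : ℝ) < η / (m * C₀ + 1))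
  rw [lt_div_iff₀ (by positivity)] at t2
  have t0 : 0 < θ := Rat.cast_pos.1 t1
  obtain ⟨C', c', cm⟩ := cm k le_rfl θ t0
  refine ⟨C', c', fun K L _ _ _ _ _ _ Γ H a p s ce => ?_⟩
  obtain ⟨Λ, κ, -, -, t, dp, on, -⟩ := th K L d n k m Γ H a p ε s n0 (Rat.cast_pos.1 b1)
    (by linarith)
  have test : ∀ l : ℝ, 0 < l → Psef (κ + l • p) → ∀ u, a u = 0 → ε ≤ C * (l * p u) :=
    fun l l0 x u z => by
      have := (ng K L d n k m Γ H a p Λ κ s t.ft.smp t.ft.big t.hull.1 fun u o => by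
        simpa [ld, dsc, t.hull.2 u o] using le_one s (on u o)).2.2 u _ _ (s.big.smul l0)
          (add_comm κ _ ▸ x) (cen_smul ce l0 u z).2
      exact (t.elc u trivial).trans (sub_nonpos.1 (z ▸ this))
  obtain ⟨l, l0, q1, q2⟩ : ∃ l : ℚ, 0 < l ∧ ¬ Psef (κ + (l : ℝ) • p) ∧
      Psef (κ + ((2 * l : ℚ) : ℝ) • p) := by
    obtain ⟨u, z⟩ := exists_lc s
    have p0 := (ce u z).1
    obtain ⟨l, l1, l2⟩ := exists_rat_btwn (by positivity : 0 < ε / (C * p u))
    rw [lt_div_iff₀ (by positivity)] at l2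
    obtain ⟨δ, d0, x⟩ := s.big.exists_eff (neg_mem t.hull.1.car)
    obtain ⟨i, hi⟩ := pow_unbounded_of_one_lt (δ⁻¹ / l) (one_lt_two (α := ℝ))
    rw [div_lt_iff₀ l1] at hi
    refine dyadic (q := fun l : ℚ => Psef (κ + (l : ℝ) • p)) (Rat.cast_pos.1 l1)
      (fun y => by linarith [test l l1 y u z]) ⟨i, (x.smul (inv_pos.2 d0).le).psef.mono ?_⟩
    rw [smul_neg, sub_neg_eq_add, smul_add, inv_smul_smul₀ d0.ne', add_comm]
    push_cast
    exact add_le_add_right (smul_le_smul_of_nonneg_right hi.le s.nn) _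
  have l1 : (0 : ℝ) < l := Rat.cast_pos.2 l0
  have l2 : (0 : ℝ) < (2 * l : ℚ) := by positivity
  have s' := st_smul s l1
  obtain ⟨P, S, f1, f2⟩ := fam f0 ym ge s' e0
  have f := f1 θ t0.le
  obtain ⟨μ, y, k⟩ := cm K L Γ H a _ P S ⟨s', cen_smul ce l1, fun u z => by
      have := test _ l2 q2 u z
      rw [div_le_iff₀ (by positivity)]
      push_cast at this
      simp only [Pi.smul_apply, smul_eq_mul]
      linarith, by
      have := eb L s.ff Λ κ _ t (dp.smul _) (s.smp.smul l2.le).nef (s.big.smul l2)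
        (smul_nonneg l2.le s.nn) q2 fun Λ' β a1 a2 a3 a4 => by
          obtain ⟨x, y, -⟩ := ng K L d n k m Γ H a p Λ' β s a1 a2 a3 fun u o => by
            obtain ⟨o1, o2, o3⟩ := a4 u o
            obtain z | z := (on u o1).elim (s.dom u) .inl
            · exact z ▸ o2
            · exact (le_one s (on u o1)).trans (o3 (by simp [z.1]))
          exact ⟨x, fun u _ => le_trans ((gap s u).elim (·.ge)
            (le_trans (inv_pos.2 (m_pos s)).le)) (y u)⟩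
      rwa [Rat.cast_mul, Rat.cast_ofNat, mul_smul, smul_smul C₁] at this, f1, f2⟩ (by
    have := mt (big_iff_dim s.ff f.sP.eff).2 (sh L s.ff Λ κ _ _ t (dp.smul _) s'.rat s'.nn
      s'.smp.nef q1 f.sP.nef fun u o b => by
        obtain z | z := (on u o).elim (s.dom u) .inl
        · rw [f.gen u z]
          nlinarith [mul_le_mul_of_nonneg_left b (by positivity : (0 : ℝ) ≤ θ * m)]
        · simpa [z.1] using f.le u)
    have := dim_le s.ff (P θ)
    omega)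
  exact ⟨_, y, mt_smul k l1⟩

end As

end Vale.Agent.P283B.Mk
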