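import Vale.Agent.P283B.MK.St
import Vale.Agent.P283B.Tool.Mmp
import Vale.Agent.P283B.EB.WpB

/-!
# P283B, block MK: an honest klt pair on the base
-/

set_option linter.unusedVariables false

open Set

noncomputable section

namespace Vale.Agent.P283B.Mk

open P287D Wp

/-- **SBM** -/
theorem sbm : SBM := fun dn K L _ _ _ _ _ _ d k s Λ κ c hK hL cl sΛ bΛ qf dA kl bd nf bg dt => by
  classical
  obtain ⟨d1, d2, -, d4, d5⟩ := dn K L d (k + 1) hK hL cl
  have ok : Ok (algebraMap L K) := okL hK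
  simp only [up] at dA nf bg d1 d4
  have ss := smp_mx s
  have cκ : κ ∈ Car K := by simpa using sub_mem ((Car K).smul_mem c (ok.car ss.car)) nf.car
  have e1 : ∀ {w : Pl K} {u : Pl L}, Ly w u → (1 : ℝ) ≤ w.ord (algebraMap L K u.t) :=
    fun l => by exact_mod_cast l.e_pos
  have rk : ∀ Γ, Bdy d Λ Γ → ∀ f, (∀ P, Hz L P → Aj (d + 1) Γ P f) →
      f ∈ range (algebraMap L K) := fun Γ y f a => d2 f fun w t => by
    simpa [dv] using dt _ (.of_prn (neg_mem (dv_mem_Prn f)))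
      (fun w o t => neg_nonpos.2 (Int.cast_nonneg ((a w t).nonneg (y w o)))) w t
  obtain ⟨s₀, -, b₀⟩ := exists_big hL
  have sW := (smp_mx s₀).add ss
  obtain ⟨f1, f2⟩ := d5 Λ 0 _ sΛ bΛ (zero_mem _) sW (b₀.add_smp ss)
  obtain ⟨t, ω, T, h, l, a1, -, -, a4, a5⟩ :=
    Tl.exists_lsx hL sW (b₀.add_smp ss) (f1.union f2) finite_empty (by simp)
  have dW := a4.trans (Dsc.add_self (smp_mx s₀) ss)
  obtain ⟨η, η0, G, g⟩ := bg.exists_eff (ok.car l.smp.car)
  obtain ⟨ε, ε0, e⟩ := Pr.klt_open hK cκ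
    (g.car (sub_mem nf.car (Submodule.smul_mem _ η (ok.car l.smp.car)))) kl
  have s0 : 0 < min ε (1 / 2) := by positivity
  have s1 : 0 < 1 - min ε (1 / 2) := by linarith [min_le_right ε (1 / 2)]
  have k' := e _ ((abs_of_pos s0).trans_le (min_le_left _ _))
  generalize min ε (1 / 2) = σ at s0 s1 k'
  have bd' : Bdy d Λ (κ + σ • G) := fun P o => by
    rw [Pr.dsc_add_smul]
    linarith [bd P o, mul_nonneg s0.le (g.1 P)]
  have p : pb (algebraMap L K) (c • mx s - (σ * η) • mx t) - (κ + σ • G) -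
      (1 - σ) • (c • pb (algebraMap L K) (mx s) - κ) ∈ Prn K := by
    convert (Prn K).smul_mem (-σ) g.2 using 1
    simp only [pb_sub, pb_smul]
    module
  choose v hv using fun u : Pl L => Pb.up_alg (K' := K) hK u
  let a : Pl L → ℕ := fun u =>
    if ∃ w, Ly w u ∧ On d Λ w then 0 else ⌈dsc (d + 1) (κ + σ • G) (v u)⌉₊
  obtain ⟨dE, eE⟩ := l.hull_sum fun u => a u
  have qβ : CarQ (ω - ∑ u ∈ T, (a u : ℝ) • h u) :=
    (CarZ.carQ l.kz).sub (CarQ.sum _ fun u _ => CarZ.carQ (CarZ.nsmul (l.hz u) _))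
  have dβ := l.term.hull.1.sub dE
  have eβ : ∀ u, On k (mx t) u → dsc (k + 1) (ω - ∑ u ∈ T, (a u : ℝ) • h u) u =
      if u ∈ T then (a u : ℝ) else 0 := fun u o => by
    rw [← eE u o]
    have := l.d0 o
    simp only [dsc, Pi.sub_apply] at this ⊢
    linarith
  generalize ω - ∑ u ∈ T, (a u : ℝ) • h u = β at qβ dβ eβ
  have zβ : ∀ u w, Ly w u → On d Λ w → dsc (k + 1) β u = 0 := fun u w x o => by
    have y : ∃ w, Ly w u ∧ On d Λ w := ⟨w, x, o⟩
    rw [eβ u ((em' _).elim (fun z => l.on u (a1 u (.inr ⟨z, y⟩))) (Mm.on_mono res' hL sW a4))]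
    simp [a, y]
  have bX : Big (c • mx s - β) := by
    rw [← sub_add_cancel (c • mx s - β) ((σ * η) • mx t), sub_right_comm]
    refine (ngx hL hK ((nf.smul s1.le).congr p) ((bg.smul s1).congr p) (fun P _ => k' P)
      (rk _ bd') l.smp l.big ((dW.smul c).sub ((Dsc.refl l.smp).smul _)) dβ fun u o => ?_).1.add_big
      (l.big.smul (mul_pos s0 η0))
    by_cases y : ∃ w, Ly w u ∧ On d Λ w
    · obtain ⟨w, x, z⟩ := y
      exact ⟨w, x, by rw [zβ u w x z]; linarith [bd' w z, e1 x]⟩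
    · refine ⟨v u, hv u, ?_⟩
      rw [eβ u o, if_pos ((a5 u o).elim (fun z => a1 u (.inl ⟨z, fun ⟨w, x, y', _⟩ => y ⟨w, x, y'⟩⟩))
        id)]
      simp only [a, if_neg y]
      nlinarith [Nat.le_ceil (dsc (d + 1) (κ + σ • G) (v u)), e1 (hv u),
        Nat.cast_nonneg (α := ℝ) ⌈dsc (d + 1) (κ + σ • G) (v u)⌉₊]
  obtain ⟨ζ, ζ0, F, r⟩ := bX.exists_eff l.smp.car
  have pM : c • mx s - β - F - ζ • mx t ∈ Prn L := by
    convert neg_mem r.2 using 1
    abel
  have sM := (l.smp.smul ζ0.le).congr pM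
  have bM := (l.big.smul ζ0).congr pM
  obtain ⟨D, D1, D2⟩ := Gs.exists_hull Api.neg hK sΛ qf
    (Gs.isb_fin hK Api.neg sΛ bΛ ((Api.mod.isb d K hK).1 _ (ok.car qβ.neg.car)))
  have le : pb (algebraMap L K) (c • mx s - β - F) ≤ D + c • pb (algebraMap L K) (mx s) :=
    Gs.le_hull Api.neg hK sΛ bΛ (ok.smp sM) (D1.add (dA.smul c)) fun P o => by
      have := pb_nonneg (algebraMap L K) r.1 P
      simp only [pb_sub, pb_smul, pb_neg, Pi.add_apply, Pi.sub_apply, Pi.neg_apply, D2 P o,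
        Pi.zero_apply] at this ⊢
      linarith
  have ex := ok.pb_mx s
  obtain ⟨Λ', D', c', f', -, hl, -, o', zd⟩ := ftm0 d K hK Λ D _ c
    ⟨sΛ, bΛ, ex ▸ dA, κ, c, kl, bd, ex ▸ nf, ex ▸ bg⟩ qf D1
    (Gs.carQ_of Api.neg hK sΛ bΛ D1 fun P o => D2 P o ▸ (ok.carQ qβ.neg).rat P)
    (ex ▸ (ok.smp sM).psef.mono le)
  obtain ⟨z, dY⟩ := zd (max c c') (le_max_right _ _)
  have dΛ' := hl.1.add (f'.des.smul (max c c'))
  have m0 := sub_nonneg.2 (le_max_left c c')
  generalize max c c' = m at z dY dΛ' m0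
  rw [← ex] at z dY dΛ'
  have DD := sub_nonneg.1 z.nn
  obtain ⟨Y, sY, eY⟩ := d1 _ dY.smp (dt _ dY.smp fun w o x => by
    simpa [x.pb] using (DD w).trans_eq ((D2 w o).trans (x.pb _)))
  have bY : Big Y := (bM.add_smp (ss.smul m0)).mono ((Pb.le_iff (lin L K) hK).1 (by
    have := Gs.zd_le Api.neg hK z (sub_nonneg.2 le) (by
      convert ok.smp (sM.add (ss.smul m0)) using 1
      rw [pb_add, pb_smul]
      module)
    rw [pb_add, pb_smul, ← eY]
    intro w
    have := this w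
    simp only [Pi.add_apply, Pi.sub_apply, Pi.smul_apply, smul_eq_mul] at this ⊢
    linarith))
  have dY' : Dsc Y (mx s) := by
    obtain ⟨x, x0, y⟩ := dY.exists_sub
    rw [eY, ← pb_smul, ← pb_sub] at y
    obtain ⟨Z, sZ, eZ⟩ := d1 _ y fun w o => (o.pb _).le
    exact .of_smp sY ss x0 (Pb.inj (lin L K) hK eZ ▸ sZ)
  have vl : ∀ u w, Ly w u → On d Λ w → dsc (k + 1) (m • mx s - Y) u *
      w.ord (algebraMap L K u.t) = D' w - D w := fun u w x o => by
      have y := (congrFun eY w).trans (x.pb Y)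
      have z := zβ u w x o
      rw [D2 w o, x.pb]
      simp only [dsc, Pi.add_apply, Pi.sub_apply, Pi.neg_apply, Pi.smul_apply, smul_eq_mul,
        x.pb] at y z ⊢
      rw [sub_eq_zero.1 z]
      linarith
  have dm : ∀ u, On k Y u → ∃ w, Ly w u ∧ On d Λ w ∧ D' w = D w := fun u o =>
    (d4 Λ' Y u f'.smp f'.big sY bY (eY ▸ dΛ') o).imp fun w x => ⟨x.1, (o' w).1 x.2⟩
  refine ⟨m • mx s - Y, m, fun u => ?_, ?_⟩
  · obtain ⟨x, x0, y⟩ := Pr.klt_open hK cκ (dv_mem_Car (algebraMap L K u.t)) kl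
    rw [← pb_smul] at nf bg
    have := (ngx hL hK nf bg
      (fun P _ => kl P) (rk _ bd) sY bY (dY'.smul c) ((dY'.smul m).sub (.refl sY))
      fun u o => by
        obtain ⟨w, a, b, e⟩ := dm u o
        exact ⟨w, a, by linarith [vl u w a b, bd w b, e1 a]⟩).2 u x fun w _ => by
      have := y x (abs_of_pos x0).le w
      rw [Pr.dsc_add_smul, dv] at this
      linarith
    linarith
  · rw [sub_sub_cancel]
    exact ⟨sY, bY, dY', fun u w x o => add_le_iff_nonpos_left.2 (nonpos_of_mul_nonpos_left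
      ((vl u w x o).trans_le (sub_nonpos.2 (DD w))) (one_pos.trans_le (e1 x))),
      fun u o => (dm u o).imp fun w x => ⟨x.1, x.2.1⟩⟩

end Vale.Agent.P283B.Mk
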