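import Vale.Agent.P283B.MK.St
import Vale.Agent.P283B.Asm.Ax
import Vale.Agent.P283B.LS.Ot
import Vale.Agent.P287D.Sc.Sur

/-!
# P283B, block MK: descent along an algebraically closed subfield (row DN)
-/

set_option linter.unusedSectionVars false

open Set
open Vale.Agent.P297Z

noncomputable section

namespace Vale.Agent.P283B.Mk

open P287D Wp

namespace Dn

variable {K L : Type} [Field K] [Algebra ℂ K] [Field L] [Algebra ℂ L] [Algebra L K]
  [IsScalarTower ℂ L K] {d k n : ℕ} {S X Z : BD K} {A : BD L}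

variable (K L) in
/-- the image of `L` -/
def rg : IntermediateField ℂ K := (IsScalarTower.toAlgHom ℂ L K).fieldRange

variable (K L) in
/-- the isomorphism onto the image -/
def iso : L ≃ₐ[ℂ] rg K L := (IsScalarTower.toAlgHom ℂ L K).equivFieldRange

theorem hor {w : Pl K} : Hor (rg K L) w ↔ Hz L w :=
  ⟨fun h f => h _ ⟨f, rfl⟩, fun h _ ⟨f, e⟩ => e ▸ h f⟩

theorem cld (h : Cl L K) : Cld (rg K L) := fun f e =>
  h f (e.of_ringHom_of_comp_eq (iso K L) (RingHom.id K) (iso K L).surjective (fun _ _ z => z) rfl)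

theorem ff (h : FF L k) : FF (rg K L) k := by
  have := h.ess
  have : Algebra.EssFiniteType ℂ (rg K L) :=
    .of_surjective (iso K L : L →ₐ[ℂ] rg K L) (iso K L).surjective
  exact Gm.ff_of_ess ((iso K L).trdeg_eq.symm.trans h.trdeg)

theorem up_eq (hK : FF K n) (β : BD L) :
    up K β = pb (inc (rg K L)) (pb ((iso K L : L →ₐ[ℂ] rg K L) : L →+* rg K L) β) :=
  (hK.ok_sub _).pb_comp ((iso K L : L →ₐ[ℂ] rg K L) : L →+* rg K L) β

theorem eq_up (hK : FF K n) (β : BD (rg K L)) :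
    pb (inc (rg K L)) β = up K (pb (((iso K L).symm : rg K L →ₐ[ℂ] L) : rg K L →+* L) β) := by
  refine Eq.trans ?_ ((okL (L := L) hK).pb_comp _ β)
  congr 1
  ext a
  exact congrArg Subtype.val ((iso K L).apply_symm_apply a).symm

theorem dn1 (hK : FF K n) (hL : FF L k) (c : Cl L K) (hX : Smp X) (h : ∀ w, Hz L w → X w ≤ 0) :
    ∃ Y : BD L, Smp Y ∧ X = up K Y := by
  obtain ⟨β, a, b⟩ := smp_down hK hX
    (fld_le_of_hor hK (cld c) (zero_mem _) fun w z => h w (hor.1 z))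
  obtain ⟨γ, e, f⟩ := prn_down hK (cld c) (neg_mem b) fun w z => by
    rw [Pi.neg_apply, Pi.sub_apply, z.trv.pb, sub_zero]
    exact neg_nonneg.2 (h w (hor.1 z))
  refine ⟨_, (hL.ok _).smp (a.add_prn (neg_mem e)), Eq.trans ?_ (eq_up hK _)⟩
  rw [pb_add, pb_neg, ← f]
  abel

theorem dn3 (hK : FF K (d + 1)) (hL : FF L k) (c : Cl L K) (hS : Smp S) (bS : Big S) (hA : Smp A)
    (bA : Big A) (e : Dsc S (up K A)) (hX : Nef X) (h : ∀ w, On d S w → Hz L w → X w ≤ 0)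
    (w : Pl K) (hw : Hz L w) : X w ≤ 0 := by
  obtain ⟨K', _, _, φ, hφ⟩ := g1 K _ (cld c) ⟨_, ff hL⟩
  obtain ⟨r, hr, hL'⟩ := Gm.ff_sub hK (rg K L)
  obtain ⟨m, e'⟩ := Nat.exists_eq_add_of_le hr
  have D : GFd r m _ φ := ⟨hφ, e' ▸ hK, hL'⟩
  obtain ⟨a1, a2, a3, -⟩ := g2 _ _ _ _ _ _ D
  have hK' := (g1b _ _ _ _ _ _ D).1
  obtain ⟨w', l⟩ := a3 w (hor.2 hw)
  obtain ⟨m, rfl⟩ := Ba.ff_succ hK' w'
  obtain rfl : d = r + m := by omega
  have s := (hL'.ok (iso K L : L →ₐ[ℂ] rg K L)).smp hA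
  obtain ⟨-, b1, -, b2⟩ := Asm.ax.g6 _ _ _ _ _ _ D _ s (big_of_fld_pb hK s (by
    rintro _ ⟨a, rfl⟩
    exact up_eq hK A ▸ (okL hK).mem_fld bA.eff (bA.fld_eq ▸ trivial)))
  have ok : Ok φ := fun P => Or.inr (a1 P)
  rw [← (a2 w' w l).2.2.1 X]
  refine Api.neg.neg m K' hK' _ _ 0 (ok.smp hS) ((b1 S hS.car).2 ⟨0, by simpa using bS⟩)
    (ok.car hX.car) (by simpa using ok.nef hX) (fun P o => ?_) w'
  obtain ⟨Q, z⟩ := a1 P
  rw [(a2 P Q z).2.2.1]
  exact h Q (((b2 S hS (up_eq hK A ▸ e)).2.2 m P Q rfl z).1 o) (hor.1 (a2 P Q z).1)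

theorem fin_ly {T : Set (Pl K)} (h : T.Finite) : {u : Pl L | ∃ w ∈ T, Ly w u}.Finite :=
  (h.biUnion fun w _ => Set.Subsingleton.finite (s := {u : Pl L | Ly w u})
    fun _ a _ b => Lies.uniq a b).subset fun _ ⟨_, a, b⟩ => mem_biUnion a b

theorem dn5 (hK : FF K (d + 1)) (hL : FF L (k + 1)) (hS : Smp S) (bS : Big S) (hZ : Z ∈ Car K)
    (hA : Smp A) (bA : Big A) :
    {u | On k A u ∧ ¬ ∃ w, Ly w u ∧ On d S w ∧ Z w = 0}.Finite := by
  have s := (okL hK).smp hA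
  have b := bS.add_eff s.eff
  refine (fin_ly ((Api.mod.exc d K hK _ _ (hS.add s) b hS bS).union (Gs.isb_fin hK Api.neg
    (hS.add s) b ((Api.mod.isb d K hK).1 Z hZ)))).subset fun u z => ?_
  obtain ⟨w, l, o⟩ := exists_on_over hL hK (lin L K) (hS.add s) b hA bA (.add_self hS s) z.1
  refine ⟨w, by_contra fun v => z.2 ⟨w, l, ?_⟩, l⟩
  simpa [o] using v

/-- the log discrepancy upstairs -/
theorem ge (hK : FF K n) (hL : FF L k) : ∃ Z ∈ Car K, ∀ w u, Ly w u →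
    em w u * (cn L k u + 1) ≤ (cn K n + Z) w + 1 := by
  obtain ⟨r, hr, h'⟩ := Gm.ff_alg (L := L) hK
  obtain rfl := Gm.ff_uniq hL h'
  obtain ⟨m, e⟩ := Nat.exists_eq_add_of_le' hr
  obtain ⟨y, hy⟩ := exists_y hL (e ▸ hK)
  obtain ⟨x, hx, -⟩ := id hL
  obtain ⟨f, -, a⟩ := kq_cn hL (by simp) hx
  obtain ⟨g, -, b⟩ := kq_cn hK (by simp [e, add_comm]) (Ls.Ot.ind_sum hy hx)
  refine ⟨dv g - ∑ i, dv (y i) - up K (dv f), sub_mem (sub_mem (dv_mem_Car g)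
    (sum_mem fun i _ => dv_mem_Car _)) ((okL hK).car (dv_mem_Car f)), fun w u l => ?_⟩
  have := Ls.Ot.kq_ge hL hK (lin L K) (by simp) (by simp [e, add_comm]) hx
    (fun x hx => Ls.Ot.ind_sum hy hx) w
  rw [a, b, l.pb] at this
  simp only [Pi.add_apply, Pi.sub_apply, Pi.one_apply, l.pb, Finset.sum_apply, dv_apply] at this ⊢
  linarith

theorem dn6 (hK : FF K (d + 1)) (hL : FF L (k + 1)) (hS : Smp S) (bS : Big S) (hA : Smp A)
    (bA : Big A) : {u | ¬ On k A u ∧ ∃ w, Ly w u ∧ On d S w}.Finite := by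
  obtain ⟨Z, hZ, h⟩ := ge hK hL
  obtain ⟨s, Γ, t, -, -, -, c, -⟩ := Api.mod.ex k L hL ∅ ∅ finite_empty finite_empty (empty_subset _)
  have i := Api.mod.isb d K hK
  refine ((Api.mod.exc k L hL _ _ t.smp t.big hA bA).union (fin_ly (Gs.isb_fin hK Api.neg hS bS
    (In.IsB.add i.2.1 (i.1 _ (sub_mem hZ ((okL hK).car t.hull.1.car))))))).subset
      fun u ⟨z, w, l, o⟩ => ?_
  by_cases e : On k (mx s) u
  · exact Or.inl ⟨e, z⟩
  refine Or.inr ⟨w, ⟨o, fun v => ?_⟩, l⟩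
  have e1 := h w u l
  have e2 : 1 ≤ cn L (k + 1) u - Γ u := c u e
  have e3 : ((1 : ℤ) : ℝ) ≤ em w u := Int.cast_le.2 l.e_pos
  simp only [Pi.add_apply, Pi.sub_apply, l.pb, Int.cast_one] at e1 e3 v
  nlinarith

end Dn

open Dn

theorem dn : DN := fun K L _ _ _ _ _ _ d k hK hL c =>
  ⟨fun _ => dn1 hK hL c, fun _ h => (cld c).mem_of_ord hK fun w z => h w (hor.1 z),
    fun _ _ _ => dn3 hK hL c, fun _ _ u a b a' b' e o => by
      obtain ⟨k, rfl⟩ := Ba.ff_succ hL u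
      exact exists_on_over hL hK (lin L K) a b a' b' e o, fun S Z A a b z a' b' => by
      obtain _ | k := k
      · have : IsEmpty (Pl L) := ⟨Asm.no_pl hL⟩
        exact ⟨toFinite _, toFinite _⟩
      · exact ⟨dn5 hK hL a b z a' b', dn6 hK hL a b a' b'⟩⟩

end Vale.Agent.P283B.Mk
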