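import Vale.Agent.P283B.MK.Dn

/-!
# P283B, block MK: the state on the base (row SDOWN)
-/

set_option linter.unusedSectionVars false

open Set
open Vale.Agent.P297Z

noncomputable section

namespace Vale.Agent.P283B.Mk

open P287D Wp

namespace Dw

variable {K L M : Type} [Field K] [Algebra ℂ K] [Field L] [Algebra ℂ L] [Field M] [Algebra ℂ M]
  [Algebra L K] [Algebra M L] [Algebra M K] [IsScalarTower ℂ L K] [IsScalarTower M L K]
  {d n k m N : ℕ} {Γ H : BD K} {a p : BD L} {w : Pl K} {v : Pl L} {u : Pl M}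

theorem cl (h : Cl L K) (h' : Cl M L) : Cl M K := fun e z => by
  obtain ⟨x, rfl⟩ := h e (z.tower_top L)
  obtain ⟨y, rfl⟩ := h' x ((isAlgebraic_algebraMap_iff (algebraMap L K).injective).1 z)
  exact ⟨y, IsScalarTower.algebraMap_apply M L K y⟩

theorem ly (h : Ly w v) : Ly w u ↔ Ly v u := by
  rw [Ly, IsScalarTower.algebraMap_eq M L K]
  exact ⟨h.of_comp, h.comp⟩

theorem hz (h : Ly w v) : Hz M w ↔ Hz M v :=
  forall_congr' fun f => by rw [IsScalarTower.algebraMap_apply M L K, ← h]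

theorem hz' (h : Hz L w) : Hz M w := fun f => IsScalarTower.algebraMap_apply M L K f ▸ h _

theorem em_mul (h : Ly w v) (u : Pl M) : em w u = em w v * em v u := by
  rw [em, IsScalarTower.algebraMap_apply M L K, h.ord, Int.cast_mul]

theorem em_pos (h : Ly w v) : 0 < em w v := Int.cast_pos.2 h.e_pos

theorem mid (hK : FF K N) (h : Ly w u) : ∃ v : Pl L, Ly w v ∧ Ly v u :=
  let ⟨v, l⟩ := (okL (L := L) hK w).resolve_left fun t => h.not_trv (hz' t)
  ⟨v, l, (ly l).1 h⟩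

theorem ld_nn (h : In d n Γ H) (w : Pl K) : 0 ≤ ld (d + 1) Γ w := by
  obtain ⟨z, e⟩ := h.int w
  exact nonneg_of_mul_nonneg_right (e ▸ Nat.cast_nonneg z) (Nat.cast_pos.2 h.n0)

theorem nn {ε : ℝ} {b X : BD K} (h : Bs m ε b X a) (h0 : ∀ w, 0 ≤ b w) (v : Pl L) : 0 ≤ a v := by
  obtain ⟨T, l, -, e, -⟩ := h.lift v
  exact nonneg_of_mul_nonneg_left (e ▸ h0 T) (em_pos l)

end Dw

open Dw

theorem sdown : SDOWN := fun dn K L M _ _ _ _ _ _ _ _ _ _ _ _ _ d n k m j m' η ε Γ H a p X S A a'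
    h hM F hX x0 B hA => by
  have hK := h.inp.ff
  obtain ⟨-, -, d3, d4, -⟩ := dn L M k _ h.ff hM F.cl
  have low : ∀ w u, Ly w u → a' u * em w u ≤ ld (d + 1) Γ w := fun w u l => by
    obtain ⟨v, l1, l2⟩ := mid (L := L) hK l
    rw [em_mul l1, mul_left_comm, mul_comm]
    exact (mul_le_mul_of_nonneg_right (B.low v u l2) (em_pos l1).le).trans (h.bs.low w v l1)
  choose T T1 T2 T3 T4 using h.bs.lift
  refine ⟨h.inp, hM, cl h.cl F.cl, ⟨low, fun u => ?_⟩, F.sA, F.bA, hA, F.nn, fun u o => ?_, ?_⟩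
  · obtain ⟨v, l, b1, b2, -⟩ := B.lift u
    have e : ld (d + 1) Γ (T v) = a' u * em (T v) u := by
      rw [T3, b2, em_mul (T1 v) u]
      ring
    have l' := (ly (T1 v)).2 l
    refine ⟨T v, l', ?_, e, fun w z => ?_⟩
    · rw [em_mul (T1 v), Nat.cast_mul]
      exact mul_le_mul (T2 v) b1 (em_pos l).le (Nat.cast_nonneg m)
    · rw [Pi.zero_apply, Pi.zero_apply, add_zero, add_zero, sub_zero, e, mul_right_comm]
      exact mul_le_mul_of_nonneg_right (low w u z) (em_pos l').le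
  · obtain ⟨v, l, o'⟩ := d4 S A u F.smp F.big F.sA F.bA F.des o
    rcases F.on v o' with z | ⟨z, w, l', z'⟩
    · exact Or.inl (le_antisymm (nonpos_of_mul_nonpos_left ((B.low v u l).trans z.1.le) (em_pos l))
        (nn B (nn h.bs (ld_nn h.inp)) u))
    · refine Or.inr ⟨le_antisymm ?_ (F.nn u), w, (ly l').2 l, z'⟩
      have := (F.le v).trans z.le
      rw [up, l.pb] at this
      exact nonpos_of_mul_nonpos_right this (em_pos l)
  obtain ⟨T₀, t1, t2, t3⟩ := h.det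
  refine ⟨T₀ ∪ T '' {v | On k S v ∧ a v = 0}, t1.union (((Gs.isb_fin h.ff Api.neg F.smp F.big
    ((Api.mod.isb k L h.ff).1 X hX)).subset fun v z => ⟨z.1, (x0 v z.2).ne'⟩).image T), ?_,
    fun Y hY y w z => ?_⟩
  · rintro w (z | ⟨v, z, rfl⟩)
    · exact t2 w z
    · rw [T3, z.2, zero_mul]
  obtain ⟨Y, s, rfl⟩ := (dn K L d _ hK h.ff h.cl).1 Y hY (t3 Y hY fun w z z' =>
    y w (z.imp_left Or.inl) (hz' z'))
  have k' : ∀ (w : Pl K) v, Ly w v → (up K Y w ≤ 0 ↔ Y v ≤ 0) := fun w v l => by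
    rw [up, l.pb]
    exact ⟨fun e => nonpos_of_mul_nonpos_right e (em_pos l),
      mul_nonpos_of_nonneg_of_nonpos (em_pos l).le⟩
  rcases okL (L := L) hK w with t | ⟨v, l⟩
  · exact (t.pb Y).le
  refine (k' w v l).2 (d3 S Y A F.smp F.big F.sA F.bA F.des s.nef (fun v o z => ?_) v ((hz l).1 z))
  rcases F.on v o with e | ⟨-, w, l, e⟩
  · exact (k' _ v (T1 v)).1 (y _ (Or.inl (Or.inr ⟨v, ⟨o, e.1⟩, rfl⟩)) ((hz (T1 v)).2 z))
  · exact (k' w v l).1 (y w (Or.inr e) ((hz l).2 z))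

end Vale.Agent.P283B.Mk
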