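import Vale.Agent.P283B.MK.St
import Vale.Agent.P287D.Mm.Eng

/-!
# P283B, block MK: sections above the pseudo-effective threshold
-/

set_option linter.unusedVariables false

open Set

noncomputable section

namespace Vale.Agent.P283B.Mk

open P287D Lg

namespace Et

variable {L : Type} [Field L] [Algebra ℂ L] {k : ℕ} {ε : ℝ} {Λ Λ' κ X Y Z : BD L}

section rows

variable (hM : MOD) (hN : NEG) (hL : FF L (k + 1))

include hM hN hL in
theorem hull (s : Smp Λ) (b : Big Λ) (q : QF k Λ) (c : X ∈ Car L) : ∃ Y, Hull k Λ X Y :=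
  Gs.exists_hull hN hL s q (Gs.isb_fin hL hN s b ((hM.isb k L hL).1 X c))

include hM hN hL in
theorem hull_cn (s : Smp Λ) (b : Big Λ) (q : QF k Λ) : ∃ Y, Hull k Λ (cn L (k + 1)) Y :=
  Gs.exists_hull hN hL s q (Gs.isb_fin hL hN s b (hM.isb k L hL).2.1)

include hM hN hL in
/-- the push forward of a pseudo-effective class -/
theorem psef_push (b : Big Λ) (q : QF k Λ) (p : Psef X) (h : Hull k Λ X Y) : Psef Y := by
  obtain ⟨s, hs⟩ := p
  obtain ⟨E, e⟩ := hull hM hN hL h.1.smp b q (mx_mem_Car s)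
  refine .of_eff e.1.car fun η η0 => ?_
  obtain ⟨G, g⟩ := hs η η0
  refine eff_iff.2 ⟨_, g.2, Gs.det hN hL h.1.smp b ((h.1.add (e.1.smul η)).add_prn g.2)
    fun P o => ?_⟩
  have := g.1 P
  simp only [Pi.add_apply, Pi.sub_apply, Pi.smul_apply, h.2 P o, e.2 P o] at this ⊢
  simpa using this

include hM hN hL in
theorem pr (s : Smp Λ) (b : Big Λ) (h : Hull k Λ (cn L (k + 1)) κ) : Pr k Λ κ :=
  ⟨s, b, h.1, Gs.carQ_of hN hL s b h.1 fun P o =>
    let ⟨z, e⟩ := (hM.isb k L hL).2.2 P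
    ⟨z, by rw [h.2 P o, e, Rat.cast_intCast]⟩, fun P o => by simp [dsc, h.2 P o]⟩

include hN hL in
theorem neg_big (t : FTo k Λ ∅) (h : Hull k Λ (cn L (k + 1)) κ) : Big (-κ) := by
  obtain ⟨Γ, c, -, b, m, x⟩ := t.ex
  rw [mx_empty, smul_zero, zero_sub] at m x
  refine x.mono (Mm.le_hull hN hL t.big m h.1.neg fun P o => ?_)
  simpa [dsc, h.2 P o] using b P o

theorem ld_one (h : Hull k Λ (cn L (k + 1)) κ) {P : Pl L} (o : On k Λ P) :
    ld (k + 1) κ P = 1 := by simp [ld, dsc, h.2 P o]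

include hL in
/-- the program for a divisor, over a point -/
theorem run (h0 : FTM0) (t : FTo k Λ ∅) (q : QF k Λ) (d : Dsc Λ X) (r : CarQ X) (p : Psef X) :
    ∃ Λ' Y, FTo k Λ' ∅ ∧ QF k Λ' ∧ Hull k Λ' X Y ∧ CarQ Y ∧
      (∀ P, On k Λ' P ↔ On k Λ P ∧ Y P = X P) ∧ ZD X (X - Y) := by
  obtain ⟨Λ', Y, c, a1, a2, a3, a4, a5, a6⟩ := h0 k L hL Λ X ∅ 0 t q d r (by simpa using p)
  refine ⟨Λ', Y, a1, a2, a3, a4, a5, ?_⟩
  simpa [mx_empty] using (a6 c le_rfl).1

end rows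

theorem fract_fin {p : BD L} (h : {P | On k Λ P ∧ p P ≠ 0}.Finite) (c : ℝ) :
    {P | On k Λ P ∧ Int.fract (c * p P) ≠ 0}.Finite :=
  h.subset fun P a => ⟨a.1, fun z => a.2 (by simp [z])⟩

end Et

open Et in
/-- **EBT** -/
theorem sebt_of (hM : MOD) (hN : NEG) (h0 : FTM0) : SEBT := by
  intro eb lc k ε e0
  obtain ⟨m, m0, eb⟩ := eb k (ε / 2) 1 (half_pos e0) one_pos
  obtain ⟨N, N0, lc⟩ := lc k 1 one_pos
  refine ⟨3 * (m * N), by positivity, fun L _ _ hL Λ κ p t d pn pb p0 ps H => ?_⟩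
  have sΛ := t.ft.smp
  have bΛ := t.ft.big
  have rκ := pr hM hN hL sΛ bΛ t.hull
  -- a section of a multiple of the anticanonical class
  obtain ⟨g, g0, hg⟩ : ∃ g : L, g ≠ 0 ∧ (N : ℝ) • κ ≤ dv g := by
    obtain ⟨Λ', Y, a1, a2, a3, a4, a5, a6⟩ := run hL h0 t.ft t.qf t.hull.1.neg rκ.rat.neg
      (neg_big hN hL t.ft t.hull).psef
    have h : Hull k Λ' (cn L (k + 1)) (-Y) := (neg_neg κ ▸ a3.neg).congr fun P o =>
      t.hull.2 P ((a5 P).1 o).1
    obtain ⟨g, ⟨g0, x⟩, -⟩ := lc L hL Λ' (-Y) ⟨pr hM hN hL a1.smp a1.big h, a1, 0, by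
        simpa using a6.smp.nef⟩
      (fun P o _ => ⟨1, 1, le_rfl, one_pos, by simp [ld_one h o]⟩)
      (H Λ' _ a1.smp a1.big h.1 fun P o => ⟨((a5 P).1 o).1, by simp [ld_one h o],
        fun _ => (ld_one h o).ge⟩).2
    refine ⟨g, g0, fun P => le_trans ?_ (x P trivial)⟩
    have := a6.nn P
    simp only [Pi.sub_apply, Pi.neg_apply, Pi.zero_apply, Pi.smul_apply, smul_eq_mul] at this ⊢
    exact mul_le_mul_of_nonneg_left (by linarith) (Nat.cast_nonneg N)
  -- the fractional part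
  have fp := Gs.isb_fin hL hN sΛ bΛ ((hM.isb k L hL).1 p d.car)
  obtain ⟨F, f⟩ := Gs.exists_hull hN hL sΛ t.qf (Z := fun P => Int.fract (3 * p P)) (fract_fin fp 3)
  have F0 : 0 ≤ F := Gs.det hN hL sΛ bΛ f.1 fun P o => f.2 P o ▸ Int.fract_nonneg _
  have key : ∀ Λ' κ' F' : BD L, Smp Λ' → Big Λ' → (∀ P, On k Λ' P → On k Λ P) →
      Hull k Λ' (cn L (k + 1)) κ' → Hull k Λ' F F' →
      Psef (-(κ' + F')) ∧ ELc k 0 (κ' + F') All := fun Λ' κ' F' a b c x y =>
    H Λ' _ a b (x.1.add y.1) fun P o => by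
      have e : ld (k + 1) (κ' + F') P = 1 - Int.fract (3 * p P) := by
        simp only [ld, dsc, Pi.sub_apply, Pi.add_apply, x.2 P o, y.2 P o, f.2 P (c P o)]
        ring
      rw [e]
      exact ⟨c P o, sub_nonneg.2 (Int.fract_lt_one _).le, fun z => by simp [z]⟩
  have k0 := (key Λ κ F sΛ bΛ (fun _ o => o) t.hull (.self f.1)).1
  have dD := t.hull.1.add ((d.smul 3).sub f.1)
  have zi : ∀ P, On k Λ P → ((3 : ℝ) • p - F) P = (⌊3 * p P⌋ : ℤ) := fun P o => by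
    simp only [Pi.sub_apply, Pi.smul_apply, smul_eq_mul, f.2 P o, Int.self_sub_fract]
  have zD : ZOn k Λ (κ + ((3 : ℝ) • p - F)) := fun P o => by
    obtain ⟨z, e⟩ := (hM.isb k L hL).2.2 P
    exact ⟨z + ⌊3 * p P⌋, by rw [Pi.add_apply, zi P o, t.hull.2 P o, e, Int.cast_add]⟩
  have bD : Big (κ + ((3 : ℝ) • p - F)) := by
    convert pb.add_psef ((ps.smul zero_le_two).add k0) using 1
    module
  have pD : Psef (κ + ((3 : ℝ) • p - F) + κ) := by
    convert (ps.smul zero_le_three).add k0 using 1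
    module
  obtain ⟨Λ', D, a1, a2, a3, a4, a5, a6⟩ := run hL h0 t.ft t.qf dD
    (Gs.carQ_of hN hL sΛ bΛ dD fun P o => let ⟨x, e⟩ := zD P o; ⟨x, by rw [e, Rat.cast_intCast]⟩)
    bD.psef
  have on := fun P o => ((a5 P).1 o).1
  obtain ⟨κ', x⟩ := hull_cn hM hN hL a1.smp a1.big a2
  obtain ⟨F', y⟩ := hull hM hN hL a1.smp a1.big a2 f.1.car
  have xκ : Hull k Λ' κ κ' := x.congr fun P o => (t.hull.2 P (on P o)).symm
  have le : (3 : ℝ) • p ≤ D - κ' + F' :=
    Mm.le_hull hN hL a1.big (pn.smul zero_le_three) ((a3.1.sub x.1).add y.1) fun P o => by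
      simp only [Pi.add_apply, Pi.sub_apply, a3.2 P o, xκ.2 P o, y.2 P o]
      linarith
  have sD : Smp D := by simpa using a6.smp
  have B := eb L hL Λ' κ' D (pr hM hN hL a1.smp a1.big x) (fun P _ => by
      have u1 := (key Λ' κ' F' a1.smp a1.big on x y).2 P trivial
      have u2 := t.elc P trivial
      have u3 := le P
      have u4 := a6.nn P
      have u5 := F0 P
      simp only [ld, dsc, Pi.add_apply, Pi.sub_apply, Pi.zero_apply] at u1 u2 u3 u4 u5 ⊢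
      linarith)
    (fun P o _ => ⟨0, by simp [ld_one x o]⟩) a3.1 sD
    (by simpa using Gs.zd_big hN hL a6 bD) a4 (fun P o => a3.2 P o ▸ zD P (on P o))
    (Eff.of_nonneg (Gs.det hN hL a1.smp a1.big (a3.1.sub x.1) fun P o => by
      rw [Pi.sub_apply, a3.2 P o, xκ.2 P o, Pi.add_apply, add_sub_cancel_left, zi P (on P o)]
      exact Int.cast_nonneg (Int.floor_nonneg.2 (mul_nonneg zero_le_three (p0 P))))).psef
    (psef_push hM hN hL a1.big a2 pD (a3.add xκ))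
  refine eq_top_iff.2 (B.ge.trans (IntermediateField.adjoin_le_iff.2 ?_))
  rintro _ ⟨u, v, hu, hv, rfl⟩
  obtain rfl | v0 := eq_or_ne v 0
  · simp
  obtain ⟨N, rfl⟩ := Nat.exists_eq_add_of_lt N0
  rw [zero_add] at hg ⊢
  have sec : ∀ w : L, Sec ((m : ℝ) • D) w →
      Sec ((3 * (m * ((N + 1 : ℕ) : ℝ))) • p) (w * v ^ N * g ^ m) := fun w hw => by
    refine ((hw.mul (hv.pow N)).mul (Sec.pow (β := -((N + 1 : ℕ) : ℝ) • κ) (.inr ?_) m)).mono
      fun P => ?_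
    · rw [neg_smul, ← sub_eq_add_neg]
      exact sub_nonneg.2 hg
    · have u4 := a6.nn P
      have u5 := F0 P
      simp only [Pi.add_apply, Pi.sub_apply, Pi.zero_apply, Pi.smul_apply, smul_eq_mul] at u4 u5 ⊢
      have := mul_le_mul_of_nonneg_left (show D P - κ P ≤ 3 * p P by linarith)
        (show (0 : ℝ) ≤ m * (N + 1) by positivity)
      push_cast
      linarith
  rw [show u / v = u * v ^ N * g ^ m / (v * v ^ N * g ^ m) by field_simp]
  exact div_mem (IntermediateField.subset_adjoin _ _ (sec u hu))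
    (IntermediateField.subset_adjoin _ _ (sec v hv))

end Vale.Agent.P283B.Mk
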