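import Vale.Agent.P283B.MK.St

/-!
# P283B, block MK: the leaf `SEND`
-/

set_option linter.unusedVariables false

open Set

noncomputable section

namespace Vale.Agent.P283B.Mk

open P287D Wp Lg

/-- the field itself is a state -/
theorem In.st {K : Type} [Field K] [Algebra ℂ K] {d n : ℕ} {Γ H : BD K} (h : In d n Γ H) :
    St d n d 1 Γ H (ld (d + 1) Γ) H := by
  have e : ∀ w u : Pl K, Ly w u → w = u := fun w u l => (lies_id w).uniq l
  have e1 : ∀ u : Pl K, em u u = 1 := fun u => by simp [em, Pb.ord_t]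
  refine ⟨h, h.ff, fun a _ => ⟨a, rfl⟩, ⟨fun w u l => ?_, fun u => ⟨u, lies_id u, ?_, ?_, ?_⟩⟩,
    h.smp, h.big, h.rat, h.nn, fun u o => ?_, ∅, finite_empty, fun _ x => x.elim,
    fun X _ _ w z => ?_⟩
  · rw [e w u l, e1, mul_one]
  · rw [e1, Nat.cast_one]
  · rw [e1, mul_one]
  · intro w l
    rw [e w u l, sub_zero]
  · exact (h.sup u o).symm.imp_right fun z => ⟨z, u, lies_id u, o, z⟩
  · exact absurd (z.ord w.t) (by simp [Pb.ord_t])

/-- **SEND** -/
theorem send : SEND := fun cn mk d n C n0 C0 =>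
  let ⟨C', c, H⟩ := mk d n d n0 1 C C0
  ⟨C', c, fun K _ _ hK Γ H' h ce =>
    let ⟨μ, y, m⟩ := H K K Γ H' _ H' h.st ce
    ⟨μ, y, m, fun l l0 => cn K _ C' l H' μ y (by simpa using hK) h.smp.car c l0 m⟩⟩

end Vale.Agent.P283B.Mk
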