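import Vale.Agent.P283B.MK.St
import Vale.Agent.P287D.Pr.Lr

/-!
# P283B, block MK: finitely many lc places control all lc places (row GEN)
-/

open Set

noncomputable section

namespace Vale.Agent.P283B.Mk

open P287D

/-- **GEN** -/
theorem gen : GEN := fun K L _ _ _ _ _ _ d n k m Γ H a p S => by
  have hK := S.inp.ff
  have ok : Ok (algebraMap L K) := hK.ok (IsScalarTower.toAlgHom ℂ L K)
  have lc : ∀ w, 0 ≤ ld (d + 1) Γ w := fun w => by
    obtain ⟨z, hz⟩ := S.inp.int w
    exact le_of_mul_le_mul_left (a := (n : ℝ)) (by rw [hz, mul_zero]; positivity)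
      (Nat.cast_pos.2 S.inp.n0)
  have e1 : ∀ w u, Ly w u → (1 : ℝ) ≤ em (K := K) (L := L) w u := fun w u l =>
    Int.cast_one (R := ℝ) ▸ Int.cast_le.2 l.e_pos
  obtain ⟨s, κ, T, h, l, -, c1, c2⟩ := Pr.ls2 hK finite_empty (Prn_le_Car S.inp.prn)
    (ok.car S.smp.car)
  refine ⟨⋃ P ∈ T, {u | ld (d + 1) Γ P = 0 ∧ Ly P u}, T.finite_toSet.biUnion fun P _ =>
    Subsingleton.finite fun _ x _ y => x.2.uniq y.2, fun u hu => ?_,
    fun θ η N θ0 nN N0 Np hq u au hu => ?_⟩
  · obtain ⟨P, -, p1, p2⟩ := mem_iUnion₂.1 hu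
    obtain ⟨R, r1, -, r2, -⟩ := S.bs.lift u
    have := S.bs.low P u p2
    nlinarith [e1 P u p2, e1 R u r1, lc R]
  obtain ⟨R, r1, r2, r3, -⟩ := S.bs.lift u
  obtain ⟨b1, b2⟩ := l.hull_sum (up K N)
  obtain ⟨c, -, hc⟩ := b1.neg.exists_add
  have le := neg'.neg d K hK (mx s) (up K N - ∑ P ∈ T, up K N P • h P) c l.smp l.big
    (sub_mem (ok.nef nN).car b1.car) (by
      have := (ok.nef nN).add (hc c le_rfl).nef
      rwa [← add_assoc, ← sub_eq_add_neg] at this) (fun P o => by
      rw [Pi.sub_apply, b2 P o]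
      split_ifs with x
      · exact (sub_self _).le
      · simpa [pb_smul, c2.2 P o x] using pb_mono (algebraMap L K) Np P) R
  have nn : ∀ P ∈ T, 0 ≤ h P R := fun P p => l.nn (l.on P p) R
  have z := l.ld c1 R
  have z1 : ∑ P ∈ T, ld (d + 1) Γ P * h P R ≤ 0 := by
    have := l.snc R
    rw [au, zero_mul] at r3
    simp only [ld] at r3 ⊢
    linarith
  have z2 : ∑ P ∈ T, up K N P * h P R ≤ 0 := Finset.sum_nonpos fun P hP => by
    rcases (nn P hP).eq_or_lt with x | x
    · rw [← x, mul_zero]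
    refine mul_nonpos_of_nonpos_of_nonneg ?_ x.le
    rcases ok P with t | ⟨v, lv⟩
    · exact (t.pb N).le
    have p0 : ld (d + 1) Γ P = 0 := le_antisymm (le_of_mul_le_mul_right (by
      simpa using (Finset.single_le_sum (f := fun P => ld (d + 1) Γ P * h P R)
        (fun P p => mul_nonneg (lc P) (nn P p)) hP).trans z1) x) (lc P)
    have y := l.le_smul c2.1 (pb_nonneg _ S.nn) (l.on P hP) R
    simp only [Pi.smul_apply, smul_eq_mul, lv.pb, r1.pb] at y
    have y1 : p v ≤ m * p u := by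
      have := S.nn v
      have := mul_le_mul_of_nonneg_right r2 (S.nn u)
      have := mul_le_mul (mul_le_mul_of_nonneg_right (e1 P v lv) (S.nn v)) (l.one_le x) zero_le_one
        (mul_nonneg (zero_le_one.trans (e1 P v lv)) (S.nn v))
      simp only [em] at *
      linarith
    have y2 := hq v (mem_iUnion₂.2 ⟨P, hP, p0, lv⟩)
    rw [max_eq_right (by nlinarith)] at y2
    rw [up, lv.pb]
    exact mul_nonpos_of_nonneg_of_nonpos (zero_le_one.trans (e1 P v lv)) y2
  simp only [Pi.sub_apply, Finset.sum_apply, Pi.smul_apply, smul_eq_mul, Pi.zero_apply] at le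
  rw [show up K N R = _ from r1.pb N] at le
  exact le_antisymm (by nlinarith [e1 R u r1, N0 u]) (N0 u)

end Vale.Agent.P283B.Mk
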