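import Vale.Agent.P283B.MK.Eng

/-!
# P283B, block MK: places with bounded ramification which compute the thresholds
-/

set_option linter.unusedVariables false
set_option linter.unusedSectionVars false

open Set

noncomputable section

namespace Vale.Agent.P283B.Mk

open P287D Wp Lg En

namespace Li

variable {K L M : Type} [Field K] [Algebra ℂ K] [Field L] [Algebra ℂ L] [Field M] [Algebra ℂ M]
  [Algebra L K] [Algebra M L] [Algebra M K] [IsScalarTower M L K] [IsScalarTower ℂ L K]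
  [IsScalarTower ℂ M L] [IsScalarTower ℂ M K] {n d k j m e : ℕ} {w T : Pl K} {v T₁ : Pl L}
  {u : Pl M} {Γ H Λ κ : BD K} {a p X S Z Y Θ : BD L} {A b γ : BD M} {η r x c δ ε : ℝ}
  {s : Finset M}

/-- the extracted place computes the threshold of `Γ` -/
theorem rel (ac : Ga.AC0 d 1 {y | ∃ z : ℤ, n * y = z} δ) (i : In d n Γ H) (hM : FF M (j + 1))
    (h : Up d (j + 1) r Γ H X Z b {u} T x c s Λ κ γ) (hZ : ∀ w, Hz M w → up K Z w = -up K X w)
    (l : Ly T u) (d0 : 0 ≤ δ) (r1 : r ≤ δ) (hT : ld (d + 1) κ T ≤ δ) (lw : Ly w u) :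
    ld (d + 1) Γ T * em w u ≤ ld (d + 1) Γ w * em T u := by
  classical
  have hK := i.ff
  have ok := okL (L := M) hK
  have cκ : κ ∈ Car K := by
    simpa using sub_mem ((Car K).smul_mem c (ok.car (mx_mem_Car s))) h.nef.car
  obtain ⟨Γ', hΓ⟩ := Pr.exists_hull res' hK h.smp h.big h.qf ((Api.mod.isb d K hK).1 κ cκ)
  obtain ⟨c₀, -, h₀⟩ := (h.des.smul (-c)).exists_add
  have nf : Nef (-κ + c₀ • Λ) := by
    convert (h₀ c₀ le_rfl).nef.add h.nef using 1
    module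
  have le := Pr.le_hull res' hK h.smp h.big nf hΓ.1.neg fun P o => by
    rw [Pi.neg_apply, Pi.neg_apply, hΓ.2 P o]
  have kd : ∀ P, ld (d + 1) κ P = dsc (d + 1) κ P + 1 := fun _ => rfl
  have k0 : ∀ P, 0 < ld (d + 1) κ P := fun P => by linarith [h.klt P, kd P]
  obtain ⟨G, hG⟩ := Gs.exists_hull neg' hK h.smp h.qf
    (Z := fun P => if P = T ∨ ld (d + 1) Γ P = 0 then ld (d + 1) κ P else 0)
    (((fin_on hK h.smp h.big i.smp.car).insert T).subset fun P y => by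
      by_contra z
      rw [mem_insert_iff, not_or] at z
      exact y.2 (if_neg fun g => g.elim z.1 fun g => z.2 ⟨y.1, (i.pos P g).ne'⟩))
  have vG : ∀ P, On d Λ P →
      G P = if P = T ∨ ld (d + 1) Γ P = 0 then ld (d + 1) κ P else 0 := hG.2
  have e1 : ∀ P, On d Λ P → dsc (d + 1) Γ' P + 1 = ld (d + 1) κ P := fun P o => by
    simp only [ld, dsc, Pi.sub_apply, hΓ.2 P o]
  have cl : ∀ P, On d Λ P → U {u} P → ((P = T ∨ ld (d + 1) Γ P = 0) → ld (d + 1) κ P ≤ δ) ∧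
      (¬ (P = T ∨ ld (d + 1) Γ P = 0) → Hz M P ∧ ld (d + 1) κ P = ld (d + 1) Γ P) := fun P o y => by
    have g := h.ld_eq y
    obtain rfl | ⟨z, ⟨z1, z2⟩ | ⟨z1, z2⟩⟩ := h.cls P o y
    · exact ⟨fun _ => hT, fun t => absurd (.inl rfl) t⟩
    · exact ⟨fun _ => by linarith [hZ P z], fun t => absurd (.inr z1) t⟩
    · rw [hZ P z, z1, z2, neg_zero, sub_zero, mul_zero, add_zero] at g
      exact ⟨fun t => t.elim (fun t => t ▸ hT) fun t => by linarith, fun _ => ⟨z, g⟩⟩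
  have lc := ac K hK Λ Γ' 0 κ G c₀ {P | U {u} P} h.smp h.big
    (fun Q y P z => U.gen hK hM (smp_mx s) h.bs h.on y (z.of_dsc h.des)) Nef.zero
    (by rw [smul_zero]; exact zero_mem _) (by rw [add_zero]; exact hΓ.1)
    (fun P o => by linarith [e1 P o, h.bdy P o, kd P])
    (by rwa [← neg_add_eq_sub]) h.bdy (fun Q _ => h.klt Q) (fun Q _ => by
      have := le Q
      have := h.klt Q
      simp only [dsc, Pi.sub_apply, Pi.neg_apply] at *
      linarith) (fun P y o => by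
      rw [e1 P o]
      refine ⟨by linarith [h.bdy P o, kd P], .inr ?_⟩
      by_cases z : P = T ∨ ld (d + 1) Γ P = 0
      · exact .inr ((cl P o y).1 z)
      · obtain ⟨t, g⟩ := i.int P
        exact .inl ⟨t, by rw [((cl P o y).2 z).2, g, Int.cast_natCast]⟩) hG.1
    (neg'.nn d K hK Λ G h.smp h.big hG.1 fun P o => by
      rw [vG P o]
      split_ifs
      exacts [(k0 P).le, le_rfl]).1 fun P y o => by
      rw [e1 P o, vG P o]
      split_ifs with z
      exacts [⟨le_rfl, fun _ => (cl P o y).1 z⟩, ⟨(k0 P).le, fun t => absurd t (lt_irrefl _)⟩]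
  have e0 := em_pos l
  have cp := le_U hK hM (smp_mx s) h.bs (h.on u rfl) h.big h.des
    (β := Γ + (ld (d + 1) Γ T / em T u) • up K (dv u.t)) (γ := Γ' + G)
    (.of_prn h.smp (add_mem i.prn ((Prn K).smul_mem _ (ok.prn (dv_mem_Prn _))))) (hΓ.1.add hG.1)
    (fun P o y => by
      have g := vG P o
      have g' := e1 P o
      have t : ld (d + 1) Γ P = cn K (d + 1) P - Γ P + 1 := rfl
      simp only [dsc, Pi.sub_apply] at g'
      simp only [Pi.add_apply, Pi.smul_apply, smul_eq_mul]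
      by_cases z : P = T
      · rw [if_pos (.inl z)] at g
        rw [z] at g g' t
        rw [z, up_t l, div_mul_cancel₀ _ e0.ne']
        linarith
      have hz : Hz M P := ((h.cls P o y).resolve_left z).1
      rw [up_hz hz, mul_zero]
      by_cases z' : P = T ∨ ld (d + 1) Γ P = 0
      · rw [if_pos z'] at g
        linarith [z'.resolve_left z]
      · rw [if_neg z'] at g
        linarith [((cl P o y).2 z').2]) (P := w) (.inr ⟨u, rfl, lw⟩)
  have y := lc w (.inr ⟨u, rfl, lw⟩)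
  have t : ld (d + 1) Γ w = cn K (d + 1) w - Γ w + 1 := rfl
  simp only [dsc, Pi.sub_apply, Pi.add_apply, Pi.smul_apply, smul_eq_mul, up_t lw] at y cp
  rw [← div_le_iff₀ e0, mul_div_right_comm]
  linarith

/-- the ramification of the extracted place is bounded -/
theorem ram {e : ℚ} (ms : ForN k fun K _ _ => ∀ (Λ Γ : BD K) (s₀ : Finset K) (P : Pl K)
      (Q : Pl (fld (mx s₀))), Rel k Λ s₀ Γ → Lies (inc (fld (mx s₀))) P Q →
      Cf k Λ Γ (Frq e.den) (Ov s₀ P) → ELc k ε Γ (Ov s₀ P) →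
      δ * P.ord (inc (fld (mx s₀)) Q.t) ≤ ld (k + 1) Γ P) (d0 : 0 ≤ δ) (hL : FF L (k + 1))
    (hM : FF M (j + 1)) (cl : Cl M L) (bs : Big (mx s)) (o : On j (mx s) u) (l : Ly T₁ u)
    (h : Dn d k e κ T₁ (im (algebraMap M L) s) Y Θ) (low : ∀ v, U {u} v → ε ≤ ld (k + 1) Θ v) :
    δ * em T₁ u ≤ e := by
  have y := mx_im hL s
  obtain t | ⟨Q, q⟩ := hL.ok_sub (fld (mx (im (algebraMap M L) s))) T₁
  · exact absurd (fun f => t ⟨algebraMap M L f, y ▸ (okL hL).mem_fld bs.eff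
      (bs.fld_eq ▸ trivial)⟩) l.not_trv
  obtain ⟨f, hf⟩ : (Q.t : L) ∈ rg M L := fld_le_of_hor hL (cld_rg cl) (zero_mem _)
    (fun P z => by rw [y]; exact (up_hz (hor_rg.1 z) _).le) Q.t.2
  have g : T₁.ord (inc _ Q.t) = T₁.ord (algebraMap M L u.t) * u.ord f := l.ord f ▸ congrArg _ hf.symm
  have g1 : 0 < u.ord f := (pos_iff_pos_of_mul_pos (g ▸ q.e_pos)).1 l.e_pos
  have := ms L hL Y Θ _ T₁ Q h.rel q (fun P z _ => by
    obtain ⟨-, t⟩ | ⟨-, t⟩ := h.cf P z
    · refine ⟨e.den - e.num, ?_⟩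
      rw [t, Rat.cast_def]
      push_cast
      field_simp
    · exact ⟨0, by simp [t]⟩) fun P z => low P
      (U.gen hL hM (smp_mx s) bs (forall_eq.2 o) (.inr ⟨u, rfl, l⟩) (y ▸ z))
  refine le_trans (mul_le_mul_of_nonneg_left ?_ d0) (this.trans h.le)
  rw [g, Int.cast_mul]
  exact le_mul_of_one_le_right (em_pos l).le (Int.cast_one_le_of_pos g1)

end Li

open Li

/-- **SLIFT** -/
theorem slift : SLIFT := fun dn bm lo ac ms d n m n0 => by
  obtain ⟨δ, δ0, ac⟩ := ac d 1 {y | ∃ z : ℤ, n * y = z} one_pos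
    fun _ _ => ⟨n, n0, fun _ h _ => h⟩
  obtain ⟨θ, θ0, θ1, θ2⟩ : ∃ θ : ℝ, 0 < θ ∧ 3 * (m + 1) * θ ≤ δ ∧ 3 * (m + 1) * θ ≤ 1 :=
    ⟨min δ 1 / (3 * (m + 1)), by positivity, by
      rw [mul_div_cancel₀ _ (by positivity)]
      exact ⟨min_le_left _ _, min_le_right _ _⟩⟩
  refine ⟨θ, θ0, fun k ε₀ e0 => ?_⟩
  obtain ⟨ε, ε0, ε1⟩ := exists_rat_btwn (lt_min e0 θ0)
  obtain ⟨ε1, ε2⟩ := lt_min_iff.1 ε1
  obtain ⟨δ', δ1, ms⟩ := ms k ε (3 * ε).den ε0 (3 * ε).den_pos
  obtain ⟨m', hm⟩ := exists_nat_ge (3 * ε / δ')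
  refine ⟨m', fun K L M _ _ _ _ _ _ _ _ _ _ _ _ _ j Γ H a p X S A st hM fi nX hz => ?_⟩
  have hK := st.inp.ff
  have hL := st.ff
  have m0 : (0 : ℝ) ≤ m * θ := by positivity
  have key : ∀ u : Pl M, ∃ T : Pl L, Ly T u ∧ em T u ≤ m' ∧
      (∀ w, Ly w u → a T * em w u ≤ a w * em T u) ∧
      ∀ w, Ly w u → (a T + X T - 1) * em w u ≤ (a w + X w) * em T u := fun u => by
    obtain ⟨s₀, κ₀, T₀, h₀, l₀, t₀, -⟩ := exists_ls hM (finite_singleton u) finite_empty (by simp)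
    obtain ⟨v₀, lv⟩ := exists_ly hL u
    obtain ⟨c, -, c1, v₁, c2, c3⟩ := thr st hM nX.car (fi_nn fi)
      ((okL hL).car (dv_mem_Car u.t)) l₀.smp l₀.big (q := {u})
      (forall_eq.2 (l₀.on u (t₀ u rfl))) (.inr ⟨u, rfl, lv⟩) ((em_pos lv).trans_eq (up_t lv).symm)
    have lc : ∀ v, 0 ≤ a v + X v := fun v => by
      obtain ⟨T, t1, -, t3, -⟩ := st.bs.lift v
      exact add_nonneg (nonneg_of_mul_nonneg_left (t3 ▸ in_lc st.inp T) (em_pos t1)) (fi_nn fi v)
    have l1 : Ly v₁ u := by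
      obtain z | ⟨_, rfl, z⟩ := c2
      · have := hz v₁ z
        rw [show pb _ _ v₁ = 0 from up_hz z _] at c3
        linarith
      · exact z
    obtain ⟨τ, -, -, n1, T₁, l, n2⟩ := near (S := fun v : Pl L => Ly v u) (f := fun v => a v + X v)
      (g := fun v => em v u) (c := c) (τ₀ := -ε) (i₀ := v₁) ε0 (fun v z => (em_pos z).le)
      (fun v z => by nlinarith [lc v, one_le z]) (fun v z => up_t z ▸ c1 v (.inr ⟨u, rfl, z⟩)) l1
      (up_t l1 ▸ c3)
    obtain ⟨T, t1, t2, t3, -⟩ := st.bs.lift T₁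
    have lT := (ly3 t1).2 l
    have zh : ∀ v, Hz M v → (τ • up L (dv u.t) - X) v = -X v := fun v z => by
      rw [Pi.sub_apply, Pi.smul_apply, up_hz z, smul_zero, zero_sub]
    have zl : ∀ v, Ly v u → (τ • up L (dv u.t) - X) v = τ * em v u - X v := fun v z => by
      rw [Pi.sub_apply, Pi.smul_apply, up_t z, smul_eq_mul]
    have low : ∀ v, U {u} v → (ε : ℝ) ≤ a v - (τ • up L (dv u.t) - X) v := by
      rintro v (z | ⟨_, rfl, z⟩)
      · linarith [zh v z, hz v z]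
      · linarith [zl v z, n1 v z]
    have e1 := one_le t1
    have up2 : ld (d + 1) Γ T - up K (τ • up L (dv u.t) - X) T ≤ 2 * ε * em T T₁ := by
      rw [up_ly t1, zl T₁ l, t3]
      nlinarith
    have e3 : 3 * ε * em T T₁ ≤ 3 * m * θ := by nlinarith [mul_le_mul ε2.le t2 (by linarith) θ0.le]
    obtain ⟨x, c', s, Λ, κ, γ, h, hx⟩ := exists_up dn lo st hM fi nX.car
      (b := τ • dv u.t) (Z := τ • up L (dv u.t) - X) (q := {u}) (T := T)
      ((Car M).smul_mem τ (dv_mem_Car _)) (by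
        rwa [show up L (τ • dv u.t) = τ • up L (dv u.t) from pb_smul _ _ _, sub_sub_cancel])
      θ0.le ε0 (by nlinarith) (fun v z => (zh v z).ge) (fun v z => ε0.trans_le (low v z))
      (forall_eq.2 lT) (.inr ⟨u, rfl, lT⟩) (by nlinarith)
    have kT : ld (d + 1) κ T ≤ 3 * ε * em T T₁ := by
      rw [h.ld_eq (.inr ⟨u, rfl, lT⟩)]
      nlinarith
    have rl := fun w lw => rel (w := w) (ac d le_rfl) st.inp hM h (fun w z => by
      obtain g | ⟨v, g⟩ := okL (L := L) hK w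
      · rw [up_hz g, up_hz g, neg_zero]
      · rw [up_ly g, up_ly g, zh v ((hz3 g).1 z), mul_neg]) lT δ0.le (by nlinarith)
      (by nlinarith) lw
    obtain ⟨Y, Θ, dd, lw⟩ := h.down dn bm st t1 (e := 3 * ε) (by push_cast; nlinarith)
      (by push_cast; exact kT)
    have rm := ram ms δ1.le hL hM fi.cl h.bs (h.on u rfl) l dd fun v z => (low v z).trans (lw v z)
    refine ⟨T₁, l, le_trans ?_ hm, fun w lw => ?_, fun w lw => ?_⟩
    · rw [le_div_iff₀' δ1]
      exact_mod_cast rm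
    · obtain ⟨W, w1, -, w3, -⟩ := st.bs.lift w
      have := rl W ((ly3 w1).2 lw)
      rw [t3, w3, em3 w1 u, em3 t1 u] at this
      exact le_of_mul_le_mul_left (by linarith [this]) (mul_pos (em_pos w1) (em_pos t1))
    · have y1 := mul_le_mul_of_nonneg_right (n1 w lw) (em_pos l).le
      have y2 := mul_le_mul_of_nonneg_right n2 (em_pos lw).le
      have y3 := mul_nonneg ε0.le (em_pos l).le
      have y4 := mul_nonneg (show 0 ≤ 1 - 2 * (ε : ℝ) by nlinarith) (em_pos lw).le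
      linarith
  choose T t1 t2 t3 t4 using key
  exact ⟨fun u => a (T u) / em (T u) u, fun w u l => by
    rw [div_mul_eq_mul_div, div_le_iff₀ (em_pos (t1 u))]
    exact t3 u w l, fun u => ⟨T u, t1 u, t2 u, (div_mul_cancel₀ _ (em_pos (t1 u)).ne').symm, t4 u⟩⟩

end Vale.Agent.P283B.Mk
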