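import Vale.Agent.P283B.MK.St
import Vale.Agent.P283B.Tool.Mmp
import Vale.Agent.P283B.LC.Loc

/-!
# P283B, block MK: local models of Fano type
-/

set_option linter.unusedVariables false

open Set

noncomputable section

namespace Vale.Agent.P283B.Mk

open P287D Wp

namespace Lo

variable {L : Type} [Field L] [Algebra ℂ L] {k : ℕ} {q : Set (Pl L)} {b : BD L}

/-- the members of the multiples of `H` which do not contain the places in `q` -/
def Cq (q : Set (Pl L)) (H : BD L) : AddSubmonoid (BD L) where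
  carrier := {G | (0 ≤ G ∧ ∀ v ∈ q, G v = 0) ∧ ∃ m : ℝ, G - m • H ∈ Prn L}
  add_mem' := by
    rintro G F ⟨⟨a, c⟩, m, e⟩ ⟨⟨a', c'⟩, m', e'⟩
    refine ⟨⟨add_nonneg a a', fun v o => by rw [Pi.add_apply, c v o, c' v o, add_zero]⟩, m + m', ?_⟩
    rw [add_smul, add_sub_add_comm]
    exact add_mem e e'
  zero_mem' := ⟨⟨le_rfl, fun _ _ => rfl⟩, 0, by simp⟩

/-- a model of the base which contains the places in `q` -/
theorem base (hL : FF L k) (hq : q.Finite) (hb : b ∈ Car L) : ∃ s : Finset L, Big (mx s) ∧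
    Dsc (mx s) b ∧ (∀ (A γ : BD L) (m c : ℝ), Smp A → 0 < m → γ ∈ Car L → 0 ≤ γ →
      Nef (c • A - m • mx s - γ) → ∀ u ∈ q, γ u = 0 → On (k - 1) A u) ∧
    ∀ u ∉ q, ∃ G ∈ Cq q (mx s), 0 < G u := by
  cases k with
  | zero =>
    obtain ⟨s, -, h⟩ := exists_big hL
    obtain rfl : b = 0 := funext fun u => (Cb.no_pl hL u).elim
    exact ⟨s, h, Dsc.zero (smp_mx s), fun _ _ _ _ _ _ _ _ _ u => (Cb.no_pl hL u).elim,
      fun u => (Cb.no_pl hL u).elim⟩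
  | succ k =>
    obtain ⟨s, κ, T, h, l, a, -, c⟩ := exists_ls hL hq (finite_singleton b) (forall_eq.2 hb)
    refine ⟨s, l.big, (c b rfl).1, fun A γ m c sA m0 cγ γ0 nf u hu z => Pr.on_of res' hL sA
      (mx_mem_Car s) ((res'.on k L hL _ u l.smp).1 (l.on u (a u hu))) cγ γ0 z m0 nf,
      fun u hu => ?_⟩
    obtain ⟨x, x1, x2⟩ := wk u hq hu
    obtain ⟨F, F1, F2⟩ := Gs.exists_hull Api.neg hL l.smp l.qf
      (Gs.isb_fin hL Api.neg l.smp l.big ((Api.mod.isb k L hL).1 _ (pld_car x⁻¹)))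
    have le := Gs.le_hull Api.neg hL l.smp l.big (smp_pld x⁻¹) F1 fun P o => (F2 P o).ge
    obtain ⟨m, -, hm⟩ := F1.neg.exists_add
    obtain ⟨G, r, g⟩ := (hm m le_rfl).exists_rep hq
    refine ⟨G + F, ⟨⟨add_nonneg r.1 ((pld_nonneg _).trans le), fun v hv => ?_⟩, m, ?_⟩,
      add_pos_of_nonneg_of_pos (r.1 u) (lt_of_lt_of_le ?_ (le u))⟩
    · rw [Pi.add_apply, g v hv, F2 v (l.on v (a v hv)), pld_apply, P297Z.Pl.ord_inv]
      simp [(x2 v hv).le]
    · convert r.2 using 1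
      abel
    · rw [pld_apply, P297Z.Pl.ord_inv]
      simp [x1]

end Lo

/-- **SLOC** -/
theorem sloc : SLOC := fun dn K L _ _ _ _ _ _ d k Γ Λ₀ b q S B hK hL cl cb nf bg hq hB cB s0 b0 kl
    hS dt lf => by
  classical
  have ok : Ok (algebraMap L K) := okL hK
  have cΓ : Γ ∈ Car K := by simpa using sub_mem (ok.car cb) nf.car
  obtain ⟨s₀, bs, ds, on, sep⟩ := Lo.base hL hq cb
  have ss := smp_mx s₀
  obtain ⟨-, ⟨G, ⟨⟨G0, Gq⟩, g, Gp⟩, rfl⟩, k₂⟩ := Lcb.klt_U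
    (C := (Lo.Cq q (mx s₀)).map (pbL (algebraMap L K)).toAddMonoidHom) hK cΓ (ok.car ss.car)
    (by
      rintro _ ⟨G, ⟨⟨a, -⟩, m, e⟩, rfl⟩
      have := ok.prn e
      rw [pb_sub, pb_smul] at this
      exact ⟨pb_nonneg _ a, m, this⟩)
    fun P z => neg_lt_iff_pos_add.2 (kl P ((ok P).imp_right fun ⟨u, l⟩ => ⟨u, by_contra fun o =>
      let ⟨G, a, c⟩ := sep u o
      (mul_pos (Int.cast_pos.2 l.e_pos) c).ne' ((l.pb G).symm.trans (z _ ⟨G, a, rfl⟩)), l⟩))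
  change Klt _ (Γ - up K G) at k₂
  have dG : Dsc (mx s₀) G := ((Dsc.refl ss).smul g).congr Gp
  have zU : ∀ γ : BD L, (∀ u ∈ q, γ u = 0) → ∀ w, (Hz L w ∨ ∃ u ∈ q, Ly w u) → up K γ w = 0 :=
    fun γ h w o => o.elim (fun t => t.pb γ) fun ⟨u, a, l⟩ => (l.pb γ).trans (by rw [h u a, mul_zero])
  obtain ⟨s, κ, T, h, l, -, a2, a3⟩ := exists_ls hK finite_empty
    (((hB.union (hq.image fun u => dv (algebraMap L K u.t))).union
      (toFinite {Γ, Λ₀, up K G, up K (mx s₀)}))) (by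
    rintro _ ((o | ⟨u, -, rfl⟩) | rfl | rfl | rfl | rfl)
    exacts [cB _ o, dv_mem_Car _, cΓ, s0.car, ok.car dG.car, ok.car ss.car])
  have uΓ := a2.sub (a3 Γ (by simp))
  have uG := a3 (up K G) (by simp)
  choose r r1 r2 using fun P => exists_rat_btwn
    (max_lt (lt_add_one (dsc (d + 1) (Γ - up K G) P)) (neg_lt_iff_pos_add.1 (k₂ P)))
  let e : Pl K → ℚ := fun P => if P ∈ S then 0 else r P
  have e0 : ∀ P, (0 : ℝ) ≤ e P := fun P => by
    simp only [e]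
    split_ifs
    exacts [by simp, ((le_max_right _ _).trans (r1 P).le)]
  obtain ⟨dE, eE⟩ := l.hull_sum fun P => e P
  have qE : CarQ (∑ P ∈ T, (e P : ℝ) • h P) :=
    CarQ.sum _ fun P _ => (CarZ.carQ (l.hz P)).qsmul _
  have E0 : 0 ≤ ∑ P ∈ T, (e P : ℝ) • h P :=
    Finset.sum_nonneg fun P p => smul_nonneg (e0 P) (l.nn (l.on P p))
  generalize ∑ P ∈ T, (e P : ℝ) • h P = E at dE eE qE E0
  have oS : ∀ P ∈ S, On d (mx s) P := fun P p =>
    Mm.on_mono res' hK s0 (a3 Λ₀ (by simp)).1 (hS P p).2.1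
  have z : ∀ P ∈ S, E P = 0 := fun P p => by simp [eE P (oS P p), e, p]
  have z' : ∀ P ∈ T, P ∉ S → E P = r P := fun P o p => by simp [eE P (l.on P o), e, o, p]
  have zT : ∀ P, On d (mx s) P → P ∉ T → dsc (d + 1) Γ P = 0 := fun P o p => by
    have x := uΓ.2 P o p
    have y := l.d0 o
    simp only [dsc, Pi.sub_apply] at x y ⊢
    linarith
  obtain ⟨c₀, c0, hc⟩ := (dG.sub ds).exists_add
  obtain ⟨m, hm⟩ := exists_rat_gt c₀
  have sm := hc _ hm.le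
  have m0 := c0.trans hm
  have sA := (ok.smp ss).smul m0.le
  have eD : (m : ℝ) • up K (mx s₀) + E - (Γ - up K G + E) =
      up K b - Γ + up K (G - b + (m : ℝ) • mx s₀) := by
    simp only [pb_add, pb_sub, pb_smul]
    abel
  have n₃ := eD ▸ nf.add (ok.smp sm).nef
  have b₃ := eD ▸ bg.add_smp (ok.smp sm)
  have k₃ : Klt (d + 1) (Γ - up K G + E) := fun Q => by
    have := l.gt (Q := Q) (Γ := Γ - up K G + E)
      (show κ - Γ + up K G - E = κ - (Γ - up K G + E) by abel ▸ (uΓ.add uG).sub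
        ⟨dE, fun P o p => by rw [eE P o, if_neg p]⟩) le_rfl one_pos fun P p _ => by
        rw [Pr.dsc_add]
        by_cases w : P ∈ S
        · linarith [z P w, k₂ P]
        · linarith [z' P p w, r2 P]
    linarith
  have y₃ : Bdy d (mx s) (Γ - up K G + E) := fun P o => by
    rw [Pr.dsc_add]
    by_cases w : P ∈ S
    · rw [Lcb.dsc_sub, zU G Gq P (hS P w).1, z P w]
      linarith [show dsc (d + 1) Γ P + 1 ≤ 1 from (hS P w).2.2]
    by_cases p : P ∈ T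
    · linarith [z' P p w, (le_max_left _ _).trans_lt (r1 P)]
    · rw [Lcb.dsc_sub, uG.2 P o p, zT P o p]
      linarith [show 0 ≤ E P from E0 P]
  obtain ⟨Λ, N, zd, -, sΛ, bΛ, qΛ, dΛ, oΛ⟩ := Tl.minq hK l.smp l.big l.qf
    (((ok.carQ (carQ_mx s₀)).qsmul m).add qE)
    ⟨((a3 _ (by simp)).1.smul _).add dE, _, add_mem (sub_mem cΓ uG.1.car) dE.car, k₃, y₃, n₃, b₃⟩
    (sA.eff.add (.of_nonneg E0)).psef
  have NE : N ≤ E := Gs.zd_le Api.neg hK zd E0 (by simpa using sA)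
  have zN : ∀ P ∈ S, N P = 0 := fun P p => ((NE P).trans_eq (z P p)).antisymm (zd.nn P)
  obtain ⟨β, sβ, eβ⟩ := (dn K L d k hK hL cl).1 _ zd.smp (dt _ zd.smp fun w p t => by
    simp [z w p, zN w p, t.pb])
  have eγ : up K (β - (m : ℝ) • mx s₀) = E - N := by
    rw [up, pb_sub, pb_smul, ← up, ← eβ]
    abel
  have γ0 : 0 ≤ β - (m : ℝ) • mx s₀ :=
    (Pb.nonneg_iff (lin L K) hK).1 (eγ.symm ▸ sub_nonneg.2 NE : 0 ≤ up K _)
  have γq : ∀ u ∈ q, (β - (m : ℝ) • mx s₀) u = 0 := fun u o => by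
    obtain ⟨w, p, t⟩ := lf u o
    have := (t.pb _).symm.trans (congrFun eγ w)
    rw [Pi.sub_apply E, z w p, zN w p, sub_zero] at this
    exact (mul_eq_zero.1 this).resolve_left (Int.cast_pos.2 t.e_pos).ne'
  have cγ := sub_mem sβ.car (ss.smul m0.le).car
  have key : ∀ w ∈ T, On d Λ w → (Hz L w ∨ ∃ u ∈ q, Ly w u) → w ∈ S := fun w p o t =>
    by_contra fun x => by
      have := zU _ γq w t
      rw [eγ, Pi.sub_apply, ((oΛ w).1 o).2, z' w p x] at this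
      linarith [(le_max_right _ _).trans_lt (r1 w)]
  obtain ⟨s₁, -, am⟩ := sβ.exists_ampOn
  obtain ⟨c, -, h₁⟩ := am.dsc'.neg.exists_add
  have h₁ := h₁ c le_rfl
  have eκ : Γ + up K (β - (m : ℝ) • mx s₀ - G) = Γ - up K G + E - N := by
    rw [up, pb_sub, ← up, eγ]
    abel
  have eN : c • up K (mx s₁) - (Γ - up K G + E - N) =
      (m : ℝ) • up K (mx s₀) + E - (Γ - up K G + E) + up K (-β + c • mx s₁) := by
    simp only [up, pb_add, pb_neg, pb_smul] at eβ ⊢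
    rw [← eβ]
    abel
  refine ⟨s₁, Λ, Γ - up K G + E - N, c, am.big_iff.1 ((bs.smul m0).mono (sub_nonneg.1 γ0)),
    fun u o => on _ _ m c (smp_mx s₁) m0 cγ γ0 (by convert h₁.nef using 1; abel) u o (γq u o),
    sΛ, bΛ, qΛ, (eβ ▸ dΛ).trans (ok.dsc am.1), fun P => ?_, fun P o => ?_,
    eN ▸ n₃.add (ok.smp h₁).nef, eN ▸ b₃.add_smp (ok.smp h₁),
    ⟨_, sub_mem cγ dG.car, eκ.symm, fun u o => by rw [Pi.sub_apply, γq u o, Gq u o, sub_zero],
      by convert (h₁.add sm).nef using 1; abel⟩,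
    fun w p => (oΛ w).2 ⟨oS w p, zN w p⟩, fun w o u a t => key w (by_contra fun p => t.e_pos.ne'
      (Int.cast_eq_zero.1 ((a3 _ (.inl (.inr ⟨u, a, rfl⟩))).2 w ((oΛ w).1 o).1 p))) o
      (.inr ⟨u, a, t⟩), fun w o t => ?_⟩
  · rw [Lcb.dsc_sub]
    exact (k₃ P).trans_le (le_add_of_nonneg_right (zd.nn P))
  · rw [Lcb.dsc_sub, ((oΛ P).1 o).2, add_zero]
    exact y₃ P ((oΛ P).1 o).1
  · by_cases p : w ∈ T
    · exact .inl (key w p o (.inl t))
    · exact .inr ⟨by rw [ld, zT w ((oΛ w).1 o).1 p, zero_add],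
        fun Z a => (a3 Z (.inl (.inl a))).2 w ((oΛ w).1 o).1 p⟩

end Vale.Agent.P283B.Mk
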