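import Vale.Agent.P283B.MK.St
import Vale.Agent.P283B.LC.Gn

/-!
# P283B, block MK: the primes of the fibre of a Mori fibre space are short (row SHORT)
-/

set_option linter.unusedVariables false

open Set

noncomputable section

namespace Vale.Agent.P283B.Mk

open P287D Lg

namespace Sh

variable {K : Type} [Field K] [Algebra ℂ K] {n : ℕ} {Λ β γ : BD K}

theorem le_hull (hN : NEG) (hK : FF K (n + 1)) (hb : Big Λ) (hβ : Nef β) (h : Dsc Λ γ)
    (e : ∀ P, On n Λ P → β P ≤ γ P) : β ≤ γ := by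
  obtain ⟨c, -, k⟩ := h.neg.exists_add
  refine sub_nonpos.1 (hN.neg n K hK Λ _ c h.smp hb (sub_mem hβ.car h.car) ?_ fun P hP =>
    sub_nonpos.2 (e P hP))
  rw [sub_eq_add_neg, add_assoc]
  exact hβ.add (k c le_rfl).nef

end Sh

/-- **SSHORT**, from the rows of the library -/
theorem sshort_of (hF : FFS) (hM : MOD) (hI : INT) (hV : VOL) (hN : NEG) (hL : FLD)
    (hG : P287D.GEN) (h1 : FTM1) : SSHORT := fun w n ε ε0 => by
  obtain ⟨c, c0, hc⟩ := unif (A := Lg.TH ε) (fun _ _ j a b => b.mul j a) (n + 1)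
    fun r x => th hM hI hV (w r) ε0
  refine ⟨c, Nat.cast_pos.2 c0, fun K _ _ hK Λ κ p N t d q p0 np x nN hp bN => ?_⟩
  obtain ⟨Λ', D', s₁, m, -, a1, a2, a3, -, a4, a5, -, a6, a7, a8⟩ := h1 n K hK Λ _ ∅ t.ft t.qf
    (t.hull.1.add d) ((t.pr hM hN hK).rat.add q) fun e => by simpa using x
  have hull := fun (Z : BD K) (z : Z ∈ Car K) => Gs.exists_hull hN hK a1.smp a2
    (Gs.isb_fin hK hN a1.smp a1.big ((hM.isb n K hK).1 Z z))
  obtain ⟨E, e⟩ := hull p d.car
  obtain ⟨N', e'⟩ := hull N nN.car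
  have le := Sh.le_hull hN hK a1.big np e.1 fun P o => (e.2 P o).ge
  obtain ⟨r, K', _, _, φ, f, k⟩ := Ga.exists_fb hF hV hL hG hK (smp_mx s₁) a6
  have A := fb_amp k a7
  obtain ⟨y1, y2, y3⟩ := fb_fa hN k a1.smp a1.big a1.des (κ := D' - E) (ε := ε)
    ((a3.sub e).congr fun P o => by simp [t.hull.2 P (a5 P o)])
    (elc_le t.elc (sub_le_iff_le_add.2 (a4.trans (add_le_add le_rfl le)))) (by
      obtain ⟨a, ha⟩ := a8 E e.1
      have z := fb_prn hM k ha
      rw [pb_sub, pb_smul] at z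
      rcases le_or_gt 0 a with b | b
      · obtain ⟨G, g⟩ := (A.smp.smul b).eff
        have u := pb_nonneg φ (p0.trans le)
        have := hM.zero r K' k.ff (G + pb φ E) (by
          convert add_mem g.2 z using 1
          module) (add_nonneg g.1 u)
        rw [pb_sub, ((add_eq_zero_iff_of_nonneg g.1 u).1 this).2, sub_zero]
        exact A
      · rw [pb_sub, neg_sub, sub_eq_neg_add]
        exact A.add ((A.smul (neg_pos.2 b)).congr (by simpa using z)))
  have key : ∀ Q, On n Λ' Q → Hor (fld (mx s₁)) Q → p Q ≤ c := fun Q o h => by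
    by_contra z
    obtain ⟨U, -, u⟩ := a2 Q o
    have u0 := Gs.det hN hK a1.smp a1.big u.1 fun P b => u.2 P b ▸ Q.δ_nonneg P
    obtain ⟨a, ha⟩ := a8 U u.1
    have y := fb_prn hM k ha
    rw [pb_sub, pb_smul] at y
    obtain ⟨P, l⟩ := k.up Q h
    have a0 : a < 0 := not_le.1 fun b => by
      obtain ⟨G, g⟩ := (A.smp.smul b).eff
      have := congrFun (hM.zero r K' k.ff (G + pb φ U) (by
        convert add_mem g.2 y using 1
        module) (add_nonneg g.1 (pb_nonneg φ u0))) P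
      rw [Pi.add_apply, k.val l, u.2 Q o, Q.δ_self, Pi.zero_apply] at this
      linarith [show 0 ≤ G P from g.1 P]
    have AU : AmpOn (pb φ Λ') (pb φ U) := (A.smul (neg_pos.2 a0)).congr (by simpa using y)
    have ge := Gs.det hN hK a1.smp a1.big (e.1.sub (u.1.smul c)) fun P b => by
      rw [Pi.sub_apply, Pi.smul_apply, e.2 P b, u.2 P b, smul_eq_mul]
      by_cases v : P = Q
      · rw [v, Q.δ_self]; linarith [not_le.1 z]
      · rw [Pl.δ_ne v, mul_zero, sub_zero]; exact p0 P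
    refine hc r (by have := k.dm; omega) K' k.ff _ (pb φ U) y2 (y1.amp_iff.1 AU)
      (y3 U fun P b => ?_) ((A.nef.psef.add (Eff.of_nonneg (pb_nonneg φ ge)).psef).congr ?_)
    · by_cases v : P = Q
      · exact ⟨1, by rw [u.2 P b, v, Q.δ_self, Int.cast_one]⟩
      · exact ⟨0, by rw [u.2 P b, Pl.δ_ne v, Int.cast_zero]⟩
    · convert dv_mem_Prn f using 1
      simp only [pb_sub, pb_smul]
      abel
  refine Wv.not_big_zero hV k.ff ((k.big' (bN.mono (Sh.le_hull hN hK a1.big nN e'.1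
    fun P o => (e'.2 P o).ge)) e'.1.car).mono (neg_nonneg.1 (Gs.det hN k.ff A.smp_left
      (k.big' a1.big a1.smp.car) (k.ok.dsc e'.1).neg fun P o => ?_)))
  obtain ⟨Q, l⟩ := k.dn P
  have o' := (k.on Λ' a1.smp a1.big a1.des P Q l).1 o
  rw [Pi.neg_apply, k.val l, e'.2 Q o', neg_nonneg]
  exact hp Q (a5 Q o') (key Q o' (k.hor P Q l))

end Vale.Agent.P283B.Mk
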