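import Vale.Agent.P283B.MK.Ng
import Vale.Agent.P283B.MK.Short
import Vale.Agent.P283B.LC.Glx

/-!
# P283B, block MK: the leaves `SNG` and `SSHORT`
-/

noncomputable section

namespace Vale.Agent.P283B.Mk

open P287D

theorem ngX : NGX := fun _ _ _ _ _ _ _ _ _ _ _ _ _ _ a b c d e f g h i j k =>
  Wp.ngx a b c d e f g h i j k

theorem sng : SNG := sng_of ngX Api.mod Api.neg res'

theorem sshort : SSHORT := sshort_of Api.ffs Api.mod Api.int Api.vol Api.neg fld' Api.gen ftm1

end Vale.Agent.P283B.Mk
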