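import Vale.Agent.P283B.MK.St

/-!
# P283B, block MK: the leaf `SPOS`
-/

set_option linter.unusedVariables false

open Set

noncomputable section

namespace Vale.Agent.P283B.Mk

open P287D Wp Lg

/-- **SPOS** -/
theorem spos : SPOS := fun dn ng ng1 th sh n m m' j C n0 C0 => by
  obtain ⟨ε, e0, e1, e2⟩ : ∃ ε : ℚ, 0 < ε ∧ (ε : ℝ) ≤ 1 ∧ (ε : ℝ) * (n * (m * m' : ℕ)) < 1 := by
    refine ⟨1 / (n * (m * m' : ℕ) + 1), by positivity, ?_, ?_⟩ <;> push_cast
    · exact div_le_one_of_le₀ (le_add_of_nonneg_left (by positivity)) (by positivity)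
    · rw [one_div_mul_eq_div, div_lt_one (by positivity)]
      linarith
  have e3 : (0 : ℝ) < ε := by exact_mod_cast e0
  obtain ⟨C₀, c0, H₀⟩ := sh j ε e3
  obtain ⟨s, s0, s1⟩ := exists_rat_btwn (show 0 < min 1 (ε / (4 * C)) by positivity)
  have s2 : (s : ℝ) * (4 * C) < ε := (lt_div_iff₀ (by positivity)).1 (s1.trans_le (min_le_right _ _))
  replace s1 := (s1.trans_le (min_le_left _ _)).le
  refine ⟨1 + m' * (1 + C₀ / s), fun K L M _ _ _ _ _ _ _ _ _ _ _ _ _ d k η Γ H a p X S A a' N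
    st st' h1 fi nX ce hz bs nN bN le sN => ?_⟩
  obtain ⟨Λ, κ, Y, κ₀, tq, dA, on, lo, sY, bY, dY, oY, hu, kl⟩ :=
    th K M d n j (m * m') Γ H a' A ε st' n0 e0 e2
  have ok : Ok (algebraMap M L) := st.ff.ok (IsScalarTower.toAlgHom ℂ M L)
  have ep : ∀ {w : Pl L} {u : Pl M}, Ly w u → 1 ≤ em w u := fun l => Int.cast_one_le_of_pos l.e_pos
  have kl' : ∀ u, ld (j + 1) κ₀ u ≤ ld (j + 1) κ u := fun u => by
    have := kl u
    simp only [ld, dsc, Pi.sub_apply]
    linarith
  have lb : ∀ u, ld (j + 1) (κ₀ - A) u = ld (j + 1) κ₀ u + A u := fun u => by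
    simp only [ld, dsc, Pi.sub_apply]; ring
  have key := (ng K L M d n k m j Γ H a p X S A Y 0 (κ₀ - A) st st'.ff fi.cl fi.smp fi.big fi.sA
    fi.bA fi.des sY bY (.zero sY) (hu.1.sub dY) (by simpa [pb_zero] using nX) hz
    (fun w o h => (fi.on w o).imp (fun x => ⟨x.1, by have := h.pb A; linarith [x.2]⟩)
      fun x => ⟨x.1.le, x.2⟩) fun u o => by
      obtain ⟨w, l, o'⟩ := (dn L M k (j + 1) st.ff st'.ff fi.cl).2.2.2.1 S A u fi.smp fi.big fi.sA
        fi.bA fi.des ((oY u).1 o)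
      have e : up L A w = em w u * A u := l.pb A
      have := mul_nonneg (zero_le_one.trans (ep l)) (fi.nn u)
      refine ⟨w, l, ?_⟩
      rw [lb, show ld (j + 1) κ₀ u = 1 by simp [ld, dsc, hu.2 u o]]
      rcases fi.on w o' with ⟨x, y⟩ | ⟨x, v, l', o'', -⟩
      · linarith [ep l]
      have b1 := st.bs.low v w l'
      have b2 := st.inp.bdy v o''
      have b3 : 1 ≤ em v w := Int.cast_one_le_of_pos l'.e_pos
      have : a w ≤ 1 := by
        rw [ld] at b1
        by_contra b4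
        nlinarith
      linarith [ep l]).2.1
  have lift : ∀ u, a' u = 0 → ∃ T, Ly T u ∧ em T u ≤ m' ∧ a T = 0 ∧
      X T - 1 ≤ em T u * (ld (j + 1) κ u + A u) := fun u z => by
    obtain ⟨T, l, t1, t2, t3⟩ := bs.lift u
    have e := zero_lt_one.trans_le (ep l)
    rw [z, zero_mul] at t2
    refine ⟨T, l, t1, t2, (div_le_iff₀' e).1 ((key u _ fun w l' => ?_).trans ?_)⟩
    · rw [div_mul_eq_mul_div, div_le_iff₀ e]
      simpa [t2] using t3 w l'
    · linarith [lb u, kl' u]
  have ps : Psef (κ + (s : ℝ) • A) := by_contra fun h => H₀ M st'.ff Λ κ _ N tq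
    (dA.smul _) (st'.rat.qsmul s) (smul_nonneg s0.le fi.nn)
    (fi.sA.nef.smul s0.le) h nN (fun u o c => by
      by_cases z : a' u = 0
      · obtain ⟨T, l, t1, t2, t3⟩ := lift u z
        rw [show ld (j + 1) κ u = 1 by simp [ld, dsc, tq.hull.2 u o]] at t3
        have c1 : A u ≤ C₀ / s := (le_div_iff₀' s0).2 c
        have := mul_le_mul t1 (add_le_add_right c1 1) (add_nonneg zero_le_one (fi.nn u))
          (Nat.cast_nonneg _)
        have := sN T t2 (by linarith)
        rw [show up L N T = em T u * N u from l.pb N] at this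
        exact nonpos_of_mul_nonpos_right this (zero_lt_one.trans_le (ep l))
      · exact (le u).trans (((st'.dom u ((on u o).resolve_right z)).resolve_left z).1).le) bN
  refine ⟨fun u z => ?_, Y, κ₀, sY, bY, dY, oY, hu, ps.mono (add_le_add kl fun u => ?_)⟩
  swap
  · exact mul_le_of_le_one_left (fi.nn u) s1
  obtain ⟨T, l, t1, t2, t3⟩ := lift u z
  obtain ⟨x0, cT⟩ := ce T t2
  have e1 := ep l
  have e := zero_lt_one.trans_le e1
  obtain ⟨x, hx⟩ : ∃ x, X T = em T u * x := ⟨X T / em T u, by field_simp⟩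
  have g : ∀ G, Rep A G → G u ≤ C * x := fun G r => by
    have := cT _ (by simpa using (ok.rep r).add (Rep.refl (sub_nonneg.2 fi.le)))
    have b := fi.le T
    rw [Pi.add_apply, Pi.sub_apply, l.pb G, hx, mul_left_comm] at this
    refine le_of_mul_le_mul_left ?_ e
    linarith
  have w := (ng1 K M d n j (m * m') Γ H a' A Λ κ st' tq.ft.smp tq.ft.big tq.hull.1
    fun u _ => (lo u).trans (kl' u)).2.2 u _ (s * (C * x)) (fi.bA.smul s0) (add_comm κ _ ▸ ps)
    fun G r => by
      have := g _ (by simpa [smul_smul, s0.ne'] using r.smul (inv_nonneg.2 s0.le))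
      exact (inv_mul_le_iff₀ s0).1 this
  have w1 := tq.elc u trivial
  have x1 : 0 < x := (mul_pos_iff_of_pos_left e).1 (hx ▸ x0)
  have w2 := mul_lt_mul_of_pos_right s2 x1
  have x2 : 4 < x := by nlinarith
  have w3 : x - 1 ≤ ld (j + 1) κ u + A u := le_of_mul_le_mul_left (by linarith) e
  have w4 : x ≤ 2 * A u := by nlinarith
  exact ⟨by linarith, fun G r => (g G r).trans (by nlinarith)⟩

end Vale.Agent.P283B.Mk
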