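import Vale.Agent.P283B.MK.Ebt
import Vale.Agent.P283B.LC.Raise

/-!
# P283B, block MK: models of the subfield
-/

set_option linter.unusedVariables false

open Set

noncomputable section

namespace Vale.Agent.P283B.Mk

open P287D Wp Lg

namespace Sy

/-- the statement of `Lg.elm` -/
def ELM : Prop := ForS fun n K _ _ => ∀ (Λ : BD K) (ε : ℚ), Smp Λ → Big Λ → (0 : ℝ) < ε →
  (ε : ℝ) ≤ 1 → ∃ Y Θ : BD K, Smp Y ∧ Big Y ∧ QF n Y ∧ Dsc Y Λ ∧ Dsc Y Θ ∧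
    ELc n ε Θ All ∧ (∀ (Γ : BD K) (c : ℝ), Nef (c • Λ - Γ) → Bdy n Λ Γ → Θ ≤ Γ) ∧
    ∀ P, On n Y P → (On n Λ P ∧ ld (n + 1) Θ P = 1) ∨ ld (n + 1) Θ P = ε

variable {K L : Type} [Field K] [Algebra ℂ K] [Field L] [Algebra ℂ L] [Algebra L K]
  {d n k m : ℕ} {Γ H : BD K} {a p : BD L}

theorem lc (i : In d n Γ H) (w : Pl K) : 0 ≤ ld (d + 1) Γ w := by
  obtain ⟨z, e⟩ := i.int w
  exact nonneg_of_mul_nonneg_right (e ▸ Nat.cast_nonneg z) (Nat.cast_pos.2 i.n0)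

theorem ld_sub (x : ℝ) (w : Pl K) : ld d (Γ - x • H) w = ld d Γ w + x * H w := by
  simp only [ld, dsc, Pi.sub_apply, Pi.smul_apply, smul_eq_mul]
  ring

theorem em_pos {w : Pl K} {u : Pl L} (l : Ly w u) : 1 ≤ em w u :=
  Int.cast_one (R := ℝ) ▸ Int.cast_le.2 l.e_pos

theorem nn (s : St d n k m Γ H a p) (u : Pl L) : 0 ≤ a u := by
  obtain ⟨T, l, -, e, -⟩ := s.bs.lift u
  exact nonneg_of_mul_nonneg_left (e ▸ lc s.inp T) (one_pos.trans_le (em_pos l))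

/-- the gap below the values of `a` -/
theorem gap (s : St d n k m Γ H a p) {u : Pl L} (h : a u * (n * m) < 1) : a u = 0 := by
  obtain ⟨T, l, b, e, -⟩ := s.bs.lift u
  obtain ⟨z, y⟩ := s.inp.int T
  have e0 := one_pos.trans_le (em_pos l)
  have n0 : (0 : ℝ) < n := Nat.cast_pos.2 s.inp.n0
  have : (z : ℝ) < (1 : ℕ) := by
    rw [← y, e, Nat.cast_one]
    nlinarith [mul_le_mul_of_nonneg_left b (mul_nonneg (nn s u) n0.le)]
  obtain rfl : z = 0 := Nat.lt_one_iff.1 (Nat.cast_lt.1 this)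
  rw [e, Nat.cast_zero] at y
  exact (mul_eq_zero.1 ((mul_eq_zero.1 y).resolve_left n0.ne')).resolve_right e0.ne'

theorem le_one (s : St d n k m Γ H a p) {u : Pl L} (h : Dm d H u) : a u ≤ 1 := by
  obtain ⟨v, l, o, -⟩ := h
  have x := s.bs.low v u l
  have y := s.inp.bdy v o
  have z := mul_le_mul_of_nonneg_left (em_pos l) (nn s u)
  simp only [ld] at x
  linarith

theorem on_le (s : St d n k m Γ H a p) {u : Pl L} (o : On k p u) : a u ≤ 1 :=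
  (s.dom u o).elim (fun e => e.trans_le zero_le_one) fun e => le_one s e.2

/-- extraction of finitely many lc places -/
theorem ext (hM : MOD) (hN : NEG) (he : EXTR) (i : In d n Γ H) {T : Set (Pl K)} (hT : T.Finite)
    (h : ∀ w ∈ T, ld (d + 1) Γ w = 0) : ∃ (Λ : BD K) (x : ℝ), 0 < x ∧ Smp Λ ∧ Big Λ ∧ QF d Λ ∧
      Dsc Λ H ∧ (∀ w, On d Λ w ↔ On d H w ∨ w ∈ T) ∧ Klt (d + 1) (Γ - x • H) ∧
      Bdy d Λ (Γ - x • H) ∧ Nef (-(Γ - x • H)) ∧ Big (-(Γ - x • H)) := by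
  have f := Gs.isb_fin i.ff hN i.smp i.big ((hM.isb d K i.ff).1 H i.smp.car)
  obtain ⟨x, x0, -, hx⟩ := Lcr.small (hT.union f) H one_pos one_pos
  have e : -(Γ - x • H) - x • H ∈ Prn K := by simpa using i.prn
  have nf := (i.smp.nef.smul x0.le).congr e
  have kl : Klt (d + 1) (Γ - x • H) := fun w => neg_lt_iff_pos_add.2 <| by
    have := ld_sub (d := d + 1) (Γ := Γ) (H := H) x w
    rw [ld] at this
    rw [this]
    rcases (lc i w).eq_or_lt with z | z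
    · exact add_pos_of_nonneg_of_pos z.le (mul_pos x0 (i.pos w z.symm))
    · exact add_pos_of_pos_of_nonneg z (mul_nonneg x0.le (i.nn w))
  have b1 : ∀ w, ld (d + 1) Γ w = 0 → w ∈ T ∪ {P | On d H P ∧ H P ≠ 0} →
      ld (d + 1) (Γ - x • H) w ≤ 1 := fun w z o => by
    rw [ld_sub, z, zero_add]
    exact (hx w o).le
  have bd : Bdy d H (Γ - x • H) := fun w o => by
    by_cases z : H w = 0
    · simpa [dsc, z] using i.bdy w o
    · exact add_le_iff_nonpos_left.1 (b1 w ((i.sup w o).resolve_left z) (.inr ⟨o, z⟩))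
  obtain ⟨Λ, a1, a2, a3, a4, a5⟩ := he d K i.ff H _ 0 T i.smp i.big
    (by rwa [zero_smul, zero_sub]) bd kl hT fun w o => b1 w (h w o) (.inl o)
  exact ⟨Λ, x, x0, a1, a2, a3, a4, a5, kl, fun w o => ((a5 w).1 o).elim (bd w) fun o =>
    add_le_iff_nonpos_left.1 (b1 w (h w o) (.inl o)), nf, (i.big.smul x0).congr e⟩

theorem ym (hM : MOD) (hN : NEG) (he : EXTR) (dn : DN) (bm : BM) : YM := by
  intro K L _ _ _ _ _ _ d n k m Γ H a p q s fq hq
  have i := s.inp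
  have f := ((dn K L d (k + 1) i.ff s.ff s.cl).2.2.2.2 H H p i.smp i.big i.smp.car s.smp s.big).1
  rw [Nat.add_sub_cancel] at f
  choose T l _ e _ using s.bs.lift
  obtain ⟨T₀, t1, t2, t3⟩ := s.det
  have z : ∀ u ∈ q ∪ {u | On k p u ∧ ¬ Dm d H u}, a u = 0 := fun u o =>
    o.elim (hq u) fun o => (s.dom u o.1).resolve_right fun y => o.2 y.2
  obtain ⟨Λ, x, x0, a1, a2, a3, a4, a5, a6, a7, a8, a9⟩ := ext hM hN he i
    (t1.union ((fq.union f).image T)) fun w o => o.elim (t2 w) fun ⟨u, y, r⟩ => by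
      rw [← r, e u, z u y, zero_mul]
  obtain ⟨Γ₀, c, b1, b2, b3, -, b4, -⟩ := bm K L d k ∅ Λ _ 0 i.ff s.ff s.cl a1 a2 a3
    (by rw [mx_empty, up, pb_zero]; exact .zero a1) a6 a7 (by rwa [zero_smul, zero_sub])
    (by rwa [zero_smul, zero_sub]) fun X x y => t3 X x fun w o =>
      y w ((a5 w).2 (o.elim (fun o => .inr (.inl o)) fun o => .inl o.1))
  rw [mx_empty, smul_zero] at b2 b3
  have b5 : ∀ u ∈ q ∪ {u | On k p u ∧ ¬ Dm d H u}, ld (k + 1) Γ₀ u ≤ 1 := fun u o =>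
    b4 u (T u) (l u) ((a5 _).2 (.inr (.inr ⟨u, o, rfl⟩)))
  have bd : Bdy k p Γ₀ := fun u o => add_le_iff_nonpos_left.1 (show ld (k + 1) Γ₀ u ≤ 1 from by
    by_cases y : Dm d H u
    · obtain ⟨v, r, w, -⟩ := y
      exact b4 u v r ((a5 v).2 (.inl w))
    · exact b5 u (.inr ⟨o, y⟩))
  obtain ⟨Y, c1, c2, c3, c4, c5⟩ := he k L s.ff p Γ₀ 0 q s.smp s.big
    (by rw [zero_smul]; exact b2.nef) bd b1 fq fun u o => b5 u (.inl o)
  exact ⟨Y, ⟨c1, c2, mx_empty (K := L) ▸ .zero c1, Γ₀, 0, b1, fun u o => ((c5 u).1 o).elim (bd u)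
    fun o => add_le_iff_nonpos_left.1 (b5 u (.inl o)), by rw [zero_smul]; exact b2.nef,
    by rwa [zero_smul]⟩, c3, c4, c5⟩

theorem ld_le {Z Z' : BD L} (h : Z ≤ Z') (u : Pl L) : ld k Z' u ≤ ld k Z u := by
  have := h u
  simp only [ld, dsc, Pi.sub_apply]
  linarith

theorem th (hM : MOD) (hN : NEG) (el : ELM) (ng : NG1) (ym : YM) : TH := by
  intro K L _ _ _ _ _ _ d n k m Γ H a p ε s
  intros
  have e0 : 0 < ε := ‹_›
  have e1 : (ε : ℝ) * (n * m) < 1 := ‹_›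
  have hL := s.ff
  have e2 : (0 : ℝ) < ε := Rat.cast_pos.2 e0
  obtain ⟨Y, t, q, dp, on⟩ := ym K L d n k m Γ H a p ∅ s finite_empty (by simp)
  replace on : ∀ u, On k Y u ↔ On k p u := by simpa using on
  obtain ⟨κ₀, h₀⟩ := Et.hull_cn hM hN hL t.smp t.big q
  have le := (ng K L d n k m Γ H a p Y κ₀ s t.smp t.big h₀.1 fun u o =>
    (on_le s ((on u).1 o)).trans_eq (Et.ld_one h₀ o).symm).2.1
  have nm : ∀ u : Pl L, (1 : ℝ) ≤ n * m := fun u => by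
    obtain ⟨T, l, b, -⟩ := s.bs.lift u
    exact one_le_mul_of_one_le_of_one_le (Nat.one_le_cast.2 s.inp.n0) ((em_pos l).trans b)
  obtain ⟨Λ, Θ, a1, a2, a3, a4, a5, a6, a7, a8⟩ := el k L hL Y (min ε 1) t.smp t.big
    (by push_cast; positivity) (by push_cast; exact min_le_right _ _)
  have e3 : ∀ u : Pl L, ((min ε 1 : ℚ) : ℝ) = ε := fun u => by
    push_cast
    exact min_eq_left (by nlinarith [nm u])
  obtain ⟨κ, h⟩ := Et.hull_cn hM hN hL a1 a2 a3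
  have one : ∀ u, On k Λ u → ld (k + 1) Θ u ≤ 1 := fun u o => (a8 u o).elim (·.2.le) fun y => by
    rw [y]; push_cast; exact min_le_right _ _
  have l1 : κ ≤ Θ := sub_nonneg.1 (Gs.det hN hL a1 a2 (a5.sub h.1) fun u o => by
    have := one u o
    simp only [ld, dsc, Pi.sub_apply, h.2 u o] at this ⊢
    linarith)
  obtain ⟨c, -, hc⟩ := h₀.1.neg.exists_add
  have l2 : Θ ≤ κ₀ := a7 κ₀ c (by rw [sub_eq_neg_add]; exact (hc c le_rfl).nef)
    (Et.pr hM hN hL t.smp t.big h₀).bdy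
  obtain ⟨Γ₀, c₀, k1, k2, k3, k4⟩ := t.ex
  have l3 : Θ ≤ Γ₀ := a7 Γ₀ 0 (by rwa [mx_empty, smul_zero, ← zero_smul ℝ Y] at k3) k2
  refine ⟨Λ, κ, Y, κ₀, ⟨⟨a1, a2, mx_empty (K := L) ▸ .zero a1, Γ₀, c₀, k1, fun u o =>
    add_le_iff_nonpos_left.1 ((ld_le l3 u).trans (one u o)), k3, k4⟩, a3, h, fun u _ =>
      (e3 u ▸ a6 u trivial).trans (ld_le l1 u)⟩, a4.trans dp, fun u o => ?_, le, t.smp, t.big, dp,
    on, h₀, l1.trans l2⟩
  refine (a8 u o).imp (fun y => (on u).1 y.1) fun y => gap s (lt_of_le_of_lt ?_ e1)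
  exact mul_le_mul_of_nonneg_right ((le u).trans ((ld_le l2 u).trans_eq (y.trans (e3 u))))
    (zero_le_one.trans (nm u))

end Sy

/-- **SYM** -/
theorem sym_of (hM : MOD) (hN : NEG) (he : EXTR) (el : Sy.ELM) : SYM := fun dn bm ng =>
  have y := Sy.ym hM hN he dn bm
  ⟨y, Sy.th hM hN el ng y⟩

end Vale.Agent.P283B.Mk
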