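import Vale.Agent.P283B.MK.St
import Vale.Agent.P283B.LS.Ot
import Vale.Agent.P283B.LS.Eta

/-!
# P283B, block MK: the bound at monomial places (leaf STS)
-/

set_option linter.unusedVariables false
set_option linter.unusedSectionVars false

open Set MvPolynomial
open Vale.Agent.P297Z

noncomputable section

namespace Vale.Agent.P283B.Mk

open P287D Wp Lg Cb

namespace Ts

section gen

variable {K ι : Type} [Field K] [Algebra ℂ K] {y : ι → K} {P : Pl K} {c : ι → ℂ}

/-- `A` holds at all places centred at general points of the chart `y` -/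
def Ge (y : ι → K) (A : Pl K → Prop) : Prop := ∃ g : MvPolynomial ι ℂ, g ≠ 0 ∧
  ∀ c : ι → ℂ, eval c g ≠ 0 → ∀ P : Pl K, (∀ i, 0 < P.ord (y i - algebraMap ℂ K (c i))) → A P

theorem Ge.and {A B : Pl K → Prop} (h : Ge y A) (k : Ge y B) : Ge y fun P => A P ∧ B P := by
  obtain ⟨g, g0, h⟩ := h
  obtain ⟨g', g1, k⟩ := k
  refine ⟨g * g', mul_ne_zero g0 g1, fun c e P o => ?_⟩
  rw [map_mul, mul_ne_zero_iff] at e
  exact ⟨h c e.1 P o, k c e.2 P o⟩

theorem Ge.mono {A B : Pl K → Prop} (h : Ge y A) (k : ∀ P, A P → B P) : Ge y B :=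
  h.imp fun _ z => ⟨z.1, fun c e P o => k P (z.2 c e P o)⟩

theorem Ge.all {α : Type} (s : Finset α) {A : α → Pl K → Prop} (h : ∀ a ∈ s, Ge y (A a)) :
    Ge y fun P => ∀ a ∈ s, A a P := by
  classical
  induction s using Finset.induction_on with
  | empty => exact ⟨1, one_ne_zero, by simp⟩
  | insert a s _ ih =>
    exact ((h a (by simp)).and (ih fun b k => h b (by simp [k]))).mono fun P z => by
      simpa using z

theorem fi (o : ∀ i, 0 < P.ord (y i - algebraMap ℂ K (c i))) (i : ι) : y i ∈ P.ring := by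
  simpa using add_mem (mem_ord (o i).le) (P.con (c i))

theorem unit (o : ∀ i, 0 < P.ord (y i - algebraMap ℂ K (c i))) {g : MvPolynomial ι ℂ}
    (e : eval c g ≠ 0) : (aeval y g)⁻¹ ∈ P.ring := by
  refine inv_mem_of fun m => e ?_
  have r : ∀ i, P.rd (y i) = algebraMap ℂ P.κ (c i) := fun i => by
    rw [← sub_eq_zero, ← rd_const, ← rd_sub (fi o i) (P.con _), rd_eq_zero (mem_ord (o i).le)]
    exact mx_iff.2 (.inr (o i))
  rw [← rd_eq_zero m.mem, rd_aeval (fi o), funext r] at m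
  exact (map_eq_zero _).1 ((aeval_algebraMap_apply P.κ c g).symm.trans m)

variable [Fintype ι] {n : ℕ}

theorem reg (hK : FF K n) (h : Fintype.card ι = n) (hy : AlgebraicIndependent ℂ y) (f : K) :
    Ge y fun P => f ∈ P.ring := by
  subst h
  have fi' := hK.fin (hy.comp _ (Fintype.equivFin ι).symm.injective)
  rw [(Equiv.surjective _).range_comp] at fi'
  obtain ⟨⟨d, hd⟩, d0, k⟩ := (IntermediateField.isAlgebraic_adjoin_iff.1
    (Algebra.IsAlgebraic.isAlgebraic (R := IntermediateField.adjoin ℂ (range y))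
      f)).exists_integral_multiple
  obtain ⟨p, rfl⟩ := (Algebra.adjoin_range_eq_range_aeval ℂ y).le hd
  refine ⟨p, fun e => d0 (Subtype.ext (by simp [e])), fun c e P o => ?_⟩
  obtain ⟨q, m, r⟩ := k
  let ψ : Algebra.adjoin ℂ (range y) →+* P.ring := (Subalgebra.val _).toRingHom.codRestrict _
    fun b => adj_mem (forall_mem_range.2 (fi o)) b.2
  obtain ⟨b, e'⟩ := IsIntegrallyClosed.isIntegral_iff.1
    (⟨q.map ψ, m.map _, by rw [Polynomial.eval₂_map]; exact r⟩ : IsIntegral P.ring _)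
  have := mul_mem (unit o e) b.2
  rwa [show (b : K) = aeval y p * f from e',
    inv_mul_cancel_left₀ (a := aeval y p) fun z => d0 (Subtype.ext z)] at this

/-- Cartier b-divisors vanish at general points -/
theorem kill (hK : FF K n) (h : Fintype.card ι = n) (hy : AlgebraicIndependent ℂ y) {β : BD K}
    (hβ : β ∈ Car K) : Ge y fun P => β P = 0 := by
  refine Car.ind (p := fun β => Ge y fun P => β P = 0) hβ (fun s hs => ?_)
    (fun a b _ _ x z => (x.and z).mono fun P e => by simp [e.1, e.2])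
    fun c a _ x => x.mono fun P e => by simp [e]
  refine (Ge.all s fun f _ => (reg hK h hy f).and (reg hK h hy f⁻¹)).mono fun P e => ?_
  obtain ⟨f, hf, -, k⟩ := P.exists_mz hs
  simp [mx, k, Pl.ord_unit _ (e f hf).1 (e f hf).2]

theorem kq_sub (y : ι → K) (c : ι → ℂ) : kq (fun i => y i - algebraMap ℂ K (c i)) = kq y :=
  Ls.Ea.kap_sub (y ∘ _) (c ∘ _)

/-- at general points the log discrepancy is that of the frame -/
theorem ld_kq (hK : FF K n) (h : Fintype.card ι = n) (hy : AlgebraicIndependent ℂ y) {β : BD K}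
    (hβ : β ∈ Car K) : Ge y fun P => ld n β P = kq y P + 1 := by
  obtain ⟨f, -, e⟩ := kq_cn hK h hy
  refine (kill hK h hy (add_mem (dv_mem_Car f) hβ)).mono fun P z => ?_
  simp only [e, ld, dsc, Pi.add_apply, Pi.sub_apply] at z ⊢
  linarith

end gen

section two

variable {L M ι σ : Type} [Field L] [Algebra ℂ L] [Field M] [Algebra ℂ M] [Algebra M L]
  [IsScalarTower ℂ M L] [Fintype ι] [Fintype σ] {n j : ℕ} {y : ι → L} {z : σ → M}

theorem em_pos {v : Pl L} {u : Pl M} (l : Ly v u) : 0 < em v u := Int.cast_pos.2 l.e_pos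

theorem em_ge {v : Pl L} {u : Pl M} (l : Ly v u) : 1 ≤ em v u := by
  have := l.e_pos
  unfold em
  exact_mod_cast this

/-- the restriction of a monomial place is monomial -/
theorem mono (hL : FF L n) (hM : FF M j) (h : Fintype.card σ = j) (k : Fintype.card ι + j = n)
    (hy : AlgebraicIndependent M y) (hz : AlgebraicIndependent ℂ z) {c : ι ⊕ σ → ℂ} {v : Pl L}
    {u : Pl M} (l : Ly v u)
    (e : kq (f1 y z) v + 1 = ∑ i, (v.ord (f1 y z i - algebraMap ℂ L (c i)) : ℝ)) :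
    kq z u + 1 = ∑ b, (u.ord (z b - algebraMap ℂ M (c (.inr b))) : ℝ) := by
  have a := sum_le_kq hM h (Ls.Ea.ind_sub hz fun b => c (.inr b)) u
  rw [kq_sub] at a
  refine le_antisymm ?_ a
  have hy' : AlgebraicIndependent M fun i => y i - algebraMap ℂ L (c (.inl i)) := by
    have := hy.polynomial_aeval_of_transcendental
      (f := fun i => Polynomial.X - Polynomial.C (algebraMap ℂ M (c (.inl i)))) fun i =>
      Polynomial.transcendental _ (by simp)
        (by rw [Polynomial.leadingCoeff_X_sub_C]; exact one_mem _)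
    simpa only [map_sub, Polynomial.aeval_X, Polynomial.aeval_C,
      ← IsScalarTower.algebraMap_apply] using this
  have b := Ls.Ot.kq_ge (φ := algebraMap M L) hM hL
    (fun c => (IsScalarTower.algebraMap_apply ℂ M L c).symm) h (by omega) hz
    (fun x hx => Ls.Ot.ind_sum hy' hx) v
  rw [kq_congr hL (by simp; omega) (Equiv.sumComm ι σ)
    (y := fun i => f1 y z i - algebraMap ℂ L (Sum.elim (fun i => c (.inl i)) 0 i))
    (by rintro (i | i) <;> simp [f1]), kq_sub, e, Fintype.sum_sum_type, l.pb] at b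
  have o : ∀ b, (v.ord (f1 y z (.inr b) - algebraMap ℂ L (c (.inr b))) : ℝ) =
      em v u * u.ord (z b - algebraMap ℂ M (c (.inr b))) := fun b => by
    rw [← Int.cast_mul, ← l.ord, map_sub, ← IsScalarTower.algebraMap_apply]
    rfl
  simp only [o, ← Finset.mul_sum, Pi.add_apply, Pi.one_apply] at b
  refine le_of_mul_le_mul_left ?_ (em_pos l)
  exact (add_le_add_iff_left _).1 ((add_comm _ _).le.trans b)

end two

section three

variable {K L M : Type} [Field K] [Algebra ℂ K] [Field L] [Algebra ℂ L] [Field M] [Algebra ℂ M]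
  [Algebra L K] [Algebra M L] [Algebra M K] [IsScalarTower ℂ L K] [IsScalarTower ℂ M L]
  [IsScalarTower ℂ M K] [IsScalarTower M L K] {d n k m j : ℕ} {η t : ℝ} {Γ H : BD K}
  {a p X S G : BD L} {A Y κ : BD M}

theorem dm_le (st : St d n k m Γ H a p) {w : Pl L} (h : Dm d H w) : a w ≤ 1 := by
  obtain ⟨v, l, o, -⟩ := h
  have e := em_ge l
  have x1 := st.bs.low v w l
  have x2 := st.inp.bdy v o
  rw [ld] at x1
  nlinarith

/-- weak positivity, tested at the place `v` -/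
theorem test (dn : DN) (ng : NG) (st : St d n k m Γ H a p) (hM : FF M (j + 1)) (η1 : η < 1)
    (fb : Fi d k η H a X S A) (nX : Nef X) (t0 : 0 ≤ t) (t1 : t ≤ 1) (rG : Rep X G)
    (af : ∀ w, Hz M w → t * G w < a w + X w) (sY : Smp Y) (bY : Big Y) (dA : Dsc Y A)
    (oY : ∀ u, On j Y u → On j A u) (hκ : Hull j Y (cn M (j + 1)) κ) (pκ : Psef (κ + A))
    {v : Pl L} {u : Pl M} (l : Ly v u) {c : ℝ} (hc : ∀ G, Rep A G → G u ≤ c) :
    (ld (j + 1) κ u - 2 * c) * em v u ≤ a v + X v - t * G v := by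
  have G0 : ∀ w, 0 ≤ t * G w := fun w => mul_nonneg t0 (rG.1 w)
  have lb : ∀ u, ld (j + 1) (κ - A) u = ld (j + 1) κ u + A u := fun u => by
    simp only [ld, dsc, Pi.sub_apply]
    ring
  have ev : ∀ w, (X - t • G) w = X w - t * G w := fun _ => rfl
  have x := (ng K L M d n k m j Γ H a p (X - t • G) S A Y 0 (κ - A) st hM fb.cl fb.smp fb.big
    fb.sA fb.bA fb.des sY bY (Gs.dsc_zero sY) (Gs.dsc_sub sY hκ.1 dA) ?_
    (fun w x => by rw [ev]; linarith [af w x]) (fun w o x => ?_) fun u o => ?_).2.2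
    u v ((2 : ℝ) • A) (2 * c) l (fb.bA.smul two_pos)
    (by convert pκ using 1; rw [two_smul]; abel) fun G' rG' => ?_
  · rw [lb, ev] at x
    nlinarith [mul_nonneg (fb.nn u) (em_pos l).le]
  · refine (nX.smul (sub_nonneg.2 t1)).congr ?_
    convert Submodule.smul_mem _ (-t) rG.2 using 1
    rw [up, pb_zero]
    module
  · have := G0 w
    rw [ev]
    refine (fb.on w o).imp (fun r => ⟨r.1, ?_⟩) fun r => ⟨by linarith [r.1], r.2⟩
    have := r.2
    rw [up, x.pb] at this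
    linarith
  · obtain ⟨w, l, ow⟩ := (dn L M k (j + 1) st.ff hM fb.cl).2.2.2.1 S A u fb.smp fb.big fb.sA fb.bA
      fb.des (oY u o)
    refine ⟨w, l, ?_⟩
    have e1 := em_ge l
    have := G0 w
    have : 0 ≤ A u * em w u := mul_nonneg (fb.nn u) (zero_le_one.trans e1)
    rw [lb, show ld (j + 1) κ u = 1 by simp [ld, dsc, hκ.2 u o], ev, add_mul]
    rcases fb.on w ow with r | r
    · have := r.2
      rw [up, l.pb, mul_comm] at this
      linarith [r.1]
    · linarith [dm_le st r.2, r.1]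
  · have := hc ((2⁻¹ : ℝ) • G') (by simpa [smul_smul] using rG'.smul (c := 2⁻¹) (by norm_num))
    rw [Pi.smul_apply, smul_eq_mul] at this
    linarith

/-- at general points the function `a` is bounded by the log discrepancy of the frame -/
theorem a_le (th : TH) (st : St d n k m Γ H a p) (n0 : 0 < n) {ι : Type} [Fintype ι] {y : ι → L}
    (h : Fintype.card ι = k + 1) (hy : AlgebraicIndependent ℂ y) :
    Ge y fun v => a v ≤ kq y v + 1 := by
  obtain ⟨-, -, Y₀, κ₀, -, -, -, a0, -, -, -, -, h0, -⟩ := th K L d n k m Γ H a p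
    (1 / (n * m + 1)) st n0 (by positivity) (by
      push_cast
      rw [one_div, inv_mul_lt_iff₀ (by positivity)]
      linarith)
  exact (ld_kq st.ff h hy h0.1.car).mono fun v e => e ▸ a0 v

variable {ι σ : Type} [Fintype ι] [Fintype σ] {C c τ : ℝ} {μ : σ → ℝ} {z : σ → M} {y : ι → L}

theorem fin {N : ι ⊕ σ → ℝ} {x g : ℝ} (ci : Fintype.card ι ≤ k + 1) (t0 : 0 < t)
    (c0 : 0 < c) (τ0 : 0 < τ) (h : x ≤ ∑ i, N i) (r : ∀ i, N (.inl i) ≤ τ * c)
    (s : ∑ i, N (.inr i) - 2 * (C * τ) ≤ x - t * g) : g ≤ ((k + 1) * c + 2 * C) / t * τ := by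
  rw [Fintype.sum_sum_type] at h
  have x4 : ∑ i, N (.inl i) ≤ ∑ i : ι, τ * c := Finset.sum_le_sum fun i _ => r i
  rw [Finset.sum_const, Finset.card_univ, nsmul_eq_mul] at x4
  have x5 : (Fintype.card ι : ℝ) ≤ k + 1 := by exact_mod_cast ci
  have x6 := mul_le_mul_of_nonneg_right x5 (mul_pos τ0 c0).le
  rw [div_mul_eq_mul_div, le_div_iff₀ t0]
  linarith

theorem base (dn : DN) (ng : NG) (st : St d n k m Γ H a p) (hM : FF M (j + 1))
    (cs : Fintype.card σ = j + 1) (ci : Fintype.card ι + (j + 1) = k + 1) (η1 : η < 1)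
    (fb : Fi d k η H a X S A) (nX : Nef X) (t0 : 0 ≤ t) (t1 : t ≤ 1) (rG : Rep X G)
    (af : ∀ w, Hz M w → t * G w < a w + X w) (sY : Smp Y) (bY : Big Y) (dA : Dsc Y A)
    (oY : ∀ u, On j Y u → On j A u) (hκ : Hull j Y (cn M (j + 1)) κ) (pκ : Psef (κ + A))
    (hz : AlgebraicIndependent ℂ z) (hy : AlgebraicIndependent M y) {b : ι ⊕ σ → ℂ} {v : Pl L}
    (o : ∀ i, 0 < v.ord (f1 y z (.inr i) - algebraMap ℂ L (b (.inr i))))
    (q : kq (f1 y z) v + 1 = ∑ i, (v.ord (f1 y z i - algebraMap ℂ L (b i)) : ℝ))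
    (r : ∀ i, (v.ord (f1 y z (.inr i) - algebraMap ℂ L (b (.inr i))) : ℝ) ≤ τ * μ i)
    (h1 : ∀ u : Pl M, (∀ i, 0 < u.ord (z i - algebraMap ℂ M (b (.inr i)))) →
      ld (j + 1) κ u = kq z u + 1)
    (h2 : ∀ u : Pl M, (∀ i, 0 < u.ord (z i - algebraMap ℂ M (b (.inr i)))) →
      kq z u + 1 = ∑ i, (u.ord (z i - algebraMap ℂ M (b (.inr i))) : ℝ) → ∀ G (t : ℝ), Rep A G →
      (∀ i, (u.ord (z i - algebraMap ℂ M (b (.inr i))) : ℝ) ≤ t * μ i) → G u ≤ C * t) :
    ∑ i, (v.ord (f1 y z (.inr i) - algebraMap ℂ L (b (.inr i))) : ℝ) - 2 * (C * τ) ≤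
      a v + X v - t * G v := by
  have ok : Ok (algebraMap M L) := st.ff.ok (IsScalarTower.toAlgHom ℂ M L)
  have w0 : ∀ i, f1 y z (.inr i) - algebraMap ℂ L (b (.inr i)) =
      algebraMap M L (z i - algebraMap ℂ M (b (.inr i))) := fun i => by
    rw [map_sub, ← IsScalarTower.algebraMap_apply]
    rfl
  simp only [w0] at o r ⊢
  obtain ⟨i₀⟩ : Nonempty σ := Fintype.card_pos_iff.1 (by omega)
  obtain ⟨u, l⟩ := (ok v).resolve_left fun x => (o i₀).ne' (x.ord _)
  have e0 := em_pos l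
  have ou := fun i => (l.ord_pos_iff _).1 (o i)
  have mu := mono st.ff hM cs ci hy hz l q
  simp only [l.ord (_ - _), Int.cast_mul, ← Finset.mul_sum] at r ⊢
  have x := test dn ng st hM η1 fb nX t0 t1 rG af sY bY dA oY hκ pκ l
    fun G' rG' => h2 u ou mu G' (τ / em v u) rG' fun i => by
      rw [div_mul_eq_mul_div, le_div_iff₀' e0]
      exact r i
  rwa [h1 u ou, mu, sub_mul, mul_assoc, mul_assoc, div_mul_cancel₀ _ e0.ne', mul_comm] at x

theorem core (dn : DN) (ng : NG) (th : TH) (st : St d n k m Γ H a p)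
    (n0 : 0 < n) (hM : FF M j) (cs : Fintype.card σ = j) (ci : Fintype.card ι + j = k + 1)
    (η1 : η < 1) (fb : Fi d k η H a X S A) (nX : Nef X) (t0 : 0 < t) (t1 : t ≤ 1) (C0 : 0 ≤ C)
    (c0 : 0 < c) (af : ∀ G, Rep X G → ∀ w, Hz M w → t * G w < a w + X w)
    (ps : j ≠ 0 → ∃ Y κ : BD M, Smp Y ∧ Big Y ∧ Dsc Y A ∧
      (∀ u, On (j - 1) Y u ↔ On (j - 1) A u) ∧ Hull (j - 1) Y (cn M j) κ ∧ Psef (κ + A))
    (mt : Mt C A μ z) (hy : AlgebraicIndependent M y) (sy : ∀ i, Sec (c • X) (y i)) :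
    Mt (((k + 1) * c + 2 * C) / t) X (Sum.elim (fun _ => c) μ) (f1 y z) := by
  have hL := st.ff
  have ok : Ok (algebraMap M L) := hL.ok (IsScalarTower.toAlgHom ℂ M L)
  have hY := ind1 hy mt.ind
  have cY : Fintype.card (ι ⊕ σ) = k + 1 := by rw [Fintype.card_sum, cs, ci]
  have ps' : ∀ i, 0 < Sum.elim (fun _ : ι => c) μ i := by rintro (i | i); exacts [c0, mt.pos i]
  refine ⟨hY, ps', ?_, ?_⟩
  · rintro (i | i)
    · exact sy i
    · refine (ok.sec (mt.sec i)).imp_right fun e => e.trans (add_le_add_right ?_ _)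
      rw [pb_smul]
      exact smul_le_smul_of_nonneg_left fb.le (mt.pos i).le
  obtain ⟨g, g0, hg⟩ := (a_le th st n0 cY hY).and (kill hL cY hY nX.car)
  obtain ⟨i₁⟩ : Nonempty (ι ⊕ σ) := Fintype.card_pos_iff.1 (by omega)
  have tp : ∀ {τ : ℝ} {N : ℤ}, 0 < N → N ≤ τ * Sum.elim (fun _ : ι => c) μ i₁ → 0 < τ :=
    fun o r => (mul_pos_iff_of_pos_right (ps' i₁)).1 ((Int.cast_pos.2 o).trans_le r)
  obtain rfl | ⟨j, rfl⟩ : j = 0 ∨ ∃ i, j = i + 1 := by cases j <;> simp
  · refine ⟨g, g0, fun b e v o q G τ rG r => ?_⟩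
    have τ0 := tp (o i₁) (r i₁)
    obtain ⟨x3, x2⟩ := hg b e v o
    refine fin (C := C) (by omega) t0 c0 τ0 (x3.trans_eq q) (fun i => r (.inl i)) ?_
    have := Fintype.card_eq_zero_iff.1 cs
    have x := af G rG v ((ok v).resolve_right fun ⟨u, _⟩ => no_pl hM u)
    rw [Finset.univ_eq_empty, Finset.sum_empty]
    linarith [mul_nonneg C0 τ0.le]
  obtain ⟨Y, κ, sY, bY, dA, oY, hκ, pκ⟩ := ps (Nat.succ_ne_zero j)
  rw [Nat.add_sub_cancel] at oY hκ
  obtain ⟨g₁, g1, h1⟩ := ld_kq hM cs mt.ind hκ.1.car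
  obtain ⟨g₂, g2, h2⟩ := mt.ex
  have g3 : rename (Sum.inr : σ → ι ⊕ σ) (g₁ * g₂) ≠ 0 := fun e =>
    mul_ne_zero g1 g2 (rename_injective _ Sum.inr_injective (e.trans (map_zero _).symm))
  refine ⟨_, mul_ne_zero g0 g3, fun b e v o q G τ rG r => ?_⟩
  rw [map_mul, mul_ne_zero_iff, eval_rename, map_mul, mul_ne_zero_iff] at e
  obtain ⟨x3, x2⟩ := hg b e.1 v o
  refine fin (C := C) (by omega) t0 c0 (tp (o i₁) (r i₁)) (x3.trans_eq q) (fun i => r (.inl i)) ?_
  have x := base dn ng st hM cs ci η1 fb nX t0.le t1 rG (af G rG) sY bY dA (fun u => (oY u).1) hκ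
    pκ mt.ind hy (fun i => o (.inr i)) q (fun i => r (.inr i)) (h1 _ e.2.1) (h2 _ e.2.2)
  linarith

end three

end Ts

theorem sts : STS := fun dn ng th K L M _ _ _ _ _ _ _ _ _ _ _ _ _ ι σ _ _ d n k m j η t C c Γ H a p X
    S A μ z y st n0 hM cs ci η1 fb nX t0 t1 C0 c0 af ps mt hy sy =>
  Ts.core dn ng th st n0 hM cs ci η1 fb nX t0 t1 C0 c0 af ps mt hy sy

end Vale.Agent.P283B.Mk
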