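import Vale.Agent.P283B.All
import Vale.Agent.P283B.MK.Af
import Vale.Agent.P283B.MK.Asm
import Vale.Agent.P283B.MK.Bm
import Vale.Agent.P283B.MK.Cnt
import Vale.Agent.P283B.MK.Dn
import Vale.Agent.P283B.MK.Down
import Vale.Agent.P283B.MK.Ebt
import Vale.Agent.P283B.MK.End
import Vale.Agent.P283B.MK.Gen
import Vale.Agent.P283B.MK.Lift
import Vale.Agent.P283B.MK.Loc
import Vale.Agent.P283B.MK.NgP
import Vale.Agent.P283B.MK.Pos
import Vale.Agent.P283B.MK.Sym
import Vale.Agent.P283B.MK.Ts

/-!
# P283B, block MK: the second theorem of Minkowski for central log Calabi-Yau pairs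
-/

namespace Vale.Agent.P283B.Mk

open P287D

theorem mink : ∀ d, MINK d :=
  mink_of dn sbm sloc sshort (sebt_of Api.mod Api.neg ftm0) cnt sng
    (sym_of Api.mod Api.neg extr fun _ _ _ _ hK _ _ a b c d => Lg.elm hK a b c d) gen slift sdown
    spos saf sts (As.asm ftm0) send (fun n => cutnAll n (knAll n))
    (fun k => (sga k fun m _ => (packAll m).wv).2) packAll

end Vale.Agent.P283B.Mk
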