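import Vale.Agent.P283B.MK.St
import Vale.Agent.P283B.LC.Gl
import Vale.Agent.P283B.LC.Loc
import Vale.Agent.P283B.EB.WpB
import Vale.Agent.P287D.Gm.Gen
import Vale.Agent.P287D.On.Fld

/-!
# P283B, block MK: the alpha invariant of the generic fibre, tools
-/

set_option linter.unusedVariables false
set_option linter.unusedSectionVars false

open Set

noncomputable section

namespace Vale.Agent.P283B.Mk.Af

open P287D Wp Lg

/-- a positive bound which is uniform in finitely many dimensions -/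
theorem unifR {A : ℕ → ℝ → Prop} (m : ∀ r s t, 0 < s → s ≤ t → A r t → A r s) (n : ℕ)
    (h : ∀ r, ∃ t, 0 < t ∧ A r t) : ∃ t, 0 < t ∧ ∀ r < n, A r t := by
  induction n with
  | zero => exact ⟨1, one_pos, fun r h => absurd h (Nat.not_lt_zero r)⟩
  | succ n ih =>
    obtain ⟨s, a, b⟩ := ih
    obtain ⟨t, c, d⟩ := h n
    refine ⟨min s t, lt_min a c, fun r x => ?_⟩
    rcases (Nat.lt_succ_iff.1 x).lt_or_eq with y | rfl
    exacts [m r _ s (lt_min a c) (min_le_left _ _) (b r y), m r _ t (lt_min a c) (min_le_right _ _) d]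

/-- the alpha invariant of the generic fibre of a pair of Fano type -/
theorem fib (al : ∀ k, ALPHA k) (k : ℕ) {ε : ℝ} {q : ℕ} (e0 : 0 < ε) (q0 : 0 < q) :
    ∃ t : ℝ, 0 < t ∧ ForN k fun L _ _ => ∀ (Y Θ E : BD L) (s : Finset L) (c : ℝ), Rel k Y s Θ →
      (∀ u, Hor (fld (mx s)) u → ε ≤ ld (k + 1) Θ u) →
      (∀ u, On k Y u → Hor (fld (mx s)) u → 1 - ld (k + 1) Θ u ∈ Frq q) → Big (c • mx s - Θ) →
      Rep (c • mx s - Θ) E → ∀ u, Hor (fld (mx s)) u → t * E u ≤ ld (k + 1) Θ u := by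
  obtain ⟨t, t0, ht⟩ := unifR (A := fun r t => ForN r fun K _ _ => ∀ Λ Γ G : BD K, LF r ε q Λ Γ →
    Rep (-Γ) G → ∀ P, t * G P ≤ ld (r + 1) Γ P) (fun r s t _ a b K _ _ hK Λ Γ G x y P =>
      (mul_le_mul_of_nonneg_right a (y.1 P)).trans (b K hK Λ Γ G x y P)) (k + 1)
    fun r => al r ε q e0 q0
  refine ⟨t, t0, fun L _ _ hL Y Θ E s c r e cf b p u hu => ?_⟩
  obtain ⟨j, K', _, _, φ, f, z⟩ := Ga.exists_fb Api.ffs Api.vol fld' Api.gen hL (smp_mx s)
    (Ga.not_big_of_hor hu)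
  obtain ⟨Γ₀, c₀, t1, t2, t3, t4⟩ := r.ft.ex
  obtain ⟨c₁, x⟩ := r.nef
  have n0 : ∀ a : ℝ, Nef (|a| • mx s) := fun a => (nef_mx s).smul (abs_nonneg a)
  have n1 : Nef ((|c₀| - c₀) • mx s) := (nef_mx s).smul (sub_nonneg.2 (le_abs_self _))
  have i : (c₁ + |c₀|) • mx s - Θ - Γ₀ =
    c₀ • mx s - Γ₀ + (c₁ • mx s - Θ + (|c₀| - c₀) • mx s) := by module
  have sm : Smp ((c₁ + |c₀|) • mx s - Θ) := Ba.Fg.bpf hL r.pr.big
    ((r.ft.des.smul _).sub r.pr.des) (Lcb.car_of t3) t1 t2 (i ▸ t3.add (x.add n1))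
    (i ▸ t4.add_nef (x.add n1)) (by
      rw [show (c₁ + |c₀|) • mx s - Θ = c₁ • mx s - Θ + |c₀| • mx s by module]
      exact x.add (n0 _))
  have pr : ∀ a : ℝ, -(pb φ Θ - dv f) - pb φ (a • mx s - Θ) ∈ Prn K' := fun a => by
    rw [pb_sub, pb_smul, show -(pb φ Θ - dv f) - (a • pb φ (mx s) - pb φ Θ) =
      dv f - a • pb φ (mx s) by module]
    exact sub_mem (dv_mem_Prn f) (Submodule.smul_mem _ _ z.prn)
  have s' : Smp (-(pb φ Θ - dv f)) := (z.ok.smp sm).congr (pr _)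
  have dY : Dsc (pb φ Y) (-(pb φ Θ - dv f)) :=
    (z.ok.dsc ((r.ft.des.smul c).sub r.pr.des)).congr (pr c)
  have o : ∀ P Q, Lies φ P Q → On j (-(pb φ Θ - dv f)) P → On k Y Q := fun P Q l y =>
    (z.on Y r.pr.smp r.pr.big r.ft.des P Q l).1 (Mm.on_mono res' z.ff s' dY y)
  have v : ∀ P Q, Lies φ P Q → ld (j + 1) (pb φ Θ - dv f) P = ld (k + 1) Θ Q := fun P Q l => by
    rw [ld, ld, z.dsc l]
  obtain ⟨P, l⟩ := z.up u hu
  rw [← v P u l, ← z.val l E]
  refine ht j (by have := z.dm; omega) K' z.ff (-(pb φ Θ - dv f)) _ _ ⟨⟨s',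
    (z.big' b ((r.ft.des.smul c).sub r.pr.des).car).congr (pr c), by
      simpa only [neg_neg] using (Dsc.refl s').neg, (z.ok.carQ r.pr.rat).sub (carQ_dv f),
    fun P y => ?_⟩, fun P _ => ?_, fun P y _ => ?_, .refl s'⟩ ((z.ok.rep p).congr (pr c)) P <;>
    obtain ⟨Q, l⟩ := z.dn P
  · exact z.dsc l Θ ▸ r.pr.bdy Q (o P Q l y)
  · exact v P Q l ▸ e Q (z.hor P Q l)
  · exact v P Q l ▸ cf Q (o P Q l y) (z.hor P Q l)

/-- the threshold and a place which nearly computes it -/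
theorem near {α : Type} {U : α → Prop} {f g : α → ℝ} {ε : ℝ} (g0 : ∀ w, 0 ≤ g w)
    (h0 : ∀ w, U w → ε ≤ f w) (op : ∀ s, 0 ≤ s → (∀ w, U w → ε ≤ f w - s * g w) →
      ∃ δ, 0 < δ ∧ ∀ w, U w → δ * g w ≤ f w - s * g w) :
    ∃ s, 0 ≤ s ∧ s ≤ 1 / 2 ∧ (∀ w, U w → ε ≤ f w - s * g w) ∧
      (s = 1 / 2 ∨ ∃ w, U w ∧ f w - s * g w ≤ 2 * ε) := by
  let S := {s : ℝ | s ≤ 1 / 2 ∧ ∀ w, U w → ε ≤ f w - s * g w}
  have z : (0 : ℝ) ∈ S := ⟨by norm_num, fun w x => by simpa using h0 w x⟩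
  have bd : BddAbove S := ⟨1 / 2, fun _ x => x.1⟩
  have s0 := le_csSup bd z
  have s1 : sSup S ≤ 1 / 2 := csSup_le ⟨0, z⟩ fun _ x => x.1
  have s2 : ∀ w, U w → ε ≤ f w - sSup S * g w := fun w x => by
    rcases (g0 w).eq_or_lt with y | y
    · simpa [← y] using h0 w x
    · have := (le_div_iff₀ y).1 (csSup_le ⟨0, z⟩ fun s (e : s ∈ S) =>
        (le_div_iff₀ y).2 (show s * g w ≤ f w - ε by linarith [e.2 w x]))
      linarith
  refine ⟨_, s0, s1, s2, s1.eq_or_lt.imp_right fun y => ?_⟩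
  obtain ⟨δ, δ0, hδ⟩ := op _ s0 s2
  have m0 := lt_min (half_pos δ0) (sub_pos.2 y)
  have m1 := min_le_left (δ / 2) (1 / 2 - sSup S)
  have m2 := min_le_right (δ / 2) (1 / 2 - sSup S)
  by_contra! x
  have := le_csSup bd (show sSup S + min (δ / 2) (1 / 2 - sSup S) ∈ S from ⟨by linarith,
    fun w u => by nlinarith [x w u, hδ w u, mul_le_mul_of_nonneg_right m1 (g0 w)]⟩)
  linarith

variable {K L M : Type} [Field K] [Algebra ℂ K] [Field L] [Algebra ℂ L] [Field M] [Algebra ℂ M]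

/-- the places which are trivial on the base -/
theorem hz_iff [Algebra M K] [IsScalarTower ℂ M K] {n : ℕ} (hK : FF K n) {A : BD M} (sA : Smp A)
    (bA : Big A) {v : Pl K} : Hz M v ↔ Hor (fld (up K A)) v := by
  refine ⟨fun t e he => ?_, fun h f => h _ ((okL hK).mem_fld sA.eff (bA.fld_eq ▸ trivial))⟩
  obtain ⟨p, hp, hpx⟩ :=
    ((mem_fld_pb hK (IsScalarTower.toAlgHom ℂ M K) sA).1 he).isIntegral
  obtain ⟨y, hy⟩ := IsIntegrallyClosed.isIntegral_iff.1 (⟨p.map ((algebraMap _ K).codRestrict _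
    fun x => let ⟨z, _, u⟩ := x.2; (show algebraMap M K z = algebraMap _ K x from u) ▸ t z),
    hp.map _, by rw [Polynomial.eval₂_map]; exact hpx⟩ : IsIntegral v.ring e)
  exact hy ▸ y.2

variable [Algebra L K] [Algebra M L] [Algebra M K] [IsScalarTower ℂ L K] [IsScalarTower ℂ M L]
  [IsScalarTower ℂ M K] [IsScalarTower M L K] {d n k m : ℕ} {Γ H : BD K} {a p Z G : BD L}
  {A : BD M}

theorem hz_ly {v : Pl K} {w : Pl L} (l : Ly v w) : Hz M v ↔ Hz M w :=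
  forall_congr' fun f => by rw [IsScalarTower.algebraMap_apply M L K]; exact (l _).symm

theorem ld_add (Γ Z : BD K) (v : Pl K) : ld d (Γ + Z) v = ld d Γ v - Z v := by
  rw [ld, ld, Pr.dsc_add]; ring

theorem lc (h : In d n Γ H) (v : Pl K) : 0 ≤ ld (d + 1) Γ v := by
  obtain ⟨z, e⟩ := h.int v
  exact (mul_nonneg_iff_of_pos_left (Nat.cast_pos.2 h.n0)).1 (e ▸ Nat.cast_nonneg z)

/-- positivity on the generic fibre is an open condition -/
theorem opn (h : St d n k m Γ H a p) (sA : Smp A) (bA : Big A) (cZ : Z ∈ Car L) (cG : G ∈ Car L)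
    (g0 : 0 ≤ G) (c : ∀ w, Hz M w → 0 < a w - Z w) :
    ∃ δ, 0 < δ ∧ ∀ w, Hz M w → δ * G w ≤ a w - Z w := by
  classical
  have hK := h.inp.ff
  have ok : Ok (algebraMap L K) := okL hK
  have sB : Smp (up K A) := (okL hK).smp sA
  obtain ⟨s, κ, T, b, l, -, sκ, sp⟩ := exists_ls hK finite_empty
    (toFinite {Γ + up K Z, up K G, up K A}) (by
      rintro _ (rfl | rfl | rfl)
      exacts [add_mem (Prn_le_Car h.inp.prn) (ok.car cZ), ok.car cG, sB.car])
  have u : ∀ P : Pl K, ∃ δ : ℝ, 0 < δ ∧ (Hz M P → ∀ t, t ≤ δ → 0 ≤ t →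
      t * up K G P ≤ ld (d + 1) (Γ + up K Z) P) := fun P => by
    rw [ld_add]
    obtain x | ⟨w, x⟩ := ok P
    · exact ⟨1, one_pos, fun _ t _ _ => by simpa [Trv.pb x] using lc h.inp P⟩
    by_cases y : Hz M P
    swap
    · exact ⟨1, one_pos, fun z => absurd z y⟩
    have p1 := c w ((hz_ly x).1 y)
    have p2 : 0 < G w + 1 := add_pos_of_nonneg_of_pos (g0 w) one_pos
    refine ⟨_, div_pos p1 p2, fun _ t t1 t0 => ?_⟩
    have p3 := (le_div_iff₀ p2).1 t1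
    have p4 := h.bs.low P w x
    have e : (0 : ℝ) < em P w := Int.cast_pos.2 x.e_pos
    rw [up, up, x.pb, x.pb]
    nlinarith [mul_le_mul_of_nonneg_left (show t * G w ≤ a w - Z w by linarith) e.le]
  choose δ δ0 hδ using u
  obtain ⟨t, t0, ht⟩ : ∃ t : ℝ, 0 < t ∧ ∀ P ∈ T, t ≤ δ P := by
    obtain rfl | x := T.eq_empty_or_nonempty
    · exact ⟨1, one_pos, by simp⟩
    · obtain ⟨P, -, y⟩ := T.exists_min_image δ x
      exact ⟨_, δ0 P, y⟩
  refine ⟨t, t0, fun w hw => ?_⟩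
  obtain ⟨Q, x, -, y, -⟩ := h.bs.lift w
  have hQ := (On.hor_iff hK sB).1 ((hz_iff hK sA bA).1 ((hz_ly x).2 hw))
  have z := l.ge (Γ := Γ + up K Z + t • up K G) (Q := Q) (sκ.sub
    ((sp _ (by simp)).add ((sp _ (by simp)).smul t))) le_rfl zero_le_one fun P hP o => by
      have := hδ P ((hz_iff hK sA bA).2 ((On.hor_iff hK sB).2 fun R =>
        (hQ R).trans (l.cle (l.on P hP) o (sp _ (by simp)).1))) t (ht P hP) t0.le
      rw [Pr.dsc_add_smul]
      rw [ld] at this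
      linarith
  rw [Pr.dsc_add_smul, Pr.dsc_add, up, up, x.pb, x.pb] at z
  rw [ld] at y
  have e : (0 : ℝ) < em Q w := Int.cast_pos.2 x.e_pos
  exact le_of_mul_le_mul_left (by linarith) e

/-- weak positivity when the class on the base is anti-nef over the model -/
theorem dom {κ : BD K} {B N Θ Y : BD L} (hK : FF K d) (hL : FF L (k + 1))
    (nef : Nef (up K (B - N) - κ)) (big : Big (up K (B - N) - κ))
    (hor : ∀ P, Hz L P → -1 < dsc d κ P)
    (rk : ∀ f, (∀ P, Hz L P → Aj d κ P f) → f ∈ range (algebraMap L K)) (sY : Smp Y) (bY : Big Y)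
    (dΘ : Dsc Y Θ) (dB : Dsc Y B) (nN : Nef N) (bN : Big N) (r : Rep N G)
    (adm : ∀ u, On k Y u → Adm d κ u (ld (k + 1) Θ u)) :
    Big (B - Θ) ∧ ∃ E, Rep (B - Θ) E ∧ (1 / 2 : ℝ) • G ≤ E := by
  have i := Api.mod.isb k L hL
  have fin : {u | On k Y u ∧ (Θ - cn L (k + 1)) u ≠ 0}.Finite :=
    ((Pr.fin_on res' hL sY bY (i.1 Θ dΘ.car)).union (Pr.fin_on res' hL sY bY i.2.1)).subset
      fun u a => by
        by_contra z
        simp only [mem_union, mem_ofPred_eq, a.1, true_and, not_or, not_not] at z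
        exact a.2 (by rw [Pi.sub_apply, z.1, z.2, sub_zero])
  have e : ∀ η : ℝ, 0 < η → Eff (B - N - Θ + η • Y) := fun η e0 => by
    obtain ⟨E, b, c⟩ := wpx hL hK (sub_mem dB.car nN.car) nef big hor rk sY bY fin (fun u o => by
      convert adm u o using 1
      simp only [ld, dsc, Pi.sub_apply]; ring) e0
    obtain ⟨x, -, y⟩ := (dΘ.sub (dB.add ((Dsc.refl sY).smul η))).exists_add
    have z : Nef (Θ - E + x • Y) := ((y x le_rfl).nef.add nN).congr (by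
      convert neg_mem b using 1
      module)
    refine ⟨E - Θ, sub_nonneg.2 (sub_nonpos.1 (Api.neg.neg k L hL Y _ x sY bY (by
      simpa using sub_mem z.car (Submodule.smul_mem _ x sY.car)) z fun u o => ?_)), by
        convert b using 1
        module⟩
    simpa using c u o
  have b : Big (B - Θ) := by
    have := (Psef.of_eff sY.car e).add_big bN
    rwa [show B - N - Θ + N = B - Θ by abel] at this
  obtain ⟨δ, δ0, E₂, r₂⟩ := b.exists_eff sY.car
  obtain ⟨E₁, r₁⟩ := e δ δ0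
  refine ⟨b, (1 / 2 : ℝ) • (G + (E₁ + E₂)), ?_, smul_le_smul_of_nonneg_left
    (le_add_of_nonneg_right (add_nonneg r₁.1 r₂.1)) (by norm_num)⟩
  convert (r.add (r₁.add r₂)).smul (c := 1 / 2) (by norm_num) using 1
  module

end Vale.Agent.P283B.Mk.Af
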