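import Vale.Agent.P283B.MK.St
import Vale.Agent.P287D.Gs.Ful
import Vale.Agent.P287D.Va.Fld

/-!
# P283B, block MK: weak positivity and negativity for log canonical pairs (rows NG, NG1)
-/

set_option linter.unusedVariables false
set_option linter.unusedSectionVars false

open Set

noncomputable section

namespace Vale.Agent.P283B.Mk

open P287D Wp

/-- the statement of `Wp.ngx` -/
def NGX : Prop := For2 fun K L _ _ _ _ _ => ∀ (n k : ℕ) (Γ : BD K) (Λ D β : BD L), FF L (k + 1) →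
  FF K n → Nef (up K D - Γ) → Big (up K D - Γ) → (∀ P, Hz L P → -1 < dsc n Γ P) →
  (∀ f, (∀ P, Hz L P → Aj n Γ P f) → f ∈ range (algebraMap L K)) → Smp Λ → Big Λ → Dsc Λ D →
  Dsc Λ β → (∀ u, On k Λ u → ∃ v, Ly v u ∧ ld n Γ v ≤ ld (k + 1) β u * em v u) →
  Psef (D - β) ∧ ∀ u t, (∀ v, Ly v u → t * em v u ≤ ld n Γ v) → t ≤ ld (k + 1) β u

namespace Ng

theorem small {ι : Type} {T : Set ι} (hT : T.Finite) (h r : ι → ℝ) (hr : ∀ i ∈ T, 0 < r i) :
    ∃ c : ℝ, 0 < c ∧ ∀ i ∈ T, h i ≤ c * r i := by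
  obtain ⟨b, hb⟩ := (hT.image fun i => h i / r i).bddAbove
  exact ⟨max b 1, lt_max_of_lt_right one_pos, fun i x =>
    (div_le_iff₀ (hr i x)).1 ((hb (mem_image_of_mem _ x)).trans (le_max_left _ _))⟩

variable {K L M : Type} [Field K] [Algebra ℂ K] [Field L] [Algebra ℂ L] [Field M] [Algebra ℂ M]
  {d n k m j : ℕ} {Γ H : BD K} {Λ D β : BD M}

theorem rep_pos (b : Big Λ) {T : Set (Pl M)} (hT : T.Finite) :
    ∃ G, Rep Λ G ∧ ∀ u ∈ T, 0 < G u := by
  have nn : 0 ≤ ∑ u ∈ hT.toFinset, pld u.t⁻¹ := Finset.sum_nonneg fun _ _ => pld_nonneg _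
  obtain ⟨ε, e0, G, r⟩ := b.exists_eff (γ := ∑ u ∈ hT.toFinset, pld u.t⁻¹)
    (sum_mem fun _ _ => pld_car _)
  refine ⟨G + ε • ∑ u ∈ hT.toFinset, pld u.t⁻¹, by simpa using r.add ((Rep.refl nn).smul e0.le),
    fun u hu => add_pos_of_nonneg_of_pos (r.1 u) (mul_pos e0 ?_)⟩
  rw [Finset.sum_apply]
  refine Finset.sum_pos' (fun v _ => pld_nonneg _ u) ⟨u, hT.mem_toFinset.2 hu, ?_⟩
  rw [pld_apply, P297Z.Pl.ord_inv, u.ord_t]
  simp

theorem ld_sub (n : ℕ) (Γ Z : BD K) (v : Pl K) : ld n (Γ - Z) v = ld n Γ v + Z v := by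
  simp only [ld, dsc, Pi.sub_apply]; ring

theorem pld_le {f : K} {v : Pl K} : pld f v ≤ 0 ↔ 0 ≤ v.ord f := by
  rw [pld_apply, max_le_iff, and_iff_right le_rfl, neg_nonpos, Int.cast_nonneg_iff]

theorem ord_nn {z : ℤ} (h : (-1 : ℝ) < z) : 0 ≤ z := by
  have : (-1 : ℤ) < z := by exact_mod_cast h
  omega

theorem ld_nn (h : In d n Γ H) (w : Pl K) : 0 ≤ ld (d + 1) Γ w := by
  obtain ⟨z, e⟩ := h.int w
  exact nonneg_of_mul_nonneg_right (e ▸ Nat.cast_nonneg z) (Nat.cast_pos.2 h.n0)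

theorem fin1 (hM : MOD) (hN : NEG) (hK : FF K (d + 1)) (s : Smp H) (b : Big H) (c : Γ ∈ Car K) :
    {w | On d H w ∧ ld (d + 1) Γ w ≠ 1}.Finite :=
  ((Gs.isb_fin hK hN s b ((hM.isb d K hK).1 Γ c)).union
    (Gs.isb_fin hK hN s b (hM.isb d K hK).2.1)).subset fun u a => by
      by_contra z
      simp only [mem_union, mem_ofPred_eq, a.1, true_and, not_or, not_not] at z
      exact a.2 (by simp [ld, dsc, z.1, z.2])

variable [Algebra M K] [IsScalarTower ℂ M K]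

theorem one_le {v : Pl K} {u : Pl M} (l : Ly v u) : 1 ≤ em v u := by
  have : (1 : ℤ) ≤ _ := l.e_pos
  rw [em]
  exact_mod_cast this

theorem em_pos {v : Pl K} {u : Pl M} (l : Ly v u) : 0 < em v u := one_pos.trans_le (one_le l)

variable (M) in
/-- a pair over `M` which becomes klt and of rank one on the generic fibre after a perturbation -/
structure Pt (d j : ℕ) (Γ H : BD K) : Prop where
  fK : FF K (d + 1)
  fM : FF M (j + 1)
  cl : Cl M K
  smp : Smp H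
  big : Big H
  nn : 0 ≤ H
  car : Γ ∈ Car K
  hor : ∀ v, Hz M v → 0 ≤ ld (d + 1) Γ v ∧ (ld (d + 1) Γ v = 0 → 0 < H v)
  rk : ∃ ε : ℝ, 0 < ε ∧ ∀ f, (∀ v, Hz M v → 0 < ld (d + 1) Γ v + ε * H v + v.ord f) →
    f ∈ range (algebraMap M K)

variable (ng : NGX) (dn : DN) (hM : MOD) (hN : NEG) (hR : RES)

include ng dn hM hN in
theorem Pt.wp (h : Pt M d j Γ H) (nef : Nef (up K D - Γ)) (sΛ : Smp Λ) (bΛ : Big Λ) (dD : Dsc Λ D)
    (dβ : Dsc Λ β)
    (adm : ∀ u, On j Λ u → ∃ v, Ly v u ∧ ld (d + 1) Γ v ≤ ld (j + 1) β u * em v u) :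
    Psef (D - β) ∧
      ∀ u t, (∀ v, Ly v u → t * em v u ≤ ld (d + 1) Γ v) → t ≤ ld (j + 1) β u := by
  have adm' : ∀ u, ∃ v, On j Λ u → Ly v u ∧ ld (d + 1) Γ v ≤ ld (j + 1) β u * em v u := fun u =>
    let ⟨w, _⟩ := Pb.up (lin M K) h.fK u
    (em' _).elim (fun o => ⟨w, fun x => absurd x o⟩) fun o => (adm u o).imp fun _ x _ => x
  choose y hy using adm'
  have y1 := fun u o => (hy u o).1
  have y2 := fun u o => (hy u o).2
  obtain ⟨e, e0, rk⟩ := h.rk
  have fin : {u | On j Λ u ∧ ¬ ∃ v, Ly v u ∧ ld (d + 1) Γ v ≤ ld (j + 1) β u * em v u ∧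
      H v = 0}.Finite := by
    refine ((((dn K M d _ h.fK h.fM h.cl).2.2.2.2 H H Λ h.smp h.big h.smp.car sΛ bΛ).1.union
      (fin1 hM hN h.fM sΛ bΛ dβ.car)).union ((fin1 hM hN h.fK h.smp h.big h.car).biUnion
        (t := fun w => {u : Pl M | Ly w u}) fun w _ =>
          Subsingleton.finite fun _ a _ b => a.uniq b)).subset fun u a => ?_
    by_contra z
    simp only [mem_union, not_or] at z
    obtain ⟨w, w1, w2, w3⟩ := not_not.1 fun x => z.1.1 ⟨a.1, x⟩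
    refine a.2 ⟨w, w1, ?_, w3⟩
    rw [not_not.1 fun x => z.1.2 ⟨a.1, x⟩,
      not_not.1 fun x => z.2 (mem_iUnion₂.2 ⟨w, ⟨w2, x⟩, w1⟩), one_mul]
    exact one_le w1
  obtain ⟨G, r, g⟩ := rep_pos bΛ fin
  obtain ⟨c, c0, hc⟩ := small fin (fun u => H (y u)) G g
  have dG := ((Dsc.refl sΛ).congr r.2).smul c
  have G0 : 0 ≤ c • G := smul_nonneg c0.le r.1
  have key : ∀ ε : ℝ, 0 < ε → ε ≤ e → Psef (D - (β - ε • c • G)) ∧ ∀ u t,
      (∀ v, Ly v u → t * em v u ≤ ld (d + 1) (Γ - ε • H) v) →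
        t ≤ ld (j + 1) (β - ε • c • G) u := fun ε a b => by
    have q : up K D - (Γ - ε • H) = up K D - Γ + ε • H := by abel
    have p : ∀ v, 0 ≤ ε * H v := fun v => mul_nonneg a.le (h.nn v)
    refine ng K M (d + 1) j _ Λ D _ h.fM h.fK (q ▸ nef.add (h.smp.nef.smul a.le))
      (q ▸ nef.psef.add_big (h.big.smul a)) (fun v t => ?_) (fun f x => ?_) sΛ bΛ dD
      (dβ.sub (dG.smul ε)) fun u o => ?_
    · have := ld_sub (d + 1) Γ (ε • H) v
      rw [Pi.smul_apply, smul_eq_mul, ld] at this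
      rcases (h.hor v t).1.eq_or_lt with z | z
      · linarith [mul_pos a ((h.hor v t).2 z.symm)]
      · linarith [p v]
    · by_cases f0 : f = 0
      · exact ⟨0, by rw [f0, map_zero]⟩
      refine rk f fun v t => ?_
      have := ld_sub (d + 1) Γ (ε • H) v
      rw [Pi.smul_apply, smul_eq_mul, ld] at this
      linarith [(x v t).resolve_left f0, mul_le_mul_of_nonneg_right b (h.nn v)]
    · have p' : 0 ≤ ε * (c • G) u := mul_nonneg a.le (G0 u)
      simp only [ld_sub, Pi.smul_apply ε, smul_eq_mul, add_mul]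
      by_cases z : ∃ v, Ly v u ∧ ld (d + 1) Γ v ≤ ld (j + 1) β u * em v u ∧ H v = 0
      · obtain ⟨v, v1, v2, v3⟩ := z
        exact ⟨v, v1, by rw [v3]; linarith [mul_nonneg p' (em_pos v1).le]⟩
      · refine ⟨y u, y1 u o, add_le_add (y2 u o) ?_⟩
        exact (mul_le_mul_of_nonneg_left (hc u ⟨o, z⟩) a.le).trans
          (le_mul_of_one_le_right p' (one_le (y1 u o)))
  refine ⟨.of_lim bΛ sΛ.car dG.car fun η a => ⟨min η e, ?_, ?_⟩, fun u t x =>
    le_of_forall_pos_le_add fun η a => ?_⟩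
  · rw [abs_of_pos (lt_min a e0)]; exact min_le_left _ _
  · exact sub_add D β _ ▸ (key _ (lt_min a e0) (min_le_right _ _)).1
  · have g : 0 < (c • G) u + 1 := add_pos_of_nonneg_of_pos (G0 u) one_pos
    have a' := lt_min (div_pos a g) e0
    have := (key _ a' (min_le_right _ _)).2 u t fun v l => by
      rw [ld_sub]
      exact (x v l).trans (le_add_of_nonneg_right (mul_nonneg a'.le (h.nn v)))
    rw [ld_sub, Pi.smul_apply, smul_eq_mul] at this
    nlinarith [(le_div_iff₀ g).1 (min_le_left (η / ((c • G) u + 1)) e)]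

include ng dn hM hN hR in
theorem Pt.test (h : Pt M d j Γ H) (nef : Nef (up K D - Γ)) (sΛ : Smp Λ) (bΛ : Big Λ)
    (dD : Dsc Λ D) (dβ : Dsc Λ β)
    (adm : ∀ u, On j Λ u → ∃ v, Ly v u ∧ ld (d + 1) Γ v ≤ ld (j + 1) β u * em v u)
    {u : Pl M} {v : Pl K} {Z : BD M} {c : ℝ} (l : Ly v u) (bZ : Big Z) (pZ : Psef (Z - (D - β)))
    (hc : ∀ G, Rep Z G → G u ≤ c) : (ld (j + 1) β u - c) * em v u ≤ ld (d + 1) Γ v := by
  classical
  obtain ⟨s, κ, t, -, o, ds, -, q⟩ := hM.ex j M h.fM {u} {Λ} (finite_singleton _)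
    (finite_singleton _) (singleton_subset_iff.2 sΛ.car)
  have dΛ := ds Λ rfl
  choose y hy using Pb.up (lin M K) h.fK
  set x := ld (j + 1) β u - ld (d + 1) Γ v / em v u with hx
  obtain ⟨Θ, d1, d2⟩ := Gs.exists_hull hN h.fM t.smp
    (fun P a => let ⟨b, b1, b2⟩ := q P a; ⟨b, CarZ.carQ b1, b2⟩)
    (Z := fun w => if w = u then -x else if On j Λ w then 0 else
      ld (d + 1) Γ (y w) / em (y w) w - ld (j + 1) β w)
    (((finite_singleton u).union (hM.exc j M h.fM _ Λ t.smp t.big sΛ bΛ)).subset fun w a => by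
      by_contra z
      simp only [mem_union, mem_singleton_iff, mem_ofPred_eq, a.1, true_and, not_or, not_not] at z
      exact a.2 (by simp [z.1, z.2]))
  have p := (h.wp ng dn hM hN nef t.smp t.big (dΛ.trans dD) ((dΛ.trans dβ).sub d1) fun w a => by
    rw [ld_sub, d2 w a]
    beta_reduce
    split_ifs with b1 b2
    · subst b1
      exact ⟨v, l, by rw [hx, neg_sub, add_sub_cancel, div_mul_cancel₀ _ (em_pos l).ne']⟩
    · simpa using adm w b2
    · exact ⟨y w, hy w, by rw [add_sub_cancel, div_mul_cancel₀ _ (em_pos (hy w)).ne']⟩).1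
  rw [← le_div_iff₀ (em_pos l)]
  by_contra z
  have x0 : c < x := by linarith [not_le.1 z]
  obtain ⟨G₀, r₀⟩ := bZ.eff
  have c0 : 0 ≤ c := (r₀.1 u).trans (hc _ r₀)
  have e0 : 0 < (x - c) / (c + 1) := div_pos (sub_pos.2 x0) (by linarith)
  have e1 := div_mul_cancel₀ (x - c) (by linarith : c + 1 ≠ 0)
  set η := (x - c) / (c + 1)
  obtain ⟨δ, δ0, b⟩ := (bZ.smul e0).exists_sub sΛ.car
  obtain ⟨G₁, r₁⟩ := (p.add_big (bΛ.smul δ0)).eff
  obtain ⟨G₂, r₂⟩ := (pZ.add_big b).eff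
  have m₁ : G₁ - Θ - (D - β + δ • Λ) ∈ Prn M := by
    convert r₁.2 using 1; abel
  have on : ∀ w, On j Λ w → On j (mx s) w := fun w a =>
    (hR.on j M h.fM _ w t.smp).2 ((hR.des j M h.fM _ _ w dΛ).big ((hR.on j M h.fM _ w sΛ).1 a))
  have n₁ : 0 ≤ G₁ - Θ := Gs.det hN h.fM sΛ bΛ
    (((dD.sub dβ).add ((Dsc.refl sΛ).smul δ)).congr m₁) fun w a => by
      have : 0 ≤ G₁ w := r₁.1 w
      rw [Pi.sub_apply, d2 w (on w a)]
      beta_reduce
      split_ifs <;> linarith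
  have r := ((show P287D.Rep _ _ from ⟨n₁, m₁⟩).add r₂).smul (c := (1 + η)⁻¹) (by positivity)
  rw [show D - β + δ • Λ + (Z - (D - β) + (η • Z - δ • Λ)) = (1 + η) • Z by module,
    inv_smul_smul₀ (by positivity)] at r
  have w := hc _ r
  rw [Pi.smul_apply, smul_eq_mul, inv_mul_le_iff₀ (by positivity), Pi.add_apply, Pi.sub_apply,
    d2 u (o u rfl)] at w
  simp only [if_true] at w
  have : 0 ≤ G₁ u := r₁.1 u
  have : 0 ≤ G₂ u := r₂.1 u
  nlinarith

end Ng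

namespace Ng

variable {K L M : Type} [Field K] [Algebra ℂ K] [Field L] [Algebra ℂ L] [Field M] [Algebra ℂ M]
  [Algebra L K] [IsScalarTower ℂ L K] {d n k m j : ℕ} {Γ H : BD K} {a p : BD L}

theorem rk1 (dn : DN) (h : St d n k m Γ H a p) : ∃ ε : ℝ, 0 < ε ∧ ∀ f,
    (∀ v, Hz L v → 0 < ld (d + 1) Γ v + ε * H v + v.ord f) → f ∈ range (algebraMap L K) := by
  obtain ⟨T, t1, t2, t3⟩ := h.det
  obtain ⟨c, c0, hc⟩ := small t1 H (fun _ => 1) fun _ _ => one_pos
  refine ⟨c⁻¹, inv_pos.2 c0, fun f x => (dn K L d _ h.inp.ff h.ff h.cl).2.1 f fun w b => pld_le.1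
    (t3 _ (smp_pld f) (fun v y z => pld_le.2 (ord_nn ?_)) w b)⟩
  have := x v z
  rcases y with y | y
  · linarith [t2 v y, (inv_mul_le_iff₀ c0).2 (hc v y)]
  · have u := h.inp.bdy v y.1
    rw [y.2, ld] at this
    linarith

theorem ng1 (ng : NGX) (dn : DN) (hM : MOD) (hN : NEG) (hR : RES) : NG1 :=
  fun K L _ _ _ _ _ _ d n k m Γ H a p Λ β h sΛ bΛ dβ adm => by
  have P : Pt L d k Γ H := ⟨h.inp.ff, h.ff, h.cl, h.inp.smp, h.inp.big, h.inp.nn,
    Prn_le_Car h.inp.prn, fun v _ => ⟨ld_nn h.inp v, h.inp.pos v⟩, rk1 dn h⟩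
  have nef : Nef (up K (0 : BD L) - Γ) := .of_prn (by simpa [pb_zero] using h.inp.prn)
  have adm' : ∀ u, On k Λ u → ∃ v, Ly v u ∧ ld (d + 1) Γ v ≤ ld (k + 1) β u * em v u :=
    fun u o => let ⟨T, l, _, e, _⟩ := h.bs.lift u
      ⟨T, l, e ▸ mul_le_mul_of_nonneg_right (adm u o) (em_pos l).le⟩
  obtain ⟨x, y⟩ := P.wp ng dn hM hN nef sΛ bΛ (.zero sΛ) dβ adm'
  refine ⟨by simpa using x, fun u => y u _ fun v => h.bs.low v u, fun u Z c b z w => ?_⟩
  obtain ⟨T, l, -, e, -⟩ := h.bs.lift u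
  exact le_of_mul_le_mul_right (e ▸ P.test ng dn hM hN hR nef sΛ bΛ (.zero sΛ) dβ adm' l b
    (by simpa using z) w) (em_pos l)

variable [Algebra M L] [Algebra M K] [IsScalarTower ℂ M L] [IsScalarTower ℂ M K]
  [IsScalarTower M L K] {w : Pl K} {v : Pl L} {u : Pl M}

theorem ly (h : Ly w v) : Ly w u ↔ Ly v u := by
  rw [Ly, IsScalarTower.algebraMap_eq M L K]
  exact ⟨h.of_comp, h.comp⟩

theorem hz (h : Ly w v) : Hz M w ↔ Hz M v :=
  forall_congr' fun f => by rw [IsScalarTower.algebraMap_apply M L K, ← h]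

theorem hz' (h : Hz L w) : Hz M w := fun f => IsScalarTower.algebraMap_apply M L K f ▸ h _

theorem em_mul (h : Ly w v) (u : Pl M) : em w u = em w v * em v u := by
  rw [em, IsScalarTower.algebraMap_apply M L K, h.ord, Int.cast_mul]

theorem ng0 (ng : NGX) (dn : DN) (hM : MOD) (hN : NEG) (hR : RES) : NG :=
  fun K L M _ _ _ _ _ _ _ _ _ _ _ _ _ d n k m j Γ H a p X S A Λ D β h fM cl sS bS sA bA dA sΛ bΛ
    dD dβ nX hor on adm => by
  have hK := h.inp.ff
  have ok := okL (L := L) hK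
  have cX : X ∈ Car L := by simpa using sub_mem nX.car ((okL h.ff).car dD.car)
  have low : ∀ w v, Ly w v → em w v * (a v + X v) ≤ ld (d + 1) (Γ - up K X) w := fun w v l => by
    rw [ld_sub, up, l.pb]
    linarith [h.bs.low w v l]
  choose T t1 t2 t3 t4 using h.bs.lift
  have eq : ∀ v, ld (d + 1) (Γ - up K X) (T v) = em (T v) v * (a v + X v) := fun v => by
    rw [ld_sub, up, (t1 v).pb, t3]
    ring
  have P : Pt M d j (Γ - up K X) H := by
    refine ⟨hK, fM, fun e z => ?_, h.inp.smp, h.inp.big, h.inp.nn,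
      sub_mem (Prn_le_Car h.inp.prn) (ok.car cX), fun w t => ?_, ?_⟩
    · obtain ⟨x, rfl⟩ := h.cl e (z.tower_top L)
      obtain ⟨y, rfl⟩ := cl x ((isAlgebraic_algebraMap_iff (algebraMap L K).injective).1 z)
      exact ⟨y, IsScalarTower.algebraMap_apply M L K y⟩
    · rcases ok w with s | ⟨v, l⟩
      · rw [ld_sub, up, s.pb, add_zero]
        exact ⟨ld_nn h.inp w, h.inp.pos w⟩
      · have := (mul_pos (em_pos l) (hor v ((hz l).1 t))).trans_le (low w v l)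
        exact ⟨this.le, fun z => absurd z this.ne'⟩
    obtain ⟨e, e0, rk⟩ := rk1 dn h
    have fin : {v | (On k S v ∧ Hz M v) ∧ ¬ (X v ≤ 0 ∧ Dm d H v)}.Finite :=
      (((dn K L d _ hK h.ff h.cl).2.2.2.2 H H S h.inp.smp h.inp.big h.inp.smp.car sS bS).1.union
        (Gs.isb_fin h.ff hN sS bS ((hM.isb k L h.ff).1 X cX))).subset fun v b => by
          by_contra z
          simp only [mem_union, not_or] at z
          exact b.2 ⟨(not_not.1 fun x => z.2 ⟨b.1.1, x⟩ : X v = 0).le,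
            not_not.1 fun x => z.1 ⟨b.1.1, x⟩⟩
    obtain ⟨c, c0, hc⟩ := small fin (fun v => H (T v)) (fun v => 1 - X v) fun v b =>
      sub_pos.2 ((on v b.1.1 b.1.2).resolve_right b.2).2
    refine ⟨min e c⁻¹, lt_min e0 (inv_pos.2 c0), fun f x => ?_⟩
    obtain ⟨g, rfl⟩ := rk f fun w t => by
      have := x w (hz' t)
      rw [ld_sub, up, t.pb] at this
      linarith [mul_le_mul_of_nonneg_right (min_le_left e c⁻¹) (h.inp.nn w)]
    obtain ⟨-, d2, d3, -⟩ := dn L M k _ h.ff fM cl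
    obtain ⟨y, rfl⟩ := d2 g fun v b => pld_le.1 (d3 S _ A sS bS sA bA dA (smp_pld g).nef
      (fun v o z => pld_le.2 (by
        by_cases q : X v ≤ 0 ∧ Dm d H v
        · obtain ⟨q, w, l, q1, q2⟩ := q
          have := x w ((hz l).2 z)
          have u := h.inp.bdy w q1
          rw [ld_sub, up, l.pb, q2, ld] at this
          have := ord_nn (z := w.ord (algebraMap L K g))
            (by linarith [mul_nonpos_of_nonneg_of_nonpos (em_pos l).le q])
          rw [l.ord] at this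
          exact nonneg_of_mul_nonneg_right this l.e_pos
        · have := x _ ((hz (t1 v)).2 z)
          have u := (on v o z).resolve_right q
          rw [eq, (t1 v).ord, u.1, Int.cast_mul] at this
          refine ord_nn (lt_of_mul_lt_mul_left ?_ (em_pos (t1 v)).le)
          nlinarith [mul_le_mul_of_nonneg_right (min_le_right e c⁻¹) (h.inp.nn (T v)),
            (inv_mul_le_iff₀ c0).2 (hc v ⟨⟨o, z⟩, q⟩), one_le (t1 v)])) v b)
    exact ⟨y, IsScalarTower.algebraMap_apply M L K y⟩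
  have nef : Nef (up K D - (Γ - up K X)) := (ok.nef nX).congr (by
    rw [up, IsScalarTower.algebraMap_eq M L K, ok.pb_comp, pb_add]
    convert neg_mem h.inp.prn using 1
    abel)
  have adm' : ∀ u, On j Λ u → ∃ w, Ly w u ∧
      ld (d + 1) (Γ - up K X) w ≤ ld (j + 1) β u * em w u := fun u o => by
    obtain ⟨v, l, b⟩ := adm u o
    refine ⟨T v, (ly (t1 v)).2 l, ?_⟩
    rw [eq, em_mul (t1 v) u, mul_left_comm (ld _ β u)]
    exact mul_le_mul_of_nonneg_left b (em_pos (t1 v)).le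
  obtain ⟨x, y⟩ := P.wp ng dn hM hN nef sΛ bΛ dD dβ adm'
  refine ⟨x, fun u t z => y u t fun w l => ?_, fun u v Z c l b z q => ?_⟩
  · obtain ⟨v, l'⟩ := (ok w).resolve_left fun t => l.not_trv (hz' t)
    rw [em_mul l', mul_left_comm]
    exact (mul_le_mul_of_nonneg_left (z v ((ly l').1 l)) (em_pos l').le).trans (low w v l')
  · have := P.test ng dn hM hN hR nef sΛ bΛ dD dβ adm' ((ly (t1 v)).2 l) b z q
    rw [eq, em_mul (t1 v) u, mul_left_comm] at this
    exact le_of_mul_le_mul_left this (em_pos (t1 v))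

end Ng

/-- **SNG**, from the rows of the library -/
theorem sng_of (ng : NGX) (hM : MOD) (hN : NEG) (hR : RES) : SNG :=
  fun dn => ⟨Ng.ng0 ng dn hM hN hR, Ng.ng1 ng dn hM hN hR⟩

end Vale.Agent.P283B.Mk
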