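import Vale.Agent.P283B.LC.G0
import Vale.Agent.P283B.EB.WpA

/-!
# P283B, block MK: successive minima of polarised log Calabi-Yau pairs (statements)

`K` carries the pair `Γ` and the polarisation `H`; `L` is a subfield, `a u` is the infimum of the
normalised log discrepancies over the place `u` of `L`, and `p` is a polarisation of `L`.
-/

set_option linter.unusedVariables false

open Set

noncomputable section

namespace Vale.Agent.P283B.Mk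

open P287D Wp Lg

section defs

variable {K L M : Type} [Field K] [Algebra ℂ K] [Field L] [Algebra ℂ L] [Field M] [Algebra ℂ M]

/-- a log Calabi-Yau pair of index `n` on `V H`; `H` is supported on lc places and positive at
all lc places -/
structure In (d n : ℕ) (Γ H : BD K) : Prop where
  ff : FF K (d + 1)
  n0 : 0 < n
  prn : Γ ∈ Prn K
  int : ∀ w, ∃ z : ℕ, n * ld (d + 1) Γ w = z
  smp : Smp H
  big : Big H
  rat : CarQ H
  nn : 0 ≤ H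
  bdy : Bdy d H Γ
  sup : ∀ w, On d H w → H w = 0 ∨ ld (d + 1) Γ w = 0
  pos : ∀ w, ld (d + 1) Γ w = 0 → 0 < H w

/-- centrality at the zeros of `a` -/
def Cen (C : ℝ) (a p : BD L) : Prop :=
  ∀ u, a u = 0 → 0 < p u ∧ ∀ G, Rep p G → G u ≤ C * p u

/-- independent sections `y i` of `μ i • p`, and the bound for the order of the members of the
class of `p` at the monomial places centred at general points -/
structure Mt {ι : Type} [Fintype ι] (C : ℝ) (p : BD L) (μ : ι → ℝ) (y : ι → L) : Prop where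
  ind : AlgebraicIndependent ℂ y
  pos : ∀ i, 0 < μ i
  sec : ∀ i, Sec (μ i • p) (y i)
  ex : ∃ g : MvPolynomial ι ℂ, g ≠ 0 ∧ ∀ c : ι → ℂ, MvPolynomial.eval c g ≠ 0 → ∀ v : Pl L,
    (∀ i, 0 < v.ord (y i - algebraMap ℂ L (c i))) →
    kq y v + 1 = ∑ i, (v.ord (y i - algebraMap ℂ L (c i)) : ℝ) → ∀ G (t : ℝ), Rep p G →
      (∀ i, (v.ord (y i - algebraMap ℂ L (c i)) : ℝ) ≤ t * μ i) → G v ≤ C * t

variable [Algebra L K]

/-- the ramification index of `w` over `u` -/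
abbrev em (w : Pl K) (u : Pl L) : ℝ := w.ord (algebraMap L K u.t)

/-- `w` lies over `u` -/
abbrev Ly (w : Pl K) (u : Pl L) : Prop := Lies (algebraMap L K) w u

/-- the pull back -/
abbrev up (K : Type) [Field K] [Algebra ℂ K] [Algebra L K] (β : BD L) : BD K :=
  pb (algebraMap L K) β

variable (L) in
/-- `w` is trivial on `L` -/
abbrev Hz (w : Pl K) : Prop := Trv (algebraMap L K) w

variable (L) in
/-- the places in `S` contain the prime divisors of a model of the generic fibre -/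
def Det (S : Set (Pl K)) : Prop :=
  ∀ X : BD K, Smp X → (∀ w ∈ S, Hz L w → X w ≤ 0) → ∀ w, Hz L w → X w ≤ 0

/-- `u` is dominated by a prime divisor of `V H` outside the support of `H` -/
def Dm (d : ℕ) (H : BD K) (u : Pl L) : Prop := ∃ v, Ly v u ∧ On d H v ∧ H v = 0

/-- `a'` is the infimum of `a` over the places of `L`; it is attained with bounded ramification at
a place which nearly computes the infimum of `a + X` -/
structure Bs (m : ℕ) (ε : ℝ) (a X : BD K) (a' : BD L) : Prop where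
  low : ∀ w u, Ly w u → a' u * em w u ≤ a w
  lift : ∀ u, ∃ T, Ly T u ∧ em T u ≤ m ∧ a T = a' u * em T u ∧
    ∀ w, Ly w u → (a T + X T - ε) * em w u ≤ (a w + X w) * em T u

/-- the state, without centrality -/
structure St (d n k m : ℕ) (Γ H : BD K) (a p : BD L) : Prop where
  inp : In d n Γ H
  ff : FF L (k + 1)
  cl : Cl L K
  bs : Bs m 0 (ld (d + 1) Γ) 0 a
  smp : Smp p
  big : Big p
  rat : CarQ p
  nn : 0 ≤ p
  dom : ∀ u, On k p u → a u = 0 ∨ (p u = 0 ∧ Dm d H u)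
  det : ∃ T : Set (Pl K), T.Finite ∧ (∀ w ∈ T, ld (d + 1) Γ w = 0) ∧
    Det L (T ∪ {w | On d H w ∧ H w = 0})

variable [Algebra M L]

/-- a model `V S` of `L` over `V A`; the primes are lc and short, or good -/
structure Fi (d k : ℕ) (η : ℝ) (H : BD K) (a X S : BD L) (A : BD M) : Prop where
  cl : Cl M L
  smp : Smp S
  big : Big S
  sA : Smp A
  bA : Big A
  nn : 0 ≤ A
  des : Dsc S (up L A)
  le : up L A ≤ X
  on : ∀ u, On k S u → (a u = 0 ∧ X u - up L A u ≤ η) ∨ (X u = 0 ∧ Dm d H u)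

end defs

/-- a statement for two fields -/
def For2 (A : ∀ (K L : Type) [Field K] [Algebra ℂ K] [Field L] [Algebra ℂ L] [Algebra L K],
    Prop) : Prop :=
  ∀ (K L : Type) [Field K] [Algebra ℂ K] [Field L] [Algebra ℂ L] [Algebra L K]
    [IsScalarTower ℂ L K], A K L

/-- a statement for towers of three fields -/
def For3 (A : ∀ (K L M : Type) [Field K] [Algebra ℂ K] [Field L] [Algebra ℂ L] [Field M]
    [Algebra ℂ M] [Algebra L K] [Algebra M L] [Algebra M K], Prop) : Prop :=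
  ∀ (K L M : Type) [Field K] [Algebra ℂ K] [Field L] [Algebra ℂ L] [Field M] [Algebra ℂ M]
    [Algebra L K] [Algebra M L] [Algebra M K] [IsScalarTower ℂ L K] [IsScalarTower ℂ M L]
    [IsScalarTower ℂ M K] [IsScalarTower M L K], A K L M

/-! ### tools -/

/-- **DN**: semiample b-divisors which are not positive on the generic fibre are pull backs; the
prime divisors of a model over a base determine the generic fibre; dominating primes -/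
def DN : Prop := For2 fun K L _ _ _ _ _ => ∀ (d k : ℕ), FF K (d + 1) → FF L k → Cl L K →
  (∀ X : BD K, Smp X → (∀ w, Hz L w → X w ≤ 0) → ∃ Y : BD L, Smp Y ∧ X = up K Y) ∧
  (∀ f : K, (∀ w, Hz L w → 0 ≤ w.ord f) → f ∈ range (algebraMap L K)) ∧
  (∀ (S X : BD K) (A : BD L), Smp S → Big S → Smp A → Big A → Dsc S (up K A) → Nef X →
    (∀ w, On d S w → Hz L w → X w ≤ 0) → ∀ w, Hz L w → X w ≤ 0) ∧
  (∀ (S : BD K) (A : BD L) (u : Pl L), Smp S → Big S → Smp A → Big A → Dsc S (up K A) →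
    On (k - 1) A u → ∃ w, Ly w u ∧ On d S w) ∧
  ∀ (S Z : BD K) (A : BD L), Smp S → Big S → Z ∈ Car K → Smp A → Big A →
    {u | On (k - 1) A u ∧ ¬ ∃ w, Ly w u ∧ On d S w ∧ Z w = 0}.Finite ∧
    {u | ¬ On (k - 1) A u ∧ ∃ w, Ly w u ∧ On d S w}.Finite

/-- **BM**: an honest klt pair on the base -/
def BM : Prop := For2 fun K L _ _ _ _ _ => ∀ (d k : ℕ) (s : Finset L) (Λ κ : BD K) (c : ℝ),
  FF K (d + 1) → FF L (k + 1) → Cl L K → Smp Λ → Big Λ → QF d Λ → Dsc Λ (up K (mx s)) →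
  Klt (d + 1) κ → Bdy d Λ κ → Nef (c • up K (mx s) - κ) → Big (c • up K (mx s) - κ) →
  Det L {w | On d Λ w} → ∃ (Γ₀ : BD L) (c' : ℝ), Klt (k + 1) Γ₀ ∧ Smp (c' • mx s - Γ₀) ∧
    Big (c' • mx s - Γ₀) ∧ Dsc (c' • mx s - Γ₀) (mx s) ∧
    (∀ u w, Ly w u → On d Λ w → ld (k + 1) Γ₀ u ≤ 1) ∧
    ∀ u, On k (c' • mx s - Γ₀) u → ∃ w, Ly w u ∧ On d Λ w

/-- **LOC**: a model of Fano type over the base with prescribed primes over the generic points of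
the base and of the places in `q` -/
def LOC : Prop := For2 fun K L _ _ _ _ _ => ∀ (d k : ℕ) (Γ Λ₀ : BD K) (b : BD L) (q : Set (Pl L))
  (S : Set (Pl K)) (B : Set (BD K)), FF K (d + 1) → FF L k → Cl L K → b ∈ Car L →
  Nef (up K b - Γ) → Big (up K b - Γ) → q.Finite → B.Finite → (∀ Z ∈ B, Z ∈ Car K) → Smp Λ₀ →
  Big Λ₀ → (∀ w, (Hz L w ∨ ∃ u ∈ q, Ly w u) → 0 < ld (d + 1) Γ w) →
  (∀ w ∈ S, (Hz L w ∨ ∃ u ∈ q, Ly w u) ∧ On d Λ₀ w ∧ ld (d + 1) Γ w ≤ 1) → Det L S →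
  (∀ u ∈ q, ∃ w ∈ S, Ly w u) → ∃ (s : Finset L) (Λ κ : BD K) (c : ℝ), Big (mx s) ∧
    (∀ u ∈ q, On (k - 1) (mx s) u) ∧ Smp Λ ∧ Big Λ ∧ QF d Λ ∧ Dsc Λ (up K (mx s)) ∧
    Klt (d + 1) κ ∧ Bdy d Λ κ ∧ Nef (c • up K (mx s) - κ) ∧ Big (c • up K (mx s) - κ) ∧
    (∃ γ ∈ Car L, κ = Γ + up K γ ∧ (∀ u ∈ q, γ u = 0) ∧ Nef (c • mx s - (b + γ))) ∧
    (∀ w ∈ S, On d Λ w) ∧ (∀ w, On d Λ w → ∀ u ∈ q, Ly w u → w ∈ S) ∧
    ∀ w, On d Λ w → Hz L w → w ∈ S ∨ (ld (d + 1) Γ w = 1 ∧ ∀ Z ∈ B, Z w = 0)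

/-- **SHORT**: below the threshold all the primes of the fibre of a Mori fibre space are short -/
def SHORT : Prop := ∀ (k : ℕ) (ε : ℝ), 0 < ε → ∃ C : ℝ, 0 < C ∧ ForN k fun L _ _ =>
  ∀ Λ κ p N : BD L, Tq k ε Λ κ → Dsc Λ p → CarQ p → 0 ≤ p → Nef p → ¬ Psef (κ + p) → Nef N →
    (∀ u, On k Λ u → p u ≤ C → N u ≤ 0) → ¬ Big N

/-- **EBT**: above the threshold the sections generate the field -/
def EBT : Prop := ∀ (k : ℕ) (ε : ℝ), 0 < ε → ∃ C : ℝ, 0 < C ∧ ForN k fun L _ _ =>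
  ∀ Λ κ p : BD L, Tq k ε Λ κ → Dsc Λ p → Nef p → Big p → 0 ≤ p → Psef (κ + p) →
    (∀ Λ' β : BD L, Smp Λ' → Big Λ' → Dsc Λ' β → (∀ u, On k Λ' u → On k Λ u ∧
      0 ≤ ld (k + 1) β u ∧ (p u = 0 → 1 ≤ ld (k + 1) β u)) → Psef (-β) ∧ ELc k 0 β All) →
    IntermediateField.adjoin ℂ {f | Sec (C • p) f} = ⊤

/-- **CNT**: the number of sections -/
def CNT : Prop := ∀ (L ι : Type) [Field L] [Algebra ℂ L] [Fintype ι] (C l : ℝ) (p : BD L)
  (μ : ι → ℝ) (y : ι → L), FF L (Fintype.card ι) → p ∈ Car L → 0 ≤ C → 0 ≤ l → Mt C p μ y →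
  (h0 (l • p) : ℝ) ≤ ∏ i, (1 + C * l / μ i)

/-! ### the virtual pairs on the subfields -/

/-- **NG**: weak positivity, negativity and the test at one place, for the pair `a + X` on `L`
over `M` -/
def NG : Prop := For3 fun K L M _ _ _ _ _ _ _ _ _ => ∀ (d n k m j : ℕ) (Γ H : BD K)
  (a p X S : BD L) (A Λ D β : BD M), St d n k m Γ H a p → FF M (j + 1) → Cl M L → Smp S → Big S →
  Smp A → Big A → Dsc S (up L A) → Smp Λ → Big Λ → Dsc Λ D → Dsc Λ β → Nef (up L D + X) →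
  (∀ w, Hz M w → 0 < a w + X w) →
  (∀ w, On k S w → Hz M w → (a w = 0 ∧ X w < 1) ∨ (X w ≤ 0 ∧ Dm d H w)) →
  (∀ u, On j Λ u → ∃ w, Ly w u ∧ a w + X w ≤ ld (j + 1) β u * em w u) →
  Psef (D - β) ∧ (∀ u t, (∀ w, Ly w u → t * em w u ≤ a w + X w) → t ≤ ld (j + 1) β u) ∧
    ∀ (u : Pl M) (w : Pl L) (Z : BD M) (c : ℝ), Ly w u → Big Z → Psef (Z - (D - β)) →
      (∀ G, Rep Z G → G u ≤ c) → (ld (j + 1) β u - c) * em w u ≤ a w + X w

/-- **NG1**: the same over `L` itself -/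
def NG1 : Prop := For2 fun K L _ _ _ _ _ => ∀ (d n k m : ℕ) (Γ H : BD K) (a p Λ β : BD L),
  St d n k m Γ H a p → Smp Λ → Big Λ → Dsc Λ β → (∀ u, On k Λ u → a u ≤ ld (k + 1) β u) →
  Psef (-β) ∧ (∀ u, a u ≤ ld (k + 1) β u) ∧ ∀ (u : Pl L) (Z : BD L) (c : ℝ), Big Z →
    Psef (Z + β) → (∀ G, Rep Z G → G u ≤ c) → ld (k + 1) β u - c ≤ a u

/-- **YM**: models of `L` -/
def YM : Prop := For2 fun K L _ _ _ _ _ => ∀ (d n k m : ℕ) (Γ H : BD K) (a p : BD L)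
  (q : Set (Pl L)), St d n k m Γ H a p → q.Finite → (∀ u ∈ q, a u = 0) →
  ∃ Y, FTo k Y ∅ ∧ QF k Y ∧ Dsc Y p ∧ ∀ u, On k Y u ↔ On k p u ∨ u ∈ q

/-- **TH**: an `ε`-lc model `V Λ` and a small model `V Y` -/
def TH : Prop := For2 fun K L _ _ _ _ _ => ∀ (d n k m : ℕ) (Γ H : BD K) (a p : BD L) (ε : ℚ),
  St d n k m Γ H a p → 0 < n → 0 < ε → (ε : ℝ) * (n * m) < 1 →
  ∃ Λ κ Y κ₀ : BD L, Tq k ε Λ κ ∧ Dsc Λ p ∧ (∀ u, On k Λ u → On k p u ∨ a u = 0) ∧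
    (∀ u, a u ≤ ld (k + 1) κ₀ u) ∧ Smp Y ∧ Big Y ∧ Dsc Y p ∧ (∀ u, On k Y u ↔ On k p u) ∧
    Hull k Y (cn L (k + 1)) κ₀ ∧ κ ≤ κ₀

/-- **GEN**: finitely many lc places control all lc places -/
def GEN : Prop := For2 fun K L _ _ _ _ _ => ∀ (d n k m : ℕ) (Γ H : BD K) (a p : BD L),
  St d n k m Γ H a p → ∃ q : Set (Pl L), q.Finite ∧ (∀ u ∈ q, a u = 0) ∧
    ∀ (θ η : ℝ) (N : BD L), 0 ≤ θ → Nef N → 0 ≤ N → N ≤ θ • p →
      (∀ u ∈ q, N u ≤ max (θ * p u - η) 0) → ∀ u, a u = 0 → m * (θ * p u) < η → N u = 0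

/-- **LIFT**: places with bounded ramification which compute the thresholds -/
def LIFT : Prop := ∀ d n m : ℕ, 0 < n → ∃ η : ℝ, 0 < η ∧ ∀ (k : ℕ) (ε₀ : ℝ), 0 < ε₀ →
  ∃ m' : ℕ, For3 fun K L M _ _ _ _ _ _ _ _ _ => ∀ (j : ℕ) (Γ H : BD K) (a p X S : BD L)
    (A : BD M), St d n k m Γ H a p → FF M (j + 1) → Fi d k η H a X S A → Nef X →
    (∀ w, Hz M w → ε₀ ≤ a w + X w) → ∃ a' : BD M, Bs m' 1 a X a'

/-- **DOWN**: the state on the base -/
def DOWN : Prop := For3 fun K L M _ _ _ _ _ _ _ _ _ => ∀ (d n k m j m' : ℕ) (η ε : ℝ)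
  (Γ H : BD K) (a p X S : BD L) (A a' : BD M), St d n k m Γ H a p → FF M (j + 1) →
  Fi d k η H a X S A → X ∈ Car L → (∀ w, a w = 0 → 0 < X w) → Bs m' ε a X a' →
  CarQ A → St d n j (m * m') Γ H a' A

/-- **POS**: the anticanonical class of the base is small, and centrality on the base -/
def POS : Prop := ∀ (n m m' j : ℕ) (C : ℝ), 0 < n → 0 < C → ∃ R : ℝ,
  For3 fun K L M _ _ _ _ _ _ _ _ _ => ∀ (d k : ℕ) (η : ℝ) (Γ H : BD K) (a p X S : BD L)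
    (A a' N : BD M), St d n k m Γ H a p → St d n j (m * m') Γ H a' A → η < 1 →
    Fi d k η H a X S A → Nef X → Cen C a X → (∀ w, Hz M w → 0 < a w + X w) → Bs m' 1 a X a' →
    Nef N → Big N → N ≤ A → (∀ w, a w = 0 → X w ≤ R → up L N w ≤ 0) →
    Cen (4 * C) a' A ∧ ∃ Y κ : BD M, Smp Y ∧ Big Y ∧ Dsc Y A ∧ (∀ u, On j Y u ↔ On j A u) ∧
      Hull j Y (cn M (j + 1)) κ ∧ Psef (κ + A)

/-- **AF**: the alpha invariant of the generic fibre -/
def AF : Prop := ∀ (d m k : ℕ) (ε₀ : ℝ), 0 < ε₀ → ∃ t : ℝ, 0 < t ∧ t ≤ 1 ∧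
  For3 fun K L M _ _ _ _ _ _ _ _ _ => ∀ (n j : ℕ) (η : ℝ) (Γ H : BD K) (a p X S G : BD L)
    (A : BD M), St d n k m Γ H a p → FF M j → j ≤ k → m * η < 1 → Fi d k η H a X S A → Nef X →
    Big X → (∀ w, Hz M w → ε₀ ≤ a w + X w) → Rep X G → ∀ w, Hz M w → t * G w < a w + X w

/-- **TSTEP**: the bound at monomial places, from the base and the generic fibre -/
def TSTEP : Prop := For3 fun K L M _ _ _ _ _ _ _ _ _ => ∀ (ι σ : Type) [Fintype ι] [Fintype σ]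
  (d n k m j : ℕ) (η t C c : ℝ) (Γ H : BD K) (a p X S : BD L) (A : BD M) (μ : σ → ℝ) (z : σ → M)
  (y : ι → L), St d n k m Γ H a p → 0 < n → FF M j → Fintype.card σ = j → Fintype.card ι + j = k + 1 →
  η < 1 → Fi d k η H a X S A → Nef X → 0 < t → t ≤ 1 → 0 ≤ C → 0 < c →
  (∀ G, Rep X G → ∀ w, Hz M w → t * G w < a w + X w) →
  (j ≠ 0 → ∃ Y κ : BD M, Smp Y ∧ Big Y ∧ Dsc Y A ∧ (∀ u, On (j - 1) Y u ↔ On (j - 1) A u) ∧
    Hull (j - 1) Y (cn M j) κ ∧ Psef (κ + A)) → Mt C A μ z → AlgebraicIndependent M y →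
  (∀ i, Sec (c • X) (y i)) →
  Mt (((k + 1) * c + 2 * C) / t) X (Sum.elim (fun _ => c) μ) (f1 y z)

/-! ### the theorem -/

/-- **MKS**: the claim for states of dimension `k + 1` -/
def MKS (d n k : ℕ) : Prop := ∀ (m : ℕ) (C : ℝ), 0 < C → ∃ C' : ℝ, 0 ≤ C' ∧
  For2 fun K L _ _ _ _ _ => ∀ (Γ H : BD K) (a p : BD L), St d n k m Γ H a p → Cen C a p →
    ∃ (μ : Fin (k + 1) → ℝ) (y : Fin (k + 1) → L), Mt C' p μ y

/-- **MINK**: the second theorem of Minkowski for central log Calabi-Yau pairs -/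
def MINK (d : ℕ) : Prop := ∀ (n : ℕ) (C : ℝ), 0 < n → 0 < C → ∃ C' : ℝ, 0 ≤ C' ∧
  ForN d fun K _ _ => ∀ Γ H : BD K, In d n Γ H → Cen C (ld (d + 1) Γ) H →
    ∃ (μ : Fin (d + 1) → ℝ) (y : Fin (d + 1) → K), Mt C' H μ y ∧
      ∀ l : ℝ, 0 ≤ l → (h0 (l • H) : ℝ) ≤ ∏ i, (1 + C' * l / μ i)

/-- leaf -/
def SBM : Prop := DN → BM

/-- leaf -/
def SLOC : Prop := DN → LOC

/-- leaf -/
def SSHORT : Prop := (∀ r, Ga.WV r) → SHORT

/-- leaf -/
def SEBT : Prop := (∀ k, EBN k) → (∀ k, LCG k) → EBT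

/-- leaf -/
def SNG : Prop := DN → NG ∧ NG1

/-- leaf -/
def SYM : Prop := DN → BM → NG1 → YM ∧ TH

/-- leaf -/
def SLIFT : Prop := DN → BM → LOC → (∀ k, Ga.ACC k) → (∀ k, MS k) → LIFT

/-- leaf -/
def SDOWN : Prop := DN → DOWN

/-- leaf -/
def SPOS : Prop := DN → NG → NG1 → TH → SHORT → POS

/-- leaf -/
def SAF : Prop := DN → BM → LOC → (∀ k, ALPHA k) → AF

/-- leaf -/
def STS : Prop := DN → NG → TH → TSTEP

/-- leaf -/
def SASM : Prop := DN → SHORT → EBT → NG1 → YM → TH → GEN → LIFT → DOWN → POS → AF → TSTEP →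
  ∀ d n k, 0 < n → MKS d n k

/-- leaf -/
def SEND : Prop := CNT → (∀ d n k, 0 < n → MKS d n k) → ∀ d, MINK d

theorem mink_of (dn : DN) (bm : SBM) (lo : SLOC) (sh : SSHORT) (eb : SEBT) (ct : CNT) (ng : SNG)
    (ym : SYM) (ge : GEN) (li : SLIFT) (dw : SDOWN) (po : SPOS) (af : SAF) (ts : STS) (as : SASM)
    (en : SEND) (ebn : ∀ k, EBN k) (ac : ∀ k, Ga.ACC k) (p : ∀ k, Pack k) : ∀ d, MINK d :=
  have y := ym dn (bm dn) (ng dn).2
  have s := sh fun k => (p k).wv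
  en ct (as dn s (eb ebn fun k => (p k).lcg) (ng dn).2 y.1 y.2 ge
    (li dn (bm dn) (lo dn) ac fun k => (p k).ms) (dw dn) (po dn (ng dn).1 (ng dn).2 y.2 s)
    (af dn (bm dn) (lo dn) fun k => (p k).alpha) (ts dn (ng dn).1 y.2))

end Vale.Agent.P283B.Mk
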